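import Vale.Agent.P048.Engine

namespace Vale.Agent.P048

def t_3_2_0 : Tm := ⟨2, [(0, 1)]⟩

def f_3_2_0 : Pf :=
 .seq [
  .new2 0,
  .x 1 2 (.clq [1, 2, 0]),
  .x 1 3 (.clq [1, 3, 0]),
  .new2 1,
  .x 2 4 (.cyc 2 [0, 1, 4]),
  .x 2 5 (.cyc 2 [0, 1, 5]),
  .x 3 4 (.cyc 3 [0, 1, 4]),
  .x 3 5 (.cyc 3 [0, 1, 5])]
 (.ind [2, 3, 4, 5])

def d_3_2 : List (Tm × Pf) := [(t_3_2_0, f_3_2_0)]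

theorem k_3_2 : killFull 3 2 d_3_2 = true := by decide +kernel

def t_3_3_0 : Tm := ⟨3, [(0, 1), (0, 2), (1, 2)]⟩

def f_3_3_0 : Pf :=
 .seq [
  .new 0,
  .x 1 3 (.cyc 1 [2, 0, 3]),
  .x 2 3 (.cyc 2 [1, 0, 3]),
  .new 1,
  .x 0 4 (.cyc 0 [2, 1, 4]),
  .x 2 4 (.cyc 2 [0, 1, 4]),
  .x 3 4 (.cyc 3 [0, 1, 4]),
  .new 2,
  .x 0 5 (.cyc 0 [1, 2, 5]),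
  .x 1 5 (.cyc 1 [0, 2, 5]),
  .x 3 5 (.cyc 3 [0, 2, 5]),
  .x 4 5 (.cyc 4 [1, 2, 5]),
  .new 3,
  .x 1 6 (.cyc 1 [0, 3, 6]),
  .x 2 6 (.cyc 2 [0, 3, 6]),
  .new 3,
  .x 1 7 (.cyc 1 [0, 3, 7]),
  .x 2 7 (.cyc 2 [0, 3, 7])]
 (.br 4 6
 (.seq [
  .x 0 6 (.cyc 0 [1, 4, 6]),
  .x 4 7 (.cyc 4 [6, 3, 7]),
  .new 4,
  .x 0 8 (.cyc 0 [1, 4, 8]),
  .x 2 8 (.cyc 2 [1, 4, 8]),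
  .x 3 8 (.cyc 3 [6, 4, 8])]
 (.br 5 6
 (.seq [
  .x 5 7 (.cyc 5 [6, 3, 7]),
  .x 5 8 (.cyc 5 [6, 4, 8]),
  .new 5,
  .x 3 9 (.cyc 3 [6, 5, 9]),
  .x 4 9 (.cyc 4 [6, 5, 9])]
 (.br 7 0
 (.seq [
  .x 6 7 (.cyc 6 [3, 0, 7])]
 (.br 7 8
 (.seq [
  .x 1 8 (.cyc 1 [0, 7, 8])]
 (.ind [1, 3, 5, 8]))
 (.br 7 9
 (.seq [
  .x 2 9 (.cyc 2 [0, 7, 9])]
 (.ind [2, 3, 4, 9]))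
 (.seq [
  .new 7]
 (.big)))))
 (.ind [0, 4, 5, 7])))
 (.br 5 7
 (.seq [
  .x 0 7 (.cyc 0 [2, 5, 7])]
 (.br 5 8
 (.seq [
  .x 1 8 (.cyc 1 [2, 5, 8])]
 (.br 6 7
 (.seq [
  .x 6 8 (.cyc 6 [7, 5, 8]),
  .x 7 8 (.cyc 7 [6, 4, 8]),
  .new 8,
  .x 1 9 (.cyc 1 [4, 8, 9]),
  .x 6 9 (.cyc 6 [4, 8, 9]),
  .x 7 9 (.cyc 7 [5, 8, 9])]
 (.br 9 0
 (.seq [
  .x 5 9 (.cyc 5 [2, 0, 9])]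
 (.ind [1, 5, 6, 9]))
 (.br 9 4
 (.seq [
  .x 5 9 (.cyc 5 [8, 4, 9])]
 (.ind [0, 5, 6, 9]))
 (.ind [0, 4, 7, 9]))))
 (.br 6 8
 (.seq [
  .x 7 8 (.cyc 7 [3, 6, 8]),
  .new 7,
  .x 0 9 (.cyc 0 [3, 7, 9]),
  .x 6 9 (.cyc 6 [3, 7, 9]),
  .x 8 9 (.cyc 8 [5, 7, 9])]
 (.br 9 1
 (.seq [
  .x 5 9 (.cyc 5 [2, 1, 9])]
 (.ind [0, 5, 6, 9]))
 (.br 9 3
 (.seq [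
  .x 4 9 (.cyc 4 [6, 3, 9]),
  .x 5 9 (.cyc 5 [7, 3, 9])]
 (.ind [0, 4, 5, 9]))
 (.ind [1, 3, 8, 9]))))
 (.seq [
  .new 6,
  .x 0 9 (.cyc 0 [3, 6, 9]),
  .x 1 9 (.cyc 1 [4, 6, 9]),
  .x 8 9 (.cyc 8 [4, 6, 9])]
 (.br 7 8
 (.br 9 3
 (.seq [
  .x 4 9 (.cyc 4 [6, 3, 9]),
  .x 5 9 (.cyc 5 [7, 3, 9])]
 (.ind [0, 4, 5, 9]))
 (.ind [1, 3, 8, 9]))
 (.ind [0, 6, 7, 8]))))))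
 (.seq [
  .new 5]
 (.br 6 8
 (.seq [
  .x 1 8 (.cyc 1 [4, 6, 8])]
 (.ind [1, 3, 5, 8]))
 (.ind [0, 5, 6, 8])))))
 (.br 5 8
 (.seq [
  .new 5]
 (.br 6 7
 (.seq [
  .x 0 7 (.cyc 0 [3, 6, 7])]
 (.ind [0, 4, 5, 7]))
 (.ind [1, 5, 6, 7])))
 (.seq [
  .new 5,
  .new 5]
 (.big))))))
 (.br 4 7
 (.seq [
  .x 0 7 (.cyc 0 [1, 4, 7]),
  .new 4,
  .x 0 8 (.cyc 0 [1, 4, 8]),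
  .x 2 8 (.cyc 2 [1, 4, 8]),
  .x 3 8 (.cyc 3 [7, 4, 8])]
 (.br 5 6
 (.seq [
  .x 0 6 (.cyc 0 [2, 5, 6]),
  .x 5 7 (.cyc 5 [6, 3, 7])]
 (.br 5 8
 (.seq [
  .x 1 8 (.cyc 1 [2, 5, 8])]
 (.br 6 7
 (.seq [
  .x 6 8 (.cyc 6 [7, 4, 8]),
  .x 7 8 (.cyc 7 [6, 5, 8]),
  .new 8,
  .x 1 9 (.cyc 1 [4, 8, 9]),
  .x 6 9 (.cyc 6 [5, 8, 9]),
  .x 7 9 (.cyc 7 [4, 8, 9])]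
 (.br 9 0
 (.seq [
  .x 5 9 (.cyc 5 [2, 0, 9])]
 (.ind [1, 5, 7, 9]))
 (.br 9 4
 (.seq [
  .x 5 9 (.cyc 5 [8, 4, 9])]
 (.ind [0, 5, 7, 9]))
 (.ind [0, 4, 6, 9]))))
 (.br 6 8
 (.seq [
  .x 7 8 (.cyc 7 [3, 6, 8]),
  .new 7,
  .x 0 9 (.cyc 0 [3, 7, 9]),
  .x 1 9 (.cyc 1 [4, 7, 9]),
  .x 8 9 (.cyc 8 [4, 7, 9])]
 (.br 9 3
 (.seq [
  .x 4 9 (.cyc 4 [7, 3, 9]),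
  .x 5 9 (.cyc 5 [6, 3, 9])]
 (.ind [0, 4, 5, 9]))
 (.ind [1, 3, 8, 9])))
 (.seq [
  .new 6,
  .x 0 9 (.cyc 0 [3, 6, 9]),
  .x 7 9 (.cyc 7 [3, 6, 9]),
  .x 8 9 (.cyc 8 [5, 6, 9])]
 (.br 7 8
 (.br 9 1
 (.seq [
  .x 5 9 (.cyc 5 [2, 1, 9])]
 (.ind [0, 5, 7, 9]))
 (.br 9 3
 (.seq [
  .x 4 9 (.cyc 4 [7, 3, 9]),
  .x 5 9 (.cyc 5 [6, 3, 9])]
 (.ind [0, 4, 5, 9]))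
 (.ind [1, 3, 8, 9])))
 (.ind [0, 6, 7, 8]))))))
 (.seq [
  .new 5]
 (.br 6 7
 (.br 8 1
 (.seq [
  .x 7 8 (.cyc 7 [4, 1, 8])]
 (.ind [0, 5, 7, 8]))
 (.ind [1, 3, 5, 8]))
 (.br 6 8
 (.seq [
  .x 7 8 (.cyc 7 [3, 6, 8])]
 (.ind [0, 5, 7, 8]))
 (.br 6 9
 (.br 7 8
 (.seq [
  .x 1 8 (.cyc 1 [4, 7, 8])]
 (.ind [1, 3, 5, 8]))
 (.ind [0, 5, 7, 8]))
 (.seq [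
  .new 6]
 (.big))))))))
 (.br 5 7
 (.seq [
  .x 5 8 (.cyc 5 [7, 4, 8]),
  .new 5,
  .x 3 9 (.cyc 3 [7, 5, 9]),
  .x 4 9 (.cyc 4 [7, 5, 9])]
 (.br 6 0
 (.seq [
  .x 6 7 (.cyc 6 [0, 3, 7])]
 (.br 6 8
 (.seq [
  .x 1 8 (.cyc 1 [0, 6, 8])]
 (.ind [1, 3, 5, 8]))
 (.br 6 9
 (.seq [
  .x 2 9 (.cyc 2 [0, 6, 9])]
 (.ind [2, 3, 4, 9]))
 (.seq [
  .new 6]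
 (.big)))))
 (.ind [0, 4, 5, 6])))
 (.br 5 8
 (.seq [
  .new 5]
 (.br 6 0
 (.seq [
  .x 6 7 (.cyc 6 [0, 3, 7])]
 (.ind [1, 5, 6, 7]))
 (.ind [0, 4, 5, 6])))
 (.seq [
  .new 5,
  .new 5]
 (.big))))))
 (.seq [
  .new 4,
  .new 4]
 (.br 5 6
 (.seq [
  .x 5 7 (.cyc 5 [6, 3, 7])]
 (.br 5 8
 (.br 6 7
 (.seq [
  .x 0 7 (.cyc 0 [3, 6, 7])]
 (.ind [0, 4, 5, 7]))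
 (.ind [2, 4, 6, 7]))
 (.br 5 9
 (.br 6 7
 (.seq [
  .x 0 7 (.cyc 0 [3, 6, 7])]
 (.ind [0, 4, 5, 7]))
 (.ind [2, 4, 6, 7]))
 (.seq [
  .new 5]
 (.big)))))
 (.br 5 7
 (.br 5 8
 (.br 6 0
 (.seq [
  .x 6 7 (.cyc 6 [0, 3, 7])]
 (.ind [2, 4, 6, 7]))
 (.ind [0, 4, 5, 6]))
 (.br 5 9
 (.br 6 0
 (.seq [
  .x 6 7 (.cyc 6 [0, 3, 7])]
 (.ind [2, 4, 6, 7]))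
 (.ind [0, 4, 5, 6]))
 (.seq [
  .new 5]
 (.big))))
 (.br 5 8
 (.seq [
  .x 5 9 (.cyc 5 [8, 4, 9]),
  .new 5]
 (.big))
 (.br 5 9
 (.seq [
  .new 5]
 (.big))
 (.seq [
  .new 5]
 (.big)))))))))

def d_3_3 : List (Tm × Pf) := [(t_3_3_0, f_3_3_0)]

theorem k_3_3 : killFull 3 3 d_3_3 = true := by decide +kernel

def t_4_2_0 : Tm := ⟨2, [(0, 1)]⟩

def f_4_2_0 : Pf :=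
 .seq [
  .new 0,
  .x 1 2 (.clq [1, 2, 0]),
  .new 0,
  .x 1 3 (.clq [1, 3, 0]),
  .x 2 3 (.clq [2, 3, 0]),
  .new 0,
  .x 1 4 (.clq [1, 4, 0]),
  .x 2 4 (.clq [2, 4, 0]),
  .x 3 4 (.clq [3, 4, 0]),
  .new 1,
  .x 0 5 (.clq [0, 5, 1]),
  .new 1,
  .x 0 6 (.clq [0, 6, 1]),
  .x 5 6 (.clq [5, 6, 1]),
  .new 1,
  .x 0 7 (.clq [0, 7, 1]),
  .x 5 7 (.clq [5, 7, 1]),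
  .x 6 7 (.clq [6, 7, 1])]
 (.br 2 5
 (.br 2 6
 (.br 2 7
 (.br 3 5
 (.br 3 6
 (.br 3 7
 (.br 4 5
 (.br 4 6
 (.br 4 7
 (.seq [
  .free 0 [5, 6, 7]]
 (.br 8 0
 (.seq [
  .x 1 8 (.clq [1, 8, 0]),
  .x 2 8 (.clq [2, 8, 0]),
  .x 3 8 (.clq [3, 8, 0]),
  .x 4 8 (.clq [4, 8, 0])]
 (.ind [1, 2, 3, 4, 8]))
 (.br 8 1
 (.seq [
  .x 5 8 (.clq [5, 8, 1]),
  .x 6 8 (.clq [6, 8, 1]),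
  .x 7 8 (.clq [7, 8, 1])]
 (.ind [0, 5, 6, 7, 8]))
 (.br 8 2
 (.seq [
  .x 5 8 (.clq [5, 8, 2]),
  .x 6 8 (.clq [6, 8, 2]),
  .x 7 8 (.clq [7, 8, 2])]
 (.ind [0, 5, 6, 7, 8]))
 (.br 8 3
 (.seq [
  .x 5 8 (.clq [5, 8, 3]),
  .x 6 8 (.clq [6, 8, 3]),
  .x 7 8 (.clq [7, 8, 3])]
 (.ind [0, 5, 6, 7, 8]))
 (.br 8 4
 (.seq [
  .x 5 8 (.clq [5, 8, 4]),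
  .x 6 8 (.clq [6, 8, 4]),
  .x 7 8 (.clq [7, 8, 4])]
 (.ind [0, 5, 6, 7, 8]))
 (.ind [1, 2, 3, 4, 8])))))))
 (.seq [
  .new 7,
  .x 1 8 (.clq [1, 8, 7]),
  .x 2 8 (.clq [2, 8, 7]),
  .x 3 8 (.clq [3, 8, 7]),
  .x 4 8 (.cyc 4 [0, 1, 7, 8])]
 (.ind [1, 2, 3, 4, 8])))
 (.seq [
  .new 4,
  .x 0 8 (.clq [0, 8, 4]),
  .x 5 8 (.clq [5, 8, 4]),
  .x 6 8 (.cyc 6 [1, 0, 4, 8]),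
  .x 7 8 (.cyc 7 [1, 0, 4, 8])]
 (.ind [0, 5, 6, 7, 8])))
 (.seq [
  .new 4,
  .x 0 8 (.clq [0, 8, 4]),
  .x 5 8 (.cyc 5 [1, 0, 4, 8]),
  .x 6 8 (.cyc 6 [1, 0, 4, 8]),
  .x 7 8 (.cyc 7 [1, 0, 4, 8])]
 (.ind [0, 5, 6, 7, 8])))
 (.seq [
  .new 7,
  .x 1 8 (.clq [1, 8, 7]),
  .x 2 8 (.clq [2, 8, 7]),
  .x 3 8 (.cyc 3 [0, 1, 7, 8]),
  .x 4 8 (.cyc 4 [0, 1, 7, 8])]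
 (.ind [1, 2, 3, 4, 8])))
 (.seq [
  .new 3,
  .x 0 8 (.clq [0, 8, 3]),
  .x 5 8 (.clq [5, 8, 3]),
  .x 6 8 (.cyc 6 [1, 0, 3, 8]),
  .x 7 8 (.cyc 7 [1, 0, 3, 8])]
 (.ind [0, 5, 6, 7, 8])))
 (.seq [
  .new 3,
  .x 0 8 (.clq [0, 8, 3]),
  .x 5 8 (.cyc 5 [1, 0, 3, 8]),
  .x 6 8 (.cyc 6 [1, 0, 3, 8]),
  .x 7 8 (.cyc 7 [1, 0, 3, 8])]
 (.ind [0, 5, 6, 7, 8])))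
 (.seq [
  .new 7,
  .x 1 8 (.clq [1, 8, 7]),
  .x 2 8 (.cyc 2 [0, 1, 7, 8]),
  .x 3 8 (.cyc 3 [0, 1, 7, 8]),
  .x 4 8 (.cyc 4 [0, 1, 7, 8])]
 (.ind [1, 2, 3, 4, 8])))
 (.seq [
  .new 2,
  .x 0 8 (.clq [0, 8, 2]),
  .x 5 8 (.clq [5, 8, 2]),
  .x 6 8 (.cyc 6 [1, 0, 2, 8]),
  .x 7 8 (.cyc 7 [1, 0, 2, 8])]
 (.ind [0, 5, 6, 7, 8])))
 (.seq [
  .new 2,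
  .x 0 8 (.clq [0, 8, 2]),
  .x 5 8 (.cyc 5 [1, 0, 2, 8]),
  .x 6 8 (.cyc 6 [1, 0, 2, 8]),
  .x 7 8 (.cyc 7 [1, 0, 2, 8])]
 (.ind [0, 5, 6, 7, 8])))

def d_4_2 : List (Tm × Pf) := [(t_4_2_0, f_4_2_0)]

theorem k_4_2 : killFull 4 2 d_4_2 = true := by decide +kernel

def t_4_3_0 : Tm := ⟨7, [(0, 1), (0, 2), (1, 2), (0, 3), (3, 4), (4, 5), (5, 6), (6, 1)]⟩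

def f_4_3_0 : Pf :=
 .seq [
  .x 0 4 (.cyc 0 [1, 6, 5, 4]),
  .x 0 5 (.cyc 0 [2, 1, 6, 5]),
  .x 0 6 (.cyc 0 [3, 4, 5, 6]),
  .x 1 3 (.cyc 1 [6, 5, 4, 3]),
  .x 1 4 (.cyc 1 [2, 0, 3, 4]),
  .x 1 5 (.cyc 1 [0, 3, 4, 5]),
  .x 2 4 (.cyc 2 [1, 0, 3, 4]),
  .x 2 5 (.cyc 2 [0, 1, 6, 5]),
  .x 3 5 (.cyc 3 [0, 1, 6, 5]),
  .x 3 6 (.cyc 3 [0, 2, 1, 6]),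
  .x 4 6 (.cyc 4 [3, 0, 1, 6]),
  .new 0,
  .x 5 7 (.cyc 5 [4, 3, 0, 7]),
  .x 6 7 (.cyc 6 [1, 2, 0, 7])]
 (.br 1 7
 (.seq [
  .x 2 3 (.cyc 2 [1, 7, 0, 3]),
  .x 2 6 (.cyc 2 [0, 7, 1, 6]),
  .x 2 7 (.clq [2, 7, 0, 1]),
  .x 3 7 (.cyc 3 [0, 2, 1, 7]),
  .x 4 7 (.cyc 4 [3, 0, 1, 7]),
  .new 5,
  .x 2 8 (.cyc 2 [1, 6, 5, 8]),
  .x 7 8 (.cyc 7 [1, 6, 5, 8]),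
  .new 6,
  .x 2 9 (.cyc 2 [0, 1, 6, 9]),
  .x 3 9 (.cyc 3 [0, 1, 6, 9]),
  .x 7 9 (.cyc 7 [0, 1, 6, 9]),
  .new 3,
  .x 7 10 (.cyc 7 [1, 0, 3, 10]),
  .new 2,
  .x 0 11 (.cyc 0 [7, 1, 2, 11]),
  .x 4 11 (.cyc 4 [3, 0, 2, 11]),
  .x 6 11 (.cyc 6 [1, 0, 2, 11]),
  .new 7,
  .x 0 12 (.cyc 0 [2, 1, 7, 12]),
  .x 4 12 (.cyc 4 [3, 0, 7, 12]),
  .x 6 12 (.cyc 6 [1, 0, 7, 12]),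
  .x 11 12 (.cyc 11 [2, 0, 7, 12])]
 (.ind [0, 4, 6, 11, 12]))
 (.seq [
  .new 1,
  .x 3 8 (.cyc 3 [0, 2, 1, 8]),
  .x 4 8 (.cyc 4 [3, 0, 1, 8]),
  .x 7 8 (.cyc 7 [0, 2, 1, 8])]
 (.br 2 3
 (.seq [
  .x 0 8 (.cyc 0 [3, 2, 1, 8]),
  .x 2 6 (.cyc 2 [3, 0, 1, 6]),
  .x 2 8 (.cyc 2 [3, 0, 1, 8]),
  .x 3 7 (.cyc 3 [2, 1, 0, 7]),
  .x 4 7 (.cyc 4 [3, 2, 0, 7])]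
 (.br 2 7
 (.seq [
  .new 3,
  .x 0 9 (.cyc 0 [1, 2, 3, 9]),
  .x 1 9 (.cyc 1 [0, 2, 3, 9]),
  .x 2 9 (.cyc 2 [1, 0, 3, 9]),
  .x 6 9 (.cyc 6 [1, 0, 3, 9]),
  .x 7 9 (.cyc 7 [0, 2, 3, 9]),
  .x 8 9 (.cyc 8 [1, 0, 3, 9])]
 (.br 4 9
 (.seq [
  .new 4,
  .x 0 10 (.cyc 0 [2, 3, 4, 10]),
  .x 1 10 (.cyc 1 [0, 3, 4, 10]),
  .x 2 10 (.cyc 2 [0, 3, 4, 10]),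
  .x 7 10 (.cyc 7 [0, 3, 4, 10])]
 (.br 5 8
 (.br 5 9
 (.seq [
  .x 3 10 (.cyc 3 [9, 5, 4, 10]),
  .x 5 10 (.cyc 5 [9, 3, 4, 10])]
 (.ind [1, 3, 5, 7, 10]))
 (.br 5 10
 (.seq [
  .x 6 10 (.cyc 6 [1, 8, 5, 10]),
  .new 6,
  .x 1 11 (.cyc 1 [8, 5, 6, 11]),
  .x 3 11 (.cyc 3 [0, 1, 6, 11]),
  .x 5 11 (.cyc 5 [8, 1, 6, 11]),
  .x 7 11 (.cyc 7 [0, 1, 6, 11])]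
 (.ind [1, 3, 5, 7, 11]))
 (.seq [
  .new 5,
  .x 9 11 (.cyc 9 [3, 4, 5, 11]),
  .new 9,
  .x 1 12 (.cyc 1 [0, 3, 9, 12]),
  .x 5 12 (.cyc 5 [4, 3, 9, 12]),
  .x 7 12 (.cyc 7 [0, 3, 9, 12]),
  .x 10 12 (.cyc 10 [4, 3, 9, 12])]
 (.ind [1, 5, 7, 10, 12]))))
 (.br 5 9
 (.seq [
  .x 3 10 (.cyc 3 [9, 5, 4, 10]),
  .x 5 10 (.cyc 5 [9, 3, 4, 10])]
 (.ind [1, 3, 5, 7, 10]))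
 (.br 5 10
 (.seq [
  .x 3 10 (.cyc 3 [9, 4, 5, 10]),
  .x 8 10 (.cyc 8 [1, 6, 5, 10]),
  .x 9 10 (.cyc 9 [3, 4, 5, 10]),
  .new 5,
  .x 0 11 (.cyc 0 [1, 6, 5, 11]),
  .x 2 11 (.cyc 2 [1, 6, 5, 11]),
  .x 3 11 (.cyc 3 [4, 10, 5, 11]),
  .x 8 11 (.cyc 8 [1, 6, 5, 11]),
  .x 9 11 (.cyc 9 [3, 4, 5, 11])]
 (.br 6 8
 (.seq [
  .x 1 11 (.cyc 1 [8, 6, 5, 11])]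
 (.br 6 10
 (.seq [
  .x 4 11 (.cyc 4 [10, 6, 5, 11]),
  .x 6 11 (.cyc 6 [10, 4, 5, 11])]
 (.br 7 11
 (.seq [
  .new 11,
  .x 0 12 (.cyc 0 [2, 7, 11, 12]),
  .x 8 12 (.cyc 8 [6, 5, 11, 12]),
  .x 9 12 (.cyc 9 [4, 5, 11, 12]),
  .x 10 12 (.cyc 10 [4, 5, 11, 12])]
 (.ind [0, 8, 9, 10, 12]))
 (.seq [
  .new 7,
  .x 8 12 (.cyc 8 [1, 0, 7, 12]),
  .x 9 12 (.cyc 9 [3, 0, 7, 12]),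
  .new 7,
  .x 8 13 (.cyc 8 [1, 0, 7, 13]),
  .x 9 13 (.cyc 9 [3, 0, 7, 13]),
  .new 8,
  .x 0 14 (.cyc 0 [1, 6, 8, 14]),
  .x 4 14 (.cyc 4 [5, 6, 8, 14]),
  .x 11 14 (.cyc 11 [5, 6, 8, 14]),
  .new 8,
  .x 0 15 (.cyc 0 [1, 6, 8, 15]),
  .x 4 15 (.cyc 4 [5, 6, 8, 15]),
  .x 11 15 (.cyc 11 [5, 6, 8, 15])]
 (.br 9 14
 (.seq [
  .x 6 14 (.cyc 6 [5, 4, 9, 14])]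
 (.ind [0, 4, 6, 11, 14]))
 (.br 9 15
 (.seq [
  .x 6 15 (.cyc 6 [5, 4, 9, 15])]
 (.ind [0, 4, 6, 11, 15]))
 (.seq [
  .new 9,
  .new 9]
 (.big)))))))
 (.seq [
  .new 10,
  .x 0 12 (.cyc 0 [3, 4, 10, 12]),
  .x 8 12 (.cyc 8 [6, 5, 10, 12]),
  .x 9 12 (.cyc 9 [3, 4, 10, 12]),
  .x 11 12 (.cyc 11 [5, 4, 10, 12])]
 (.ind [0, 8, 9, 11, 12]))))
 (.seq [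
  .new 9,
  .x 7 12 (.cyc 7 [0, 3, 9, 12]),
  .new 7,
  .x 0 13 (.cyc 0 [1, 2, 7, 13]),
  .x 4 13 (.cyc 4 [3, 0, 7, 13]),
  .x 6 13 (.cyc 6 [1, 0, 7, 13]),
  .x 8 13 (.cyc 8 [1, 0, 7, 13])]
 (.ind [0, 4, 6, 8, 13]))))
 (.seq [
  .new 7,
  .x 9 11 (.cyc 9 [3, 0, 7, 11]),
  .new 5,
  .x 9 12 (.cyc 9 [3, 4, 5, 12]),
  .new 9,
  .x 1 13 (.cyc 1 [0, 3, 9, 13]),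
  .x 5 13 (.cyc 5 [4, 3, 9, 13]),
  .x 7 13 (.cyc 7 [0, 3, 9, 13]),
  .x 10 13 (.cyc 10 [4, 3, 9, 13])]
 (.ind [1, 5, 7, 10, 13]))))))
 (.seq [
  .new 7,
  .x 0 10 (.cyc 0 [1, 2, 7, 10]),
  .x 4 10 (.cyc 4 [3, 0, 7, 10]),
  .x 6 10 (.cyc 6 [1, 0, 7, 10]),
  .x 9 10 (.cyc 9 [3, 0, 7, 10])]
 (.ind [0, 4, 6, 9, 10]))))
 (.seq [
  .new 8,
  .x 2 9 (.cyc 2 [0, 1, 8, 9]),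
  .x 5 9 (.cyc 5 [6, 1, 8, 9]),
  .new 5,
  .x 2 10 (.cyc 2 [1, 6, 5, 10]),
  .new 2,
  .x 1 11 (.cyc 1 [0, 3, 2, 11]),
  .x 3 11 (.cyc 3 [0, 1, 2, 11]),
  .x 5 11 (.cyc 5 [4, 3, 2, 11]),
  .x 7 11 (.cyc 7 [0, 1, 2, 11])]
 (.ind [1, 3, 5, 7, 11]))))
 (.br 2 6
 (.seq [
  .x 0 8 (.cyc 0 [2, 6, 1, 8]),
  .x 2 7 (.cyc 2 [6, 1, 0, 7]),
  .x 5 8 (.cyc 5 [6, 2, 1, 8]),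
  .x 6 8 (.cyc 6 [2, 0, 1, 8])]
 (.br 2 8
 (.br 3 7
 (.seq [
  .new 3,
  .x 1 9 (.cyc 1 [0, 7, 3, 9]),
  .x 2 9 (.cyc 2 [0, 7, 3, 9]),
  .x 6 9 (.cyc 6 [1, 0, 3, 9]),
  .x 8 9 (.cyc 8 [1, 0, 3, 9])]
 (.br 4 7
 (.seq [
  .x 0 9 (.cyc 0 [7, 4, 3, 9]),
  .x 4 9 (.cyc 4 [7, 0, 3, 9])]
 (.ind [0, 4, 6, 8, 9]))
 (.br 4 9
 (.seq [
  .x 0 9 (.cyc 0 [7, 3, 4, 9]),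
  .x 7 9 (.cyc 7 [0, 3, 4, 9]),
  .new 4,
  .x 0 10 (.cyc 0 [3, 9, 4, 10]),
  .x 1 10 (.cyc 1 [0, 3, 4, 10]),
  .x 2 10 (.cyc 2 [0, 3, 4, 10]),
  .x 7 10 (.cyc 7 [0, 3, 4, 10])]
 (.br 5 9
 (.seq [
  .x 3 10 (.cyc 3 [9, 5, 4, 10]),
  .x 5 10 (.cyc 5 [9, 3, 4, 10]),
  .x 6 10 (.cyc 6 [5, 9, 4, 10]),
  .new 5,
  .x 0 11 (.cyc 0 [1, 6, 5, 11]),
  .x 1 11 (.cyc 1 [2, 6, 5, 11]),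
  .x 4 11 (.cyc 4 [3, 9, 5, 11]),
  .x 7 11 (.cyc 7 [3, 4, 5, 11]),
  .x 8 11 (.cyc 8 [1, 6, 5, 11]),
  .x 9 11 (.cyc 9 [3, 4, 5, 11]),
  .x 10 11 (.cyc 10 [4, 9, 5, 11])]
 (.br 6 11
 (.seq [
  .new 7,
  .x 8 12 (.cyc 8 [1, 0, 7, 12]),
  .x 10 12 (.cyc 10 [4, 3, 7, 12]),
  .new 7,
  .x 8 13 (.cyc 8 [1, 0, 7, 13]),
  .x 10 13 (.cyc 10 [4, 3, 7, 13])]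
 (.br 8 10
 (.seq [
  .new 10,
  .x 1 14 (.cyc 1 [2, 8, 10, 14]),
  .x 7 14 (.cyc 7 [3, 4, 10, 14]),
  .x 9 14 (.cyc 9 [3, 4, 10, 14]),
  .x 11 14 (.cyc 11 [5, 4, 10, 14])]
 (.ind [1, 7, 9, 11, 14]))
 (.seq [
  .new 8,
  .x 1 14 (.cyc 1 [0, 2, 8, 14]),
  .x 3 14 (.cyc 3 [0, 1, 8, 14]),
  .x 5 14 (.cyc 5 [6, 1, 8, 14]),
  .x 7 14 (.cyc 7 [0, 1, 8, 14]),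
  .x 11 14 (.cyc 11 [6, 1, 8, 14]),
  .new 8]
 (.br 9 10
 (.br 10 14
 (.seq [
  .x 4 14 (.cyc 4 [3, 9, 10, 14])]
 (.ind [1, 4, 7, 11, 14]))
 (.ind [1, 3, 5, 10, 14]))
 (.ind [0, 6, 8, 9, 10])))))
 (.ind [0, 4, 6, 8, 11])))
 (.br 5 10
 (.seq [
  .x 8 10 (.cyc 8 [1, 6, 5, 10]),
  .x 9 10 (.cyc 9 [3, 4, 5, 10]),
  .new 5,
  .x 0 11 (.cyc 0 [1, 6, 5, 11]),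
  .x 8 11 (.cyc 8 [1, 6, 5, 11])]
 (.br 6 10
 (.seq [
  .x 4 11 (.cyc 4 [10, 6, 5, 11]),
  .x 6 11 (.cyc 6 [10, 4, 5, 11])]
 (.ind [0, 4, 6, 8, 11]))
 (.ind [0, 6, 8, 9, 10])))
 (.seq [
  .new 9,
  .x 1 11 (.cyc 1 [0, 3, 9, 11]),
  .x 5 11 (.cyc 5 [4, 3, 9, 11]),
  .x 7 11 (.cyc 7 [0, 3, 9, 11]),
  .x 10 11 (.cyc 10 [4, 3, 9, 11])]
 (.ind [1, 5, 7, 10, 11])))))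
 (.seq [
  .new 4,
  .x 7 10 (.cyc 7 [0, 3, 4, 10]),
  .new 7,
  .x 4 11 (.cyc 4 [3, 0, 7, 11]),
  .x 6 11 (.cyc 6 [1, 0, 7, 11]),
  .x 8 11 (.cyc 8 [1, 0, 7, 11]),
  .x 9 11 (.cyc 9 [3, 0, 7, 11])]
 (.ind [4, 6, 8, 9, 11])))))
 (.seq [
  .new 4,
  .new 7,
  .x 8 10 (.cyc 8 [1, 0, 7, 10]),
  .new 8,
  .x 1 11 (.cyc 1 [0, 2, 8, 11]),
  .x 3 11 (.cyc 3 [0, 1, 8, 11]),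
  .x 5 11 (.cyc 5 [6, 1, 8, 11]),
  .x 7 11 (.cyc 7 [0, 1, 8, 11])]
 (.ind [1, 3, 5, 7, 11])))
 (.seq [
  .new 3,
  .x 8 9 (.cyc 8 [1, 0, 3, 9]),
  .new2 8,
  .x 2 10 (.cyc 2 [0, 1, 8, 10]),
  .x 2 11 (.cyc 2 [0, 1, 8, 11]),
  .x 3 10 (.cyc 3 [0, 1, 8, 10]),
  .x 3 11 (.cyc 3 [0, 1, 8, 11]),
  .x 5 10 (.cyc 5 [6, 1, 8, 10]),
  .x 5 11 (.cyc 5 [6, 1, 8, 11])]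
 (.ind [2, 3, 5, 10, 11]))))
 (.br 2 7
 (.seq [
  .x 2 8 (.cyc 2 [7, 0, 1, 8]),
  .x 3 7 (.cyc 3 [0, 1, 2, 7]),
  .x 4 7 (.cyc 4 [3, 0, 2, 7]),
  .new 7,
  .x 2 9 (.cyc 2 [1, 0, 7, 9]),
  .x 6 9 (.cyc 6 [1, 0, 7, 9]),
  .new 3,
  .x 2 10 (.cyc 2 [1, 0, 3, 10]),
  .x 6 10 (.cyc 6 [1, 0, 3, 10]),
  .new 6,
  .x 2 11 (.cyc 2 [0, 1, 6, 11]),
  .new 2,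
  .x 1 12 (.cyc 1 [0, 7, 2, 12]),
  .x 3 12 (.cyc 3 [0, 1, 2, 12]),
  .x 5 12 (.cyc 5 [6, 1, 2, 12]),
  .x 7 12 (.cyc 7 [0, 1, 2, 12])]
 (.ind [1, 3, 5, 7, 12]))
 (.br 2 8
 (.seq [
  .x 0 8 (.clq [0, 8, 1, 2]),
  .x 6 8 (.cyc 6 [1, 0, 2, 8]),
  .new 6,
  .x 2 9 (.cyc 2 [0, 1, 6, 9]),
  .x 7 9 (.cyc 7 [0, 1, 6, 9]),
  .new 7,
  .x 2 10 (.cyc 2 [1, 0, 7, 10]),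
  .new 2,
  .x 0 11 (.cyc 0 [1, 8, 2, 11]),
  .x 4 11 (.cyc 4 [3, 0, 2, 11]),
  .x 6 11 (.cyc 6 [1, 0, 2, 11]),
  .x 8 11 (.cyc 8 [1, 0, 2, 11])]
 (.ind [0, 4, 6, 8, 11]))
 (.seq [
  .new 2,
  .x 3 9 (.cyc 3 [0, 1, 2, 9]),
  .x 4 9 (.cyc 4 [3, 0, 2, 9]),
  .x 5 9 (.cyc 5 [6, 1, 2, 9]),
  .x 6 9 (.cyc 6 [1, 0, 2, 9]),
  .x 7 9 (.cyc 7 [0, 1, 2, 9]),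
  .x 8 9 (.cyc 8 [1, 0, 2, 9]),
  .new 2,
  .x 3 10 (.cyc 3 [0, 1, 2, 10]),
  .x 4 10 (.cyc 4 [3, 0, 2, 10]),
  .x 5 10 (.cyc 5 [6, 1, 2, 10]),
  .x 6 10 (.cyc 6 [1, 0, 2, 10]),
  .x 7 10 (.cyc 7 [0, 1, 2, 10]),
  .x 8 10 (.cyc 8 [1, 0, 2, 10])]
 (.br 3 7
 (.seq [
  .new 3,
  .x 1 11 (.cyc 1 [0, 7, 3, 11]),
  .x 2 11 (.cyc 2 [0, 7, 3, 11]),
  .x 6 11 (.cyc 6 [1, 0, 3, 11]),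
  .x 8 11 (.cyc 8 [1, 0, 3, 11]),
  .x 9 11 (.cyc 9 [2, 0, 3, 11]),
  .x 10 11 (.cyc 10 [2, 0, 3, 11])]
 (.br 4 7
 (.seq [
  .x 0 11 (.cyc 0 [7, 4, 3, 11]),
  .x 4 11 (.cyc 4 [7, 0, 3, 11]),
  .x 5 11 (.cyc 5 [4, 7, 3, 11]),
  .new 4,
  .x 1 12 (.cyc 1 [0, 3, 4, 12]),
  .x 2 12 (.cyc 2 [0, 3, 4, 12]),
  .x 3 12 (.cyc 3 [0, 7, 4, 12]),
  .x 7 12 (.cyc 7 [0, 3, 4, 12]),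
  .x 11 12 (.cyc 11 [3, 7, 4, 12])]
 (.br 5 8
 (.seq [
  .x 0 8 (.cyc 0 [1, 6, 5, 8])]
 (.br 5 12
 (.seq [
  .x 6 12 (.cyc 6 [1, 8, 5, 12]),
  .x 8 12 (.cyc 8 [1, 6, 5, 12])]
 (.br 6 8
 (.seq [
  .new 6,
  .x 2 13 (.cyc 2 [0, 1, 6, 13]),
  .x 3 13 (.cyc 3 [0, 1, 6, 13]),
  .x 12 13 (.cyc 12 [4, 5, 6, 13])]
 (.br 7 11
 (.br 8 13
 (.br 9 0
 (.seq [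
  .x 1 9 (.clq [1, 9, 0, 2]),
  .x 1 10 (.cyc 1 [0, 9, 2, 10]),
  .x 9 10 (.cyc 9 [0, 1, 2, 10])]
 (.ind [1, 3, 5, 9, 10]))
 (.ind [0, 4, 6, 9, 11]))
 (.ind [2, 3, 8, 12, 13]))
 (.ind [2, 6, 7, 11, 12])))
 (.ind [0, 4, 6, 8, 11])))
 (.seq [
  .new 11,
  .x 1 13 (.cyc 1 [0, 3, 11, 13]),
  .x 5 13 (.cyc 5 [4, 3, 11, 13]),
  .x 7 13 (.cyc 7 [0, 3, 11, 13]),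
  .x 12 13 (.cyc 12 [4, 3, 11, 13])]
 (.ind [1, 5, 7, 12, 13]))))
 (.br 5 12
 (.seq [
  .x 8 12 (.cyc 8 [1, 6, 5, 12]),
  .new 5,
  .x 0 13 (.cyc 0 [1, 6, 5, 13]),
  .x 8 13 (.cyc 8 [1, 6, 5, 13]),
  .x 11 13 (.cyc 11 [3, 4, 5, 13])]
 (.br 6 8
 (.seq [
  .x 0 8 (.cyc 0 [2, 1, 6, 8])]
 (.br 6 12
 (.seq [
  .x 4 13 (.cyc 4 [12, 6, 5, 13]),
  .x 6 13 (.cyc 6 [12, 4, 5, 13])]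
 (.ind [0, 4, 6, 11, 13]))
 (.br 6 13
 (.seq [
  .x 4 13 (.cyc 4 [12, 5, 6, 13])]
 (.ind [0, 4, 8, 11, 13]))
 (.seq [
  .new 6,
  .x 2 14 (.cyc 2 [0, 1, 6, 14]),
  .x 3 14 (.cyc 3 [0, 1, 6, 14]),
  .x 12 14 (.cyc 12 [4, 5, 6, 14]),
  .new 8,
  .x 2 15 (.cyc 2 [0, 1, 8, 15]),
  .x 3 15 (.cyc 3 [0, 1, 8, 15]),
  .x 12 15 (.cyc 12 [5, 6, 8, 15]),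
  .x 14 15 (.cyc 14 [6, 1, 8, 15])]
 (.ind [2, 3, 12, 14, 15])))))
 (.ind [2, 4, 6, 8, 11])))
 (.seq [
  .new 5,
  .new 11,
  .x 1 14 (.cyc 1 [0, 3, 11, 14]),
  .x 5 14 (.cyc 5 [4, 3, 11, 14]),
  .x 7 14 (.cyc 7 [0, 3, 11, 14]),
  .x 12 14 (.cyc 12 [4, 3, 11, 14])]
 (.ind [1, 5, 7, 12, 14])))))
 (.br 4 11
 (.seq [
  .x 7 11 (.cyc 7 [0, 3, 4, 11]),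
  .new 4,
  .x 1 12 (.cyc 1 [0, 3, 4, 12]),
  .x 2 12 (.cyc 2 [0, 3, 4, 12]),
  .x 7 12 (.cyc 7 [0, 3, 4, 12])]
 (.br 5 8
 (.br 5 11
 (.seq [
  .x 3 12 (.cyc 3 [11, 5, 4, 12]),
  .x 5 12 (.cyc 5 [11, 3, 4, 12]),
  .x 6 12 (.cyc 6 [5, 11, 4, 12]),
  .new 6,
  .x 1 13 (.cyc 1 [8, 5, 6, 13]),
  .x 3 13 (.cyc 3 [0, 1, 6, 13]),
  .x 5 13 (.cyc 5 [8, 1, 6, 13]),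
  .x 12 13 (.cyc 12 [4, 5, 6, 13])]
 (.ind [1, 3, 5, 12, 13]))
 (.br 5 12
 (.seq [
  .x 6 12 (.cyc 6 [1, 8, 5, 12]),
  .x 11 12 (.cyc 11 [3, 4, 5, 12])]
 (.ind [2, 6, 7, 11, 12]))
 (.seq [
  .new 5,
  .x 2 13 (.cyc 2 [1, 6, 5, 13]),
  .x 6 13 (.cyc 6 [1, 8, 5, 13]),
  .x 7 13 (.cyc 7 [3, 4, 5, 13]),
  .x 11 13 (.cyc 11 [3, 4, 5, 13])]
 (.ind [2, 6, 7, 11, 13]))))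
 (.br 5 11
 (.seq [
  .x 5 12 (.cyc 5 [11, 3, 4, 12]),
  .new 5,
  .x 2 13 (.cyc 2 [1, 6, 5, 13]),
  .x 4 13 (.cyc 4 [3, 11, 5, 13]),
  .x 7 13 (.cyc 7 [3, 4, 5, 13]),
  .x 8 13 (.cyc 8 [1, 6, 5, 13])]
 (.ind [2, 4, 7, 8, 13]))
 (.ind [2, 5, 7, 8, 11]))))
 (.seq [
  .new 4,
  .x 7 12 (.cyc 7 [0, 3, 4, 12]),
  .new 7,
  .x 2 13 (.cyc 2 [0, 3, 7, 13]),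
  .x 4 13 (.cyc 4 [3, 0, 7, 13]),
  .x 6 13 (.cyc 6 [1, 0, 7, 13]),
  .x 11 13 (.cyc 11 [3, 0, 7, 13])]
 (.ind [2, 4, 6, 11, 13])))))
 (.seq [
  .new 3,
  .x 1 11 (.cyc 1 [2, 0, 3, 11]),
  .x 2 11 (.cyc 2 [1, 0, 3, 11]),
  .x 6 11 (.cyc 6 [1, 0, 3, 11]),
  .new 3,
  .x 1 12 (.cyc 1 [2, 0, 3, 12]),
  .x 2 12 (.cyc 2 [1, 0, 3, 12]),
  .x 6 12 (.cyc 6 [1, 0, 3, 12])]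
 (.br 4 7
 (.seq [
  .x 4 11 (.cyc 4 [7, 0, 3, 11]),
  .x 4 12 (.cyc 4 [7, 0, 3, 12]),
  .new 4,
  .x 1 13 (.cyc 1 [0, 3, 4, 13]),
  .x 2 13 (.cyc 2 [0, 3, 4, 13]),
  .x 3 13 (.cyc 3 [0, 7, 4, 13]),
  .x 7 13 (.cyc 7 [0, 3, 4, 13])]
 (.br 5 8
 (.br 5 13
 (.seq [
  .x 6 13 (.cyc 6 [1, 8, 5, 13])]
 (.ind [2, 3, 6, 7, 13]))
 (.ind [1, 3, 5, 7, 13]))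
 (.ind [2, 3, 5, 7, 8])))
 (.br 4 11
 (.seq [
  .x 5 12 (.cyc 5 [4, 11, 3, 12]),
  .x 7 11 (.cyc 7 [0, 3, 4, 11])]
 (.br 4 12
 (.seq [
  .x 5 11 (.cyc 5 [4, 12, 3, 11]),
  .x 7 12 (.cyc 7 [0, 3, 4, 12]),
  .x 11 12 (.clq [11, 12, 3, 4])]
 (.ind [1, 5, 7, 11, 12]))
 (.seq [
  .new 4,
  .new 7,
  .x 2 14 (.cyc 2 [1, 0, 7, 14]),
  .x 4 14 (.cyc 4 [3, 0, 7, 14]),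
  .x 6 14 (.cyc 6 [1, 0, 7, 14]),
  .x 12 14 (.cyc 12 [3, 0, 7, 14])]
 (.ind [2, 4, 6, 12, 14]))))
 (.seq [
  .new 6,
  .x 7 13 (.cyc 7 [0, 1, 6, 13]),
  .new 7,
  .x 2 14 (.cyc 2 [1, 0, 7, 14]),
  .x 4 14 (.cyc 4 [3, 0, 7, 14]),
  .x 6 14 (.cyc 6 [1, 0, 7, 14]),
  .x 11 14 (.cyc 11 [3, 0, 7, 14])]
 (.ind [2, 4, 6, 11, 14])))))))))))))

def t_4_3_1 : Tm := ⟨4, [(0, 1), (0, 2), (1, 2), (0, 3), (3, 1)]⟩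

def f_4_3_1 : Pf :=
 .seq [
  .x 2 3 (.clq [2, 3, 0, 1]),
  .new 2,
  .x 0 4 (.cyc 0 [3, 1, 2, 4]),
  .x 1 4 (.cyc 1 [3, 0, 2, 4]),
  .new 3,
  .x 0 5 (.cyc 0 [2, 1, 3, 5]),
  .x 1 5 (.cyc 1 [2, 0, 3, 5]),
  .x 2 5 (.cyc 2 [0, 1, 3, 5]),
  .x 4 5 (.cyc 4 [2, 0, 3, 5]),
  .new 0,
  .x 2 6 (.cyc 2 [1, 3, 0, 6]),
  .x 3 6 (.cyc 3 [1, 2, 0, 6]),
  .x 4 6 (.cyc 4 [2, 1, 0, 6]),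
  .x 5 6 (.cyc 5 [3, 1, 0, 6]),
  .new2 5,
  .x 1 7 (.cyc 1 [0, 3, 5, 7]),
  .x 1 8 (.cyc 1 [0, 3, 5, 8]),
  .x 4 7 (.emb 0 [2, 0, 1, 4, 7, 5, 3]),
  .x 4 8 (.emb 0 [2, 0, 1, 4, 8, 5, 3]),
  .x 6 7 (.cyc 6 [0, 3, 5, 7]),
  .new 6,
  .x 1 9 (.cyc 1 [2, 0, 6, 9]),
  .x 4 9 (.cyc 4 [2, 0, 6, 9]),
  .x 7 9 (.emb 0 [0, 3, 1, 6, 9, 7, 5]),
  .x 8 9 (.emb 0 [0, 3, 1, 6, 9, 8, 5])]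
 (.ind [1, 4, 7, 8, 9])

def t_4_3_2 : Tm := ⟨3, [(0, 1), (0, 2), (1, 2)]⟩

def f_4_3_2 : Pf :=
 .seq [
  .new 0,
  .new 2,
  .x 0 4 (.emb 1 [0, 2, 4, 1]),
  .x 1 4 (.emb 1 [1, 2, 4, 0]),
  .x 3 4 (.cyc 3 [0, 1, 2, 4]),
  .new 1,
  .x 0 5 (.emb 1 [0, 1, 5, 2]),
  .x 2 5 (.emb 1 [2, 1, 5, 0]),
  .x 3 5 (.cyc 3 [0, 2, 1, 5]),
  .x 4 5 (.cyc 4 [2, 0, 1, 5]),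
  .new2 5,
  .x 0 6 (.cyc 0 [2, 1, 5, 6]),
  .x 0 7 (.cyc 0 [2, 1, 5, 7]),
  .x 4 6 (.cyc 4 [2, 1, 5, 6]),
  .x 4 7 (.cyc 4 [2, 1, 5, 7]),
  .new2 4,
  .x 0 8 (.cyc 0 [1, 2, 4, 8]),
  .x 0 9 (.cyc 0 [1, 2, 4, 9]),
  .x 6 8 (.emb 0 [2, 1, 0, 4, 8, 6, 5]),
  .x 6 9 (.emb 0 [2, 1, 0, 4, 9, 6, 5]),
  .x 7 8 (.emb 0 [2, 1, 0, 4, 8, 7, 5]),
  .x 7 9 (.emb 0 [2, 1, 0, 4, 9, 7, 5])]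
 (.ind [0, 6, 7, 8, 9])

def d_4_3 : List (Tm × Pf) := [(t_4_3_0, f_4_3_0), (t_4_3_1, f_4_3_1), (t_4_3_2, f_4_3_2)]

theorem k_4_3 : killFull 4 3 d_4_3 = true := by decide +kernel

def t_4_4_0 : Tm := ⟨4, [(0, 1), (0, 2), (0, 3), (1, 2), (1, 3), (2, 3)]⟩

def f_4_4_0 : Pf :=
 .seq [
  .new 0,
  .x 1 4 (.cyc 1 [2, 3, 0, 4]),
  .x 2 4 (.cyc 2 [1, 3, 0, 4]),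
  .x 3 4 (.cyc 3 [1, 2, 0, 4]),
  .new 1,
  .x 0 5 (.cyc 0 [2, 3, 1, 5]),
  .x 2 5 (.cyc 2 [0, 3, 1, 5]),
  .x 3 5 (.cyc 3 [0, 2, 1, 5]),
  .x 4 5 (.cyc 4 [0, 2, 1, 5]),
  .new 2,
  .x 0 6 (.cyc 0 [1, 3, 2, 6]),
  .x 1 6 (.cyc 1 [0, 3, 2, 6]),
  .x 3 6 (.cyc 3 [0, 1, 2, 6]),
  .x 4 6 (.cyc 4 [0, 1, 2, 6]),
  .x 5 6 (.cyc 5 [1, 0, 2, 6]),
  .new 3,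
  .x 0 7 (.cyc 0 [1, 2, 3, 7]),
  .x 1 7 (.cyc 1 [0, 2, 3, 7]),
  .x 2 7 (.cyc 2 [0, 1, 3, 7]),
  .x 4 7 (.cyc 4 [0, 1, 3, 7]),
  .x 5 7 (.cyc 5 [1, 0, 3, 7]),
  .x 6 7 (.cyc 6 [2, 0, 3, 7]),
  .new 4,
  .x 5 8 (.cyc 5 [1, 0, 4, 8]),
  .x 6 8 (.cyc 6 [2, 0, 4, 8]),
  .x 7 8 (.cyc 7 [3, 0, 4, 8]),
  .new 4,
  .x 5 9 (.cyc 5 [1, 0, 4, 9]),
  .x 6 9 (.cyc 6 [2, 0, 4, 9]),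
  .x 7 9 (.cyc 7 [3, 0, 4, 9]),
  .new 4,
  .x 5 10 (.cyc 5 [1, 0, 4, 10]),
  .x 6 10 (.cyc 6 [2, 0, 4, 10]),
  .x 7 10 (.cyc 7 [3, 0, 4, 10]),
  .new 5,
  .x 6 11 (.cyc 6 [2, 1, 5, 11]),
  .x 7 11 (.cyc 7 [3, 1, 5, 11]),
  .new 5,
  .x 6 12 (.cyc 6 [2, 1, 5, 12]),
  .x 7 12 (.cyc 7 [3, 1, 5, 12]),
  .new 5,
  .x 6 13 (.cyc 6 [2, 1, 5, 13]),
  .x 7 13 (.cyc 7 [3, 1, 5, 13]),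
  .new 6,
  .x 7 14 (.cyc 7 [3, 2, 6, 14]),
  .new 6,
  .new 6,
  .new 7]
 (.big)

def d_4_4 : List (Tm × Pf) := [(t_4_4_0, f_4_4_0)]

theorem k_4_4 : killFull 4 4 d_4_4 = true := by decide +kernel

def t_5_2_0 : Tm := ⟨3, [(0, 1), (0, 2), (2, 1)]⟩

def f_5_2_0 : Pf :=
 .seq [
  .new 0,
  .x 1 3 (.clq [1, 3, 0]),
  .x 2 3 (.clq [2, 3, 0]),
  .new 1,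
  .x 0 4 (.clq [0, 4, 1]),
  .x 2 4 (.clq [2, 4, 1]),
  .new 2,
  .x 0 5 (.clq [0, 5, 2]),
  .x 1 5 (.clq [1, 5, 2]),
  .new2 3,
  .x 4 6 (.cyc 4 [1, 2, 0, 3, 6]),
  .x 4 7 (.cyc 4 [1, 2, 0, 3, 7]),
  .x 5 6 (.cyc 5 [2, 1, 0, 3, 6]),
  .x 5 7 (.cyc 5 [2, 1, 0, 3, 7]),
  .new2 5,
  .x 4 8 (.cyc 4 [1, 0, 2, 5, 8]),
  .x 4 9 (.cyc 4 [1, 0, 2, 5, 9]),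
  .x 6 8 (.cyc 6 [3, 0, 2, 5, 8]),
  .x 6 9 (.cyc 6 [3, 0, 2, 5, 9]),
  .x 7 8 (.cyc 7 [3, 0, 2, 5, 8]),
  .x 7 9 (.cyc 7 [3, 0, 2, 5, 9]),
  .new2 4,
  .x 6 10 (.cyc 6 [3, 0, 1, 4, 10]),
  .x 6 11 (.cyc 6 [3, 0, 1, 4, 11]),
  .x 7 10 (.cyc 7 [3, 0, 1, 4, 10]),
  .x 7 11 (.cyc 7 [3, 0, 1, 4, 11]),
  .x 8 10 (.cyc 8 [5, 2, 1, 4, 10]),
  .x 8 11 (.cyc 8 [5, 2, 1, 4, 11]),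
  .x 9 10 (.cyc 9 [5, 2, 1, 4, 10]),
  .x 9 11 (.cyc 9 [5, 2, 1, 4, 11])]
 (.ind [6, 7, 8, 9, 10, 11])

def t_5_2_1 : Tm := ⟨4, [(0, 1), (0, 2), (2, 3), (3, 1)]⟩

def f_5_2_1 : Pf :=
 .seq [
  .x 0 3 (.clq [0, 3, 1]),
  .x 1 2 (.clq [1, 2, 0]),
  .new 0,
  .x 1 4 (.clq [1, 4, 0]),
  .new 0,
  .x 1 5 (.clq [1, 5, 0]),
  .x 4 5 (.clq [4, 5, 0]),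
  .new 0,
  .x 1 6 (.clq [1, 6, 0]),
  .x 4 6 (.clq [4, 6, 0]),
  .x 5 6 (.clq [5, 6, 0]),
  .new 1,
  .x 4 7 (.cyc 4 [0, 2, 3, 1, 7]),
  .x 5 7 (.cyc 5 [0, 2, 3, 1, 7]),
  .x 6 7 (.cyc 6 [0, 2, 3, 1, 7]),
  .new 1,
  .x 4 8 (.cyc 4 [0, 2, 3, 1, 8]),
  .x 5 8 (.cyc 5 [0, 2, 3, 1, 8]),
  .x 6 8 (.cyc 6 [0, 2, 3, 1, 8]),
  .x 7 8 (.clq [7, 8, 1]),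
  .new2 4,
  .x 1 9 (.cyc 1 [3, 2, 0, 4, 9]),
  .x 1 10 (.cyc 1 [3, 2, 0, 4, 10]),
  .new 1,
  .x 4 11 (.cyc 4 [0, 2, 3, 1, 11]),
  .x 5 11 (.cyc 5 [0, 2, 3, 1, 11]),
  .x 6 11 (.cyc 6 [0, 2, 3, 1, 11]),
  .x 7 11 (.clq [7, 11, 1]),
  .x 8 11 (.clq [8, 11, 1])]
 (.ind [4, 5, 6, 7, 8, 11])

def t_5_2_2 : Tm := ⟨2, [(0, 1)]⟩

def f_5_2_2 : Pf :=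
 .seq [
  .new 0,
  .x 1 2 (.clq [1, 2, 0]),
  .new 0,
  .x 2 3 (.clq [2, 3, 0]),
  .new2 3,
  .x 0 4 (.clq [0, 4, 3]),
  .x 0 5 (.clq [0, 5, 3]),
  .x 1 4 (.emb 1 [4, 1, 3, 0]),
  .x 1 5 (.emb 1 [5, 1, 3, 0]),
  .x 2 4 (.emb 1 [4, 2, 3, 0]),
  .x 2 5 (.emb 1 [5, 2, 3, 0]),
  .new2 1,
  .x 0 6 (.clq [0, 6, 1]),
  .x 0 7 (.clq [0, 7, 1]),
  .new2 2,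
  .x 0 8 (.clq [0, 8, 2]),
  .x 0 9 (.clq [0, 9, 2]),
  .new2 0,
  .x 1 10 (.clq [1, 10, 0]),
  .x 1 11 (.clq [1, 11, 0]),
  .x 2 10 (.clq [2, 10, 0]),
  .x 2 11 (.clq [2, 11, 0]),
  .x 4 10 (.emb 1 [10, 4, 0, 3]),
  .x 4 11 (.emb 1 [11, 4, 0, 3]),
  .x 5 10 (.emb 1 [10, 5, 0, 3]),
  .x 5 11 (.emb 1 [11, 5, 0, 3])]
 (.ind [1, 2, 4, 5, 10, 11])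

def d_5_2 : List (Tm × Pf) := [(t_5_2_0, f_5_2_0), (t_5_2_1, f_5_2_1), (t_5_2_2, f_5_2_2)]

theorem k_5_2 : killFull 5 2 d_5_2 = true := by decide +kernel

def t_5_3_0 : Tm := ⟨7, [(0, 1), (0, 2), (1, 2), (0, 3), (3, 4), (4, 1), (1, 5), (5, 6), (6, 2)]⟩

def f_5_3_0 : Pf :=
 .seq [
  .x 0 4 (.cyc 0 [2, 6, 5, 1, 4]),
  .x 0 6 (.cyc 0 [3, 4, 1, 2, 6]),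
  .x 1 3 (.cyc 1 [5, 6, 2, 0, 3]),
  .x 1 6 (.cyc 1 [4, 3, 0, 2, 6]),
  .x 2 3 (.cyc 2 [6, 5, 1, 0, 3]),
  .x 3 5 (.cyc 3 [0, 1, 2, 6, 5]),
  .x 3 6 (.cyc 3 [0, 2, 1, 5, 6]),
  .x 4 6 (.cyc 4 [3, 0, 1, 2, 6]),
  .new2 3,
  .x 0 7 (.cyc 0 [2, 1, 4, 3, 7]),
  .x 0 8 (.cyc 0 [2, 1, 4, 3, 8]),
  .x 4 7 (.cyc 4 [1, 2, 0, 3, 7]),
  .x 4 8 (.cyc 4 [1, 2, 0, 3, 8]),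
  .x 6 7 (.cyc 6 [2, 1, 0, 3, 7]),
  .x 6 8 (.cyc 6 [2, 1, 0, 3, 8]),
  .new2 6,
  .x 0 9 (.cyc 0 [2, 1, 5, 6, 9]),
  .x 0 10 (.cyc 0 [2, 1, 5, 6, 10]),
  .x 4 9 (.cyc 4 [1, 0, 2, 6, 9]),
  .x 4 10 (.cyc 4 [1, 0, 2, 6, 10]),
  .x 7 9 (.cyc 7 [3, 0, 2, 6, 9]),
  .x 7 10 (.cyc 7 [3, 0, 2, 6, 10]),
  .x 8 9 (.cyc 8 [3, 0, 2, 6, 9]),
  .x 8 10 (.cyc 8 [3, 0, 2, 6, 10])]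
 (.ind [0, 4, 7, 8, 9, 10])

def t_5_3_1 : Tm := ⟨5, [(0, 1), (0, 2), (1, 2), (0, 3), (3, 1), (1, 4), (4, 2)]⟩

def f_5_3_1 : Pf :=
 .seq [
  .x 0 4 (.clq [0, 4, 1, 2]),
  .x 2 3 (.clq [2, 3, 0, 1]),
  .new 1,
  .x 3 5 (.cyc 3 [0, 2, 4, 1, 5]),
  .x 4 5 (.cyc 4 [2, 0, 3, 1, 5]),
  .new 3,
  .x 0 6 (.cyc 0 [2, 4, 1, 3, 6]),
  .x 2 6 (.cyc 2 [4, 1, 0, 3, 6]),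
  .x 4 6 (.cyc 4 [1, 2, 0, 3, 6]),
  .new 0,
  .x 2 7 (.cyc 2 [4, 1, 3, 0, 7]),
  .x 3 7 (.cyc 3 [1, 4, 2, 0, 7]),
  .x 5 7 (.cyc 5 [1, 4, 2, 0, 7]),
  .new 2,
  .x 0 8 (.cyc 0 [3, 1, 4, 2, 8]),
  .x 3 8 (.cyc 3 [0, 1, 4, 2, 8]),
  .x 4 8 (.cyc 4 [1, 3, 0, 2, 8]),
  .x 5 8 (.cyc 5 [1, 3, 0, 2, 8]),
  .x 6 8 (.cyc 6 [3, 0, 1, 2, 8]),
  .x 7 8 (.cyc 7 [0, 1, 4, 2, 8]),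
  .new 4,
  .x 3 9 (.cyc 3 [0, 1, 2, 4, 9]),
  .x 5 9 (.cyc 5 [1, 0, 2, 4, 9]),
  .x 7 9 (.cyc 7 [0, 1, 2, 4, 9]),
  .x 8 9 (.cyc 8 [2, 0, 1, 4, 9]),
  .new2 8,
  .x 3 10 (.cyc 3 [0, 1, 2, 8, 10]),
  .x 3 11 (.cyc 3 [0, 1, 2, 8, 11]),
  .x 5 10 (.cyc 5 [1, 0, 2, 8, 10]),
  .x 5 11 (.cyc 5 [1, 0, 2, 8, 11]),
  .x 7 10 (.cyc 7 [0, 1, 2, 8, 10]),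
  .x 7 11 (.cyc 7 [0, 1, 2, 8, 11]),
  .x 9 10 (.cyc 9 [4, 1, 2, 8, 10]),
  .x 9 11 (.cyc 9 [4, 1, 2, 8, 11])]
 (.ind [3, 5, 7, 9, 10, 11])

def t_5_3_2 : Tm := ⟨5, [(0, 1), (0, 2), (1, 2), (0, 3), (3, 4), (4, 1)]⟩

def f_5_3_2 : Pf :=
 .seq [
  .x 0 4 (.emb 1 [4, 0, 1, 3, 2]),
  .x 1 3 (.emb 1 [3, 1, 0, 4, 2]),
  .new 2,
  .x 0 5 (.cyc 0 [3, 4, 1, 2, 5]),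
  .x 1 5 (.cyc 1 [4, 3, 0, 2, 5]),
  .x 3 5 (.cyc 3 [4, 1, 0, 2, 5]),
  .x 4 5 (.cyc 4 [3, 0, 1, 2, 5]),
  .new 1,
  .x 4 6 (.cyc 4 [3, 0, 2, 1, 6]),
  .x 5 6 (.emb 0 [2, 1, 0, 5, 6, 4, 3]),
  .new 0,
  .x 2 7 (.cyc 2 [1, 4, 3, 0, 7]),
  .x 3 7 (.cyc 3 [4, 1, 2, 0, 7]),
  .x 5 7 (.emb 0 [2, 0, 1, 5, 7, 3, 4]),
  .x 6 7 (.cyc 6 [1, 4, 3, 0, 7]),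
  .new 4,
  .x 1 8 (.cyc 1 [2, 0, 3, 4, 8]),
  .x 2 8 (.cyc 2 [1, 0, 3, 4, 8]),
  .x 3 8 (.cyc 3 [0, 2, 1, 4, 8]),
  .x 5 8 (.cyc 5 [2, 0, 1, 4, 8]),
  .x 6 8 (.cyc 6 [1, 0, 3, 4, 8]),
  .x 7 8 (.cyc 7 [0, 2, 1, 4, 8]),
  .new 3,
  .x 5 9 (.cyc 5 [2, 1, 0, 3, 9]),
  .x 7 9 (.cyc 7 [0, 1, 4, 3, 9]),
  .x 8 9 (.cyc 8 [4, 1, 0, 3, 9]),
  .new2 8,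
  .x 5 10 (.cyc 5 [2, 1, 4, 8, 10]),
  .x 5 11 (.cyc 5 [2, 1, 4, 8, 11]),
  .x 7 10 (.cyc 7 [0, 1, 4, 8, 10]),
  .new 7,
  .x 1 12 (.cyc 1 [4, 3, 0, 7, 12]),
  .x 3 12 (.cyc 3 [4, 1, 0, 7, 12]),
  .x 8 12 (.cyc 8 [4, 1, 0, 7, 12]),
  .new2 5,
  .x 1 13 (.emb 0 [2, 1, 0, 5, 13, 4, 3]),
  .x 1 14 (.emb 0 [2, 1, 0, 5, 14, 4, 3]),
  .x 3 13 (.cyc 3 [0, 1, 2, 5, 13]),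
  .x 3 14 (.cyc 3 [0, 1, 2, 5, 14]),
  .x 8 13 (.cyc 8 [4, 1, 2, 5, 13]),
  .x 8 14 (.cyc 8 [4, 1, 2, 5, 14]),
  .x 12 13 (.cyc 12 [7, 0, 2, 5, 13]),
  .x 12 14 (.cyc 12 [7, 0, 2, 5, 14])]
 (.ind [1, 3, 8, 12, 13, 14])

def t_5_3_3 : Tm := ⟨4, [(0, 1), (0, 2), (1, 2), (0, 3), (3, 1)]⟩

def f_5_3_3 : Pf :=
 .seq [
  .x 2 3 (.clq [2, 3, 0, 1]),
  .new2 2,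
  .x 0 4 (.emb 1 [2, 0, 1, 4, 3]),
  .x 0 5 (.emb 1 [2, 0, 1, 5, 3]),
  .x 1 4 (.emb 1 [2, 1, 0, 4, 3]),
  .x 3 4 (.emb 2 [3, 0, 1, 4, 2]),
  .x 3 5 (.emb 2 [3, 0, 1, 5, 2]),
  .new 1,
  .x 3 6 (.emb 1 [3, 1, 0, 6, 2]),
  .x 4 6 (.cyc 4 [2, 0, 3, 1, 6]),
  .x 5 6 (.cyc 5 [2, 0, 3, 1, 6]),
  .new 0,
  .x 3 7 (.emb 1 [3, 0, 1, 7, 2]),
  .x 4 7 (.cyc 4 [2, 1, 3, 0, 7]),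
  .x 5 7 (.cyc 5 [2, 1, 3, 0, 7]),
  .x 6 7 (.emb 2 [0, 1, 2, 7, 6]),
  .new2 3,
  .x 4 8 (.cyc 4 [2, 0, 1, 3, 8]),
  .x 4 9 (.cyc 4 [2, 0, 1, 3, 9]),
  .x 5 8 (.cyc 5 [2, 0, 1, 3, 8]),
  .x 5 9 (.cyc 5 [2, 0, 1, 3, 9]),
  .x 6 8 (.cyc 6 [1, 2, 0, 3, 8]),
  .x 6 9 (.cyc 6 [1, 2, 0, 3, 9]),
  .x 7 8 (.cyc 7 [0, 2, 1, 3, 8]),
  .x 7 9 (.cyc 7 [0, 2, 1, 3, 9])]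
 (.ind [4, 5, 6, 7, 8, 9])

def t_5_3_4 : Tm := ⟨3, [(0, 1), (0, 2), (1, 2)]⟩

def f_5_3_4 : Pf :=
 .seq [
  .new2 1,
  .x 0 3 (.emb 3 [0, 1, 3, 2]),
  .x 0 4 (.emb 3 [0, 1, 4, 2]),
  .x 2 3 (.emb 3 [2, 1, 3, 0]),
  .x 2 4 (.emb 3 [2, 1, 4, 0]),
  .new2 2,
  .x 0 5 (.emb 3 [0, 2, 5, 1]),
  .x 0 6 (.emb 3 [0, 2, 6, 1]),
  .x 3 5 (.emb 2 [2, 1, 0, 5, 3]),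
  .x 3 6 (.emb 2 [2, 1, 0, 6, 3]),
  .x 4 5 (.emb 2 [2, 1, 0, 5, 4]),
  .x 4 6 (.emb 2 [2, 1, 0, 6, 4]),
  .new2 0,
  .x 3 7 (.emb 2 [0, 1, 2, 7, 3]),
  .x 3 8 (.emb 2 [0, 1, 2, 8, 3]),
  .x 4 7 (.emb 2 [0, 1, 2, 7, 4]),
  .x 4 8 (.emb 2 [0, 1, 2, 8, 4]),
  .x 5 7 (.emb 2 [0, 2, 1, 7, 5]),
  .x 5 8 (.emb 2 [0, 2, 1, 8, 5]),
  .x 6 7 (.emb 2 [0, 2, 1, 7, 6]),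
  .x 6 8 (.emb 2 [0, 2, 1, 8, 6])]
 (.ind [3, 4, 5, 6, 7, 8])

def d_5_3 : List (Tm × Pf) := [(t_5_3_0, f_5_3_0), (t_5_3_1, f_5_3_1), (t_5_3_2, f_5_3_2), (t_5_3_3, f_5_3_3), (t_5_3_4, f_5_3_4)]

theorem k_5_3 : killFull 5 3 d_5_3 = true := by decide +kernel

def t_5_4_0 : Tm := ⟨5, [(0, 1), (0, 2), (0, 3), (1, 2), (1, 3), (2, 3), (0, 4), (4, 1)]⟩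

def f_5_4_0 : Pf :=
 .seq [
  .new 0,
  .x 2 5 (.cyc 2 [3, 1, 4, 0, 5]),
  .x 3 5 (.cyc 3 [2, 1, 4, 0, 5]),
  .x 4 5 (.cyc 4 [1, 2, 3, 0, 5]),
  .new 4,
  .x 1 6 (.cyc 1 [2, 3, 0, 4, 6]),
  .x 2 6 (.cyc 2 [0, 3, 1, 4, 6]),
  .x 3 6 (.cyc 3 [0, 2, 1, 4, 6]),
  .new 3,
  .x 0 7 (.cyc 0 [4, 1, 2, 3, 7]),
  .x 1 7 (.cyc 1 [4, 0, 2, 3, 7]),
  .x 2 7 (.cyc 2 [0, 4, 1, 3, 7]),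
  .x 4 7 (.cyc 4 [0, 1, 2, 3, 7]),
  .x 5 7 (.cyc 5 [0, 1, 2, 3, 7]),
  .x 6 7 (.cyc 6 [4, 0, 1, 3, 7]),
  .new 2,
  .x 1 8 (.cyc 1 [4, 0, 3, 2, 8]),
  .x 6 8 (.cyc 6 [4, 0, 1, 2, 8]),
  .x 7 8 (.cyc 7 [3, 0, 1, 2, 8]),
  .new 5,
  .x 1 9 (.cyc 1 [2, 3, 0, 5, 9]),
  .x 6 9 (.cyc 6 [4, 1, 0, 5, 9]),
  .x 7 9 (.cyc 7 [3, 1, 0, 5, 9]),
  .x 8 9 (.cyc 8 [2, 1, 0, 5, 9]),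
  .new2 7,
  .x 1 10 (.cyc 1 [0, 2, 3, 7, 10]),
  .x 1 11 (.cyc 1 [0, 2, 3, 7, 11]),
  .x 6 10 (.cyc 6 [4, 0, 3, 7, 10]),
  .x 6 11 (.cyc 6 [4, 0, 3, 7, 11]),
  .x 8 10 (.cyc 8 [2, 0, 3, 7, 10]),
  .x 8 11 (.cyc 8 [2, 0, 3, 7, 11]),
  .x 9 10 (.cyc 9 [5, 0, 3, 7, 10]),
  .x 9 11 (.cyc 9 [5, 0, 3, 7, 11])]
 (.ind [1, 6, 8, 9, 10, 11])

def t_5_4_1 : Tm := ⟨4, [(0, 1), (0, 2), (0, 3), (1, 2), (1, 3), (2, 3)]⟩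

def f_5_4_1 : Pf :=
 .seq [
  .new 0,
  .x 3 4 (.emb 0 [3, 0, 1, 2, 4]),
  .new 2,
  .x 0 5 (.emb 0 [0, 2, 1, 3, 5]),
  .x 1 5 (.emb 0 [1, 2, 0, 3, 5]),
  .x 3 5 (.emb 0 [3, 2, 0, 1, 5]),
  .x 4 5 (.cyc 4 [0, 1, 3, 2, 5]),
  .new 1,
  .x 0 6 (.emb 0 [0, 1, 2, 3, 6]),
  .x 5 6 (.cyc 5 [2, 0, 3, 1, 6]),
  .new 3,
  .x 0 7 (.emb 0 [0, 3, 1, 2, 7]),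
  .x 1 7 (.emb 0 [1, 3, 0, 2, 7]),
  .x 2 7 (.emb 0 [2, 3, 0, 1, 7]),
  .x 4 7 (.cyc 4 [0, 1, 2, 3, 7]),
  .x 5 7 (.cyc 5 [2, 0, 1, 3, 7]),
  .x 6 7 (.cyc 6 [1, 0, 2, 3, 7]),
  .new2 7,
  .x 0 8 (.cyc 0 [1, 2, 3, 7, 8]),
  .x 0 9 (.cyc 0 [1, 2, 3, 7, 9]),
  .x 5 8 (.cyc 5 [2, 0, 3, 7, 8]),
  .x 5 9 (.cyc 5 [2, 0, 3, 7, 9]),
  .x 6 8 (.cyc 6 [1, 0, 3, 7, 8]),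
  .x 6 9 (.cyc 6 [1, 0, 3, 7, 9]),
  .new2 5,
  .x 0 10 (.cyc 0 [1, 3, 2, 5, 10]),
  .x 0 11 (.cyc 0 [1, 3, 2, 5, 11]),
  .x 6 10 (.cyc 6 [1, 0, 2, 5, 10]),
  .x 6 11 (.cyc 6 [1, 0, 2, 5, 11]),
  .x 8 10 (.cyc 8 [7, 3, 2, 5, 10]),
  .x 8 11 (.cyc 8 [7, 3, 2, 5, 11]),
  .x 9 10 (.cyc 9 [7, 3, 2, 5, 10]),
  .x 9 11 (.cyc 9 [7, 3, 2, 5, 11])]
 (.ind [0, 6, 8, 9, 10, 11])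

def d_5_4 : List (Tm × Pf) := [(t_5_4_0, f_5_4_0), (t_5_4_1, f_5_4_1)]

theorem k_5_4 : killFull 5 4 d_5_4 = true := by decide +kernel

end Vale.Agent.P048
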