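import Vale.Agent.P048.Engine

namespace Vale.Agent.P048

def t_6_4_0 : Tm := ⟨8, [(0, 1), (0, 2), (0, 3), (1, 2), (1, 3), (2, 3), (0, 4), (4, 5), (5, 1), (2, 6), (6, 7), (7, 3)]⟩

def f_6_4_0 : Pf :=
 .seq [
  .x 0 5 (.cyc 0 [2, 6, 7, 3, 1, 5]),
  .x 0 6 (.cyc 0 [4, 5, 1, 3, 2, 6]),
  .x 0 7 (.cyc 0 [4, 5, 1, 2, 3, 7]),
  .x 1 4 (.cyc 1 [2, 6, 7, 3, 0, 4]),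
  .x 1 6 (.cyc 1 [5, 4, 0, 3, 2, 6]),
  .x 2 4 (.cyc 2 [6, 7, 3, 1, 0, 4]),
  .x 2 5 (.cyc 2 [6, 7, 3, 0, 1, 5]),
  .x 3 4 (.cyc 3 [7, 6, 2, 1, 0, 4]),
  .x 3 5 (.cyc 3 [7, 6, 2, 0, 1, 5]),
  .x 3 6 (.cyc 3 [0, 4, 5, 1, 2, 6]),
  .x 4 6 (.cyc 4 [0, 1, 2, 3, 7, 6]),
  .x 4 7 (.cyc 4 [0, 1, 3, 2, 6, 7]),
  .x 5 6 (.cyc 5 [1, 0, 2, 3, 7, 6]),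
  .x 5 7 (.cyc 5 [1, 0, 3, 2, 6, 7]),
  .new2 4,
  .x 0 8 (.cyc 0 [2, 3, 1, 5, 4, 8]),
  .x 0 9 (.cyc 0 [2, 3, 1, 5, 4, 9]),
  .x 5 8 (.cyc 5 [1, 2, 3, 0, 4, 8]),
  .x 5 9 (.cyc 5 [1, 2, 3, 0, 4, 9]),
  .x 6 8 (.cyc 6 [2, 0, 1, 5, 4, 8]),
  .x 6 9 (.cyc 6 [2, 0, 1, 5, 4, 9]),
  .x 7 8 (.cyc 7 [3, 0, 1, 5, 4, 8]),
  .x 7 9 (.cyc 7 [3, 0, 1, 5, 4, 9]),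
  .new2 5,
  .x 6 10 (.cyc 6 [2, 0, 3, 1, 5, 10]),
  .x 6 11 (.cyc 6 [2, 0, 3, 1, 5, 11]),
  .new2 6,
  .x 0 12 (.cyc 0 [1, 2, 3, 7, 6, 12]),
  .x 0 13 (.cyc 0 [1, 2, 3, 7, 6, 13]),
  .x 5 12 (.cyc 5 [1, 0, 3, 2, 6, 12]),
  .x 5 13 (.cyc 5 [1, 0, 3, 2, 6, 13]),
  .x 7 12 (.cyc 7 [3, 0, 1, 2, 6, 12]),
  .x 7 13 (.cyc 7 [3, 0, 1, 2, 6, 13]),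
  .x 8 12 (.cyc 8 [4, 0, 1, 2, 6, 12]),
  .x 8 13 (.cyc 8 [4, 0, 1, 2, 6, 13]),
  .x 9 12 (.cyc 9 [4, 0, 1, 2, 6, 12]),
  .x 9 13 (.cyc 9 [4, 0, 1, 2, 6, 13])]
 (.ind [0, 5, 7, 8, 9, 12, 13])

def t_6_4_1 : Tm := ⟨6, [(0, 1), (0, 2), (0, 3), (1, 2), (1, 3), (2, 3), (0, 4), (4, 1), (2, 5), (5, 3)]⟩

def f_6_4_1 : Pf :=
 .seq [
  .new 3,
  .x 0 6 (.cyc 0 [4, 1, 2, 5, 3, 6]),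
  .x 1 6 (.cyc 1 [4, 0, 2, 5, 3, 6]),
  .x 4 6 (.cyc 4 [0, 1, 2, 5, 3, 6]),
  .x 5 6 (.cyc 5 [2, 0, 4, 1, 3, 6]),
  .new 0,
  .x 2 7 (.cyc 2 [5, 3, 1, 4, 0, 7]),
  .x 4 7 (.cyc 4 [1, 2, 5, 3, 0, 7]),
  .x 5 7 (.cyc 5 [2, 3, 1, 4, 0, 7]),
  .x 6 7 (.cyc 6 [3, 2, 1, 4, 0, 7]),
  .new 5,
  .x 2 8 (.cyc 2 [0, 4, 1, 3, 5, 8]),
  .x 4 8 (.cyc 4 [0, 1, 2, 3, 5, 8]),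
  .x 6 8 (.cyc 6 [3, 0, 1, 2, 5, 8]),
  .x 7 8 (.cyc 7 [0, 1, 2, 3, 5, 8]),
  .new 4,
  .x 0 9 (.cyc 0 [2, 5, 3, 1, 4, 9]),
  .x 1 9 (.cyc 1 [2, 5, 3, 0, 4, 9]),
  .x 2 9 (.cyc 2 [5, 3, 0, 1, 4, 9]),
  .x 3 9 (.cyc 3 [5, 2, 0, 1, 4, 9]),
  .x 5 9 (.cyc 5 [2, 0, 3, 1, 4, 9]),
  .x 6 9 (.cyc 6 [3, 0, 2, 1, 4, 9]),
  .x 7 9 (.cyc 7 [0, 2, 3, 1, 4, 9]),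
  .x 8 9 (.cyc 8 [5, 2, 0, 1, 4, 9]),
  .new2 6,
  .x 2 10 (.cyc 2 [0, 4, 1, 3, 6, 10]),
  .x 2 11 (.cyc 2 [0, 4, 1, 3, 6, 11]),
  .x 7 10 (.cyc 7 [0, 1, 2, 3, 6, 10]),
  .x 7 11 (.cyc 7 [0, 1, 2, 3, 6, 11]),
  .x 8 10 (.cyc 8 [5, 2, 0, 3, 6, 10]),
  .x 8 11 (.cyc 8 [5, 2, 0, 3, 6, 11]),
  .x 9 10 (.cyc 9 [4, 0, 1, 3, 6, 10]),
  .new2 9,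
  .x 2 12 (.cyc 2 [0, 3, 1, 4, 9, 12]),
  .x 2 13 (.cyc 2 [0, 3, 1, 4, 9, 13]),
  .x 7 12 (.cyc 7 [0, 2, 1, 4, 9, 12]),
  .x 7 13 (.cyc 7 [0, 2, 1, 4, 9, 13]),
  .x 8 12 (.cyc 8 [5, 2, 0, 4, 9, 12]),
  .x 8 13 (.cyc 8 [5, 2, 0, 4, 9, 13]),
  .x 10 12 (.cyc 10 [6, 3, 0, 4, 9, 12]),
  .x 10 13 (.cyc 10 [6, 3, 0, 4, 9, 13]),
  .x 11 12 (.cyc 11 [6, 3, 0, 4, 9, 12]),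
  .x 11 13 (.cyc 11 [6, 3, 0, 4, 9, 13])]
 (.ind [2, 7, 8, 10, 11, 12, 13])

def t_6_4_2 : Tm := ⟨6, [(0, 1), (0, 2), (0, 3), (1, 2), (1, 3), (2, 3), (0, 4), (4, 1), (1, 5), (5, 2)]⟩

def f_6_4_2 : Pf :=
 .seq [
  .x 3 4 (.emb 1 [3, 0, 1, 2, 4, 5]),
  .x 3 5 (.emb 1 [3, 2, 0, 1, 5, 4]),
  .new 2,
  .new 3,
  .x 0 7 (.cyc 0 [4, 1, 5, 2, 3, 7]),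
  .x 2 7 (.cyc 2 [5, 1, 4, 0, 3, 7]),
  .x 4 7 (.cyc 4 [0, 1, 5, 2, 3, 7]),
  .x 5 7 (.cyc 5 [1, 4, 0, 2, 3, 7]),
  .x 6 7 (.cyc 6 [2, 0, 4, 1, 3, 7]),
  .new 4,
  .x 0 8 (.cyc 0 [3, 2, 5, 1, 4, 8]),
  .x 1 8 (.cyc 1 [5, 2, 3, 0, 4, 8]),
  .x 2 8 (.cyc 2 [5, 1, 3, 0, 4, 8]),
  .x 3 8 (.cyc 3 [0, 2, 5, 1, 4, 8]),
  .x 5 8 (.cyc 5 [1, 2, 3, 0, 4, 8]),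
  .x 7 8 (.cyc 7 [3, 0, 2, 1, 4, 8]),
  .new 5,
  .x 0 9 (.cyc 0 [4, 1, 3, 2, 5, 9]),
  .x 1 9 (.cyc 1 [4, 0, 3, 2, 5, 9]),
  .x 2 9 (.cyc 2 [3, 0, 4, 1, 5, 9]),
  .x 3 9 (.cyc 3 [0, 4, 1, 2, 5, 9]),
  .x 4 9 (.cyc 4 [0, 1, 3, 2, 5, 9]),
  .x 6 9 (.cyc 6 [2, 0, 3, 1, 5, 9]),
  .x 7 9 (.cyc 7 [3, 0, 1, 2, 5, 9]),
  .x 8 9 (.cyc 8 [4, 0, 1, 2, 5, 9]),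
  .new2 8,
  .x 0 10 (.cyc 0 [2, 3, 1, 4, 8, 10]),
  .x 0 11 (.cyc 0 [2, 3, 1, 4, 8, 11]),
  .x 7 10 (.cyc 7 [3, 0, 1, 4, 8, 10]),
  .x 7 11 (.cyc 7 [3, 0, 1, 4, 8, 11]),
  .x 9 10 (.cyc 9 [5, 1, 0, 4, 8, 10]),
  .new2 9,
  .x 0 12 (.cyc 0 [1, 3, 2, 5, 9, 12]),
  .x 0 13 (.cyc 0 [1, 3, 2, 5, 9, 13]),
  .x 7 12 (.cyc 7 [3, 0, 1, 5, 9, 12]),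
  .x 7 13 (.cyc 7 [3, 0, 1, 5, 9, 13]),
  .x 10 12 (.cyc 10 [8, 4, 1, 5, 9, 12]),
  .x 10 13 (.cyc 10 [8, 4, 1, 5, 9, 13]),
  .x 11 12 (.cyc 11 [8, 4, 1, 5, 9, 12]),
  .x 11 13 (.cyc 11 [8, 4, 1, 5, 9, 13]),
  .new2 7,
  .x 0 14 (.cyc 0 [1, 5, 2, 3, 7, 14]),
  .x 0 15 (.cyc 0 [1, 5, 2, 3, 7, 15]),
  .x 10 14 (.cyc 10 [8, 4, 0, 3, 7, 14]),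
  .x 10 15 (.cyc 10 [8, 4, 0, 3, 7, 15]),
  .x 11 14 (.cyc 11 [8, 4, 0, 3, 7, 14]),
  .x 11 15 (.cyc 11 [8, 4, 0, 3, 7, 15]),
  .x 12 14 (.cyc 12 [9, 5, 1, 3, 7, 14]),
  .x 12 15 (.cyc 12 [9, 5, 1, 3, 7, 15]),
  .x 13 14 (.cyc 13 [9, 5, 1, 3, 7, 14]),
  .x 13 15 (.cyc 13 [9, 5, 1, 3, 7, 15])]
 (.ind [0, 10, 11, 12, 13, 14, 15])

def t_6_4_3 : Tm := ⟨6, [(0, 1), (0, 2), (0, 3), (1, 2), (1, 3), (2, 3), (0, 4), (4, 5), (5, 1)]⟩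

def f_6_4_3 : Pf :=
 .seq [
  .new 0,
  .x 2 6 (.cyc 2 [3, 1, 5, 4, 0, 6]),
  .x 3 6 (.cyc 3 [2, 1, 5, 4, 0, 6]),
  .x 4 6 (.cyc 4 [5, 1, 2, 3, 0, 6]),
  .new 3,
  .x 0 7 (.cyc 0 [4, 5, 1, 2, 3, 7]),
  .x 1 7 (.cyc 1 [5, 4, 0, 2, 3, 7]),
  .x 2 7 (.cyc 2 [0, 4, 5, 1, 3, 7]),
  .x 4 7 (.cyc 4 [5, 1, 0, 2, 3, 7]),
  .x 5 7 (.cyc 5 [4, 0, 1, 2, 3, 7]),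
  .x 6 7 (.cyc 6 [0, 4, 5, 1, 3, 7]),
  .new 2,
  .x 0 8 (.cyc 0 [4, 5, 1, 3, 2, 8]),
  .x 1 8 (.cyc 1 [5, 4, 0, 3, 2, 8]),
  .x 3 8 (.cyc 3 [0, 4, 5, 1, 2, 8]),
  .x 4 8 (.cyc 4 [5, 1, 0, 3, 2, 8]),
  .x 5 8 (.cyc 5 [4, 0, 1, 3, 2, 8]),
  .x 6 8 (.cyc 6 [0, 4, 5, 1, 2, 8]),
  .x 7 8 (.emb 0 [2, 3, 0, 1, 8, 7, 4, 5]),
  .new 4,
  .x 0 9 (.cyc 0 [2, 3, 1, 5, 4, 9]),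
  .x 2 9 (.cyc 2 [0, 3, 1, 5, 4, 9]),
  .x 3 9 (.cyc 3 [0, 2, 1, 5, 4, 9]),
  .x 5 9 (.cyc 5 [1, 2, 3, 0, 4, 9]),
  .x 6 9 (.cyc 6 [0, 2, 1, 5, 4, 9]),
  .x 7 9 (.cyc 7 [3, 0, 1, 5, 4, 9]),
  .x 8 9 (.cyc 8 [2, 0, 1, 5, 4, 9]),
  .new2 9,
  .x 0 10 (.cyc 0 [2, 1, 5, 4, 9, 10]),
  .x 0 11 (.cyc 0 [2, 1, 5, 4, 9, 11]),
  .x 7 10 (.cyc 7 [3, 1, 0, 4, 9, 10]),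
  .x 7 11 (.cyc 7 [3, 1, 0, 4, 9, 11]),
  .x 8 10 (.cyc 8 [2, 1, 0, 4, 9, 10]),
  .x 8 11 (.cyc 8 [2, 1, 0, 4, 9, 11]),
  .new 6,
  .x 7 12 (.cyc 7 [3, 1, 2, 0, 6, 12]),
  .new2 8,
  .x 0 13 (.cyc 0 [4, 5, 1, 2, 8, 13]),
  .x 0 14 (.cyc 0 [4, 5, 1, 2, 8, 14]),
  .x 7 13 (.cyc 7 [3, 0, 1, 2, 8, 13]),
  .x 10 13 (.cyc 10 [9, 4, 0, 2, 8, 13]),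
  .x 10 14 (.cyc 10 [9, 4, 0, 2, 8, 14]),
  .x 11 13 (.cyc 11 [9, 4, 0, 2, 8, 13]),
  .x 11 14 (.cyc 11 [9, 4, 0, 2, 8, 14]),
  .new2 7,
  .x 0 15 (.cyc 0 [4, 5, 1, 3, 7, 15]),
  .x 0 16 (.cyc 0 [4, 5, 1, 3, 7, 16]),
  .x 10 15 (.cyc 10 [9, 4, 0, 3, 7, 15]),
  .x 10 16 (.cyc 10 [9, 4, 0, 3, 7, 16]),
  .x 11 15 (.cyc 11 [9, 4, 0, 3, 7, 15]),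
  .x 11 16 (.cyc 11 [9, 4, 0, 3, 7, 16]),
  .x 13 15 (.cyc 13 [8, 2, 0, 3, 7, 15]),
  .x 13 16 (.cyc 13 [8, 2, 0, 3, 7, 16]),
  .x 14 15 (.cyc 14 [8, 2, 0, 3, 7, 15]),
  .x 14 16 (.cyc 14 [8, 2, 0, 3, 7, 16])]
 (.ind [0, 10, 11, 13, 14, 15, 16])

def t_6_4_4 : Tm := ⟨5, [(0, 1), (0, 2), (0, 3), (1, 2), (1, 3), (2, 3), (0, 4), (4, 1)]⟩

def f_6_4_4 : Pf :=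
 .seq [
  .new 4,
  .x 0 5 (.emb 3 [0, 1, 2, 3, 5, 4]),
  .x 1 5 (.emb 3 [1, 0, 2, 3, 5, 4]),
  .x 2 5 (.emb 3 [2, 0, 1, 3, 5, 4]),
  .x 3 5 (.emb 3 [3, 0, 1, 2, 5, 4]),
  .new 1,
  .new 3,
  .x 0 7 (.emb 2 [3, 0, 1, 2, 7, 4]),
  .x 1 7 (.emb 2 [3, 1, 0, 2, 7, 4]),
  .x 2 7 (.emb 1 [2, 3, 0, 1, 7, 4]),
  .x 4 7 (.emb 3 [3, 0, 1, 2, 7, 4]),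
  .x 5 7 (.cyc 5 [4, 0, 1, 2, 3, 7]),
  .x 6 7 (.cyc 6 [1, 4, 0, 2, 3, 7]),
  .new 0,
  .x 2 8 (.emb 2 [2, 0, 1, 3, 8, 4]),
  .x 3 8 (.emb 2 [3, 0, 1, 2, 8, 4]),
  .x 4 8 (.emb 3 [0, 1, 2, 3, 8, 4]),
  .x 5 8 (.cyc 5 [4, 1, 2, 3, 0, 8]),
  .x 6 8 (.emb 3 [0, 1, 2, 3, 8, 6]),
  .x 7 8 (.cyc 7 [3, 2, 1, 4, 0, 8]),
  .new 2,
  .x 1 9 (.emb 2 [2, 1, 0, 3, 9, 4]),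
  .x 5 9 (.cyc 5 [4, 0, 1, 3, 2, 9]),
  .x 8 9 (.cyc 8 [0, 4, 1, 3, 2, 9]),
  .new2 7,
  .x 1 10 (.cyc 1 [4, 0, 2, 3, 7, 10]),
  .x 1 11 (.cyc 1 [4, 0, 2, 3, 7, 11]),
  .x 5 10 (.cyc 5 [4, 0, 1, 3, 7, 10]),
  .x 5 11 (.cyc 5 [4, 0, 1, 3, 7, 11]),
  .x 8 10 (.cyc 8 [0, 1, 2, 3, 7, 10]),
  .x 8 11 (.cyc 8 [0, 1, 2, 3, 7, 11]),
  .x 9 10 (.cyc 9 [2, 0, 1, 3, 7, 10]),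
  .x 9 11 (.cyc 9 [2, 0, 1, 3, 7, 11]),
  .new2 8,
  .x 1 12 (.emb 3 [1, 0, 2, 3, 12, 8]),
  .x 1 13 (.emb 3 [1, 0, 2, 3, 13, 8]),
  .x 5 12 (.cyc 5 [4, 1, 2, 0, 8, 12]),
  .x 5 13 (.cyc 5 [4, 1, 2, 0, 8, 13]),
  .x 9 12 (.cyc 9 [2, 1, 3, 0, 8, 12]),
  .x 9 13 (.cyc 9 [2, 1, 3, 0, 8, 13]),
  .x 10 12 (.cyc 10 [7, 3, 1, 0, 8, 12]),
  .x 10 13 (.cyc 10 [7, 3, 1, 0, 8, 13]),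
  .x 11 12 (.cyc 11 [7, 3, 1, 0, 8, 12]),
  .x 11 13 (.cyc 11 [7, 3, 1, 0, 8, 13])]
 (.ind [1, 5, 9, 10, 11, 12, 13])

def t_6_4_5 : Tm := ⟨4, [(0, 1), (0, 2), (0, 3), (1, 2), (1, 3), (2, 3)]⟩

def f_6_4_5 : Pf :=
 .seq [
  .new 3,
  .x 0 4 (.emb 4 [0, 3, 1, 2, 4]),
  .x 1 4 (.emb 4 [1, 3, 0, 2, 4]),
  .x 2 4 (.emb 4 [2, 3, 0, 1, 4]),
  .new 0,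
  .new 1,
  .x 0 6 (.emb 4 [0, 1, 2, 3, 6]),
  .x 2 6 (.emb 4 [2, 1, 0, 3, 6]),
  .x 3 6 (.emb 4 [3, 1, 0, 2, 6]),
  .x 4 6 (.emb 3 [1, 3, 0, 2, 6, 4]),
  .x 5 6 (.emb 3 [1, 0, 2, 3, 6, 5]),
  .new 2,
  .x 0 7 (.emb 4 [0, 2, 1, 3, 7]),
  .x 1 7 (.emb 4 [1, 2, 0, 3, 7]),
  .x 3 7 (.emb 4 [3, 2, 0, 1, 7]),
  .x 4 7 (.emb 3 [2, 3, 0, 1, 7, 4]),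
  .x 5 7 (.emb 3 [2, 0, 1, 3, 7, 5]),
  .x 6 7 (.emb 3 [2, 1, 0, 3, 7, 6]),
  .new2 4,
  .x 0 8 (.emb 3 [0, 3, 1, 2, 8, 4]),
  .x 0 9 (.emb 3 [0, 3, 1, 2, 9, 4]),
  .x 6 8 (.cyc 6 [1, 0, 2, 3, 4, 8]),
  .x 6 9 (.cyc 6 [1, 0, 2, 3, 4, 9]),
  .x 7 8 (.cyc 7 [2, 0, 1, 3, 4, 8]),
  .new2 7,
  .x 0 10 (.emb 3 [0, 2, 1, 3, 10, 7]),
  .x 0 11 (.emb 3 [0, 2, 1, 3, 11, 7]),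
  .x 6 10 (.cyc 6 [1, 0, 3, 2, 7, 10]),
  .x 8 10 (.cyc 8 [4, 3, 0, 2, 7, 10]),
  .x 8 11 (.cyc 8 [4, 3, 0, 2, 7, 11]),
  .x 9 10 (.cyc 9 [4, 3, 0, 2, 7, 10]),
  .x 9 11 (.cyc 9 [4, 3, 0, 2, 7, 11]),
  .new2 6,
  .x 0 12 (.emb 3 [0, 1, 2, 3, 12, 6]),
  .x 0 13 (.emb 3 [0, 1, 2, 3, 13, 6]),
  .x 8 12 (.cyc 8 [4, 3, 0, 1, 6, 12]),
  .x 8 13 (.cyc 8 [4, 3, 0, 1, 6, 13]),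
  .x 9 12 (.cyc 9 [4, 3, 0, 1, 6, 12]),
  .x 9 13 (.cyc 9 [4, 3, 0, 1, 6, 13]),
  .x 10 12 (.cyc 10 [7, 2, 0, 1, 6, 12]),
  .x 10 13 (.cyc 10 [7, 2, 0, 1, 6, 13]),
  .x 11 12 (.cyc 11 [7, 2, 0, 1, 6, 12]),
  .x 11 13 (.cyc 11 [7, 2, 0, 1, 6, 13])]
 (.ind [0, 8, 9, 10, 11, 12, 13])

def d_6_4 : List (Tm × Pf) := [(t_6_4_0, f_6_4_0), (t_6_4_1, f_6_4_1), (t_6_4_2, f_6_4_2), (t_6_4_3, f_6_4_3), (t_6_4_4, f_6_4_4), (t_6_4_5, f_6_4_5)]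

theorem k_6_4 : killFull 6 4 d_6_4 = true := by decide +kernel

def t_7_4_0 : Tm := ⟨10, [(0, 1), (0, 2), (0, 3), (1, 2), (1, 3), (2, 3), (0, 4), (4, 5), (5, 6), (6, 1), (2, 7), (7, 8), (8, 9), (9, 3)]⟩

def f_7_4_0 : Pf :=
 .seq [
  .x 0 6 (.cyc 0 [2, 7, 8, 9, 3, 1, 6]),
  .x 0 8 (.cyc 0 [4, 5, 6, 1, 2, 7, 8]),
  .x 0 9 (.cyc 0 [4, 5, 6, 1, 2, 3, 9]),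
  .x 1 4 (.cyc 1 [2, 7, 8, 9, 3, 0, 4]),
  .x 1 7 (.cyc 1 [6, 5, 4, 0, 3, 2, 7]),
  .x 1 8 (.cyc 1 [6, 5, 4, 0, 2, 7, 8]),
  .x 1 9 (.cyc 1 [6, 5, 4, 0, 2, 3, 9]),
  .x 2 5 (.cyc 2 [7, 8, 9, 3, 0, 4, 5]),
  .x 2 6 (.cyc 2 [7, 8, 9, 3, 0, 1, 6]),
  .x 2 9 (.cyc 2 [0, 4, 5, 6, 1, 3, 9]),
  .x 3 4 (.cyc 3 [9, 8, 7, 2, 1, 0, 4]),
  .x 3 5 (.cyc 3 [9, 8, 7, 2, 0, 4, 5]),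
  .x 3 6 (.cyc 3 [9, 8, 7, 2, 0, 1, 6]),
  .x 3 7 (.cyc 3 [0, 4, 5, 6, 1, 2, 7]),
  .x 4 8 (.cyc 4 [5, 6, 1, 0, 2, 7, 8]),
  .x 4 9 (.cyc 4 [0, 1, 3, 2, 7, 8, 9]),
  .x 5 7 (.cyc 5 [4, 0, 1, 3, 9, 8, 7]),
  .x 5 8 (.cyc 5 [4, 0, 1, 2, 3, 9, 8]),
  .x 5 9 (.cyc 5 [4, 0, 1, 2, 7, 8, 9]),
  .x 6 7 (.cyc 6 [1, 0, 2, 3, 9, 8, 7]),
  .x 6 8 (.cyc 6 [5, 4, 0, 1, 2, 7, 8]),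
  .x 6 9 (.cyc 6 [1, 0, 3, 2, 7, 8, 9]),
  .new2 9,
  .x 1 10 (.cyc 1 [0, 3, 2, 7, 8, 9, 10]),
  .x 1 11 (.cyc 1 [0, 3, 2, 7, 8, 9, 11]),
  .x 3 10 (.cyc 3 [0, 1, 2, 7, 8, 9, 10]),
  .x 3 11 (.cyc 3 [0, 1, 2, 7, 8, 9, 11]),
  .x 5 10 (.cyc 5 [4, 0, 1, 2, 3, 9, 10]),
  .x 5 11 (.cyc 5 [4, 0, 1, 2, 3, 9, 11]),
  .x 6 10 (.cyc 6 [1, 0, 2, 7, 8, 9, 10]),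
  .x 6 11 (.cyc 6 [1, 0, 2, 7, 8, 9, 11]),
  .new 8,
  .x 5 12 (.cyc 5 [4, 0, 1, 2, 7, 8, 12]),
  .x 6 12 (.cyc 6 [1, 0, 2, 3, 9, 8, 12]),
  .x 10 12 (.cyc 10 [9, 3, 0, 2, 7, 8, 12]),
  .x 11 12 (.cyc 11 [9, 3, 0, 2, 7, 8, 12]),
  .new2 6,
  .x 1 13 (.cyc 1 [2, 3, 0, 4, 5, 6, 13]),
  .x 1 14 (.cyc 1 [2, 3, 0, 4, 5, 6, 14]),
  .x 3 13 (.cyc 3 [1, 2, 0, 4, 5, 6, 13]),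
  .x 3 14 (.cyc 3 [1, 2, 0, 4, 5, 6, 14]),
  .x 5 13 (.cyc 5 [4, 0, 2, 3, 1, 6, 13]),
  .x 5 14 (.cyc 5 [4, 0, 2, 3, 1, 6, 14]),
  .x 10 13 (.cyc 10 [9, 3, 0, 2, 1, 6, 13]),
  .x 10 14 (.cyc 10 [9, 3, 0, 2, 1, 6, 14]),
  .x 11 13 (.cyc 11 [9, 3, 0, 2, 1, 6, 13]),
  .x 11 14 (.cyc 11 [9, 3, 0, 2, 1, 6, 14]),
  .x 12 13 (.cyc 12 [8, 7, 2, 0, 1, 6, 13]),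
  .x 12 14 (.cyc 12 [8, 7, 2, 0, 1, 6, 14]),
  .new 3,
  .x 1 15 (.cyc 1 [0, 2, 7, 8, 9, 3, 15]),
  .x 10 15 (.cyc 10 [9, 8, 7, 2, 0, 3, 15]),
  .x 11 15 (.cyc 11 [9, 8, 7, 2, 0, 3, 15]),
  .x 12 15 (.cyc 12 [8, 7, 2, 0, 1, 3, 15]),
  .x 13 15 (.cyc 13 [6, 5, 4, 0, 1, 3, 15]),
  .x 14 15 (.cyc 14 [6, 5, 4, 0, 1, 3, 15]),
  .new 1,
  .x 10 16 (.cyc 10 [9, 8, 7, 2, 0, 1, 16]),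
  .x 11 16 (.cyc 11 [9, 8, 7, 2, 0, 1, 16]),
  .x 12 16 (.cyc 12 [8, 7, 2, 0, 3, 1, 16]),
  .x 13 16 (.cyc 13 [6, 5, 4, 0, 2, 1, 16]),
  .x 14 16 (.cyc 14 [6, 5, 4, 0, 2, 1, 16]),
  .x 15 16 (.cyc 15 [3, 0, 4, 5, 6, 1, 16]),
  .new 5,
  .x 10 17 (.cyc 10 [9, 3, 0, 1, 6, 5, 17]),
  .x 11 17 (.cyc 11 [9, 3, 0, 1, 6, 5, 17]),
  .x 12 17 (.cyc 12 [8, 7, 2, 0, 4, 5, 17]),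
  .x 13 17 (.cyc 13 [6, 1, 2, 0, 4, 5, 17]),
  .x 14 17 (.cyc 14 [6, 1, 2, 0, 4, 5, 17]),
  .x 15 17 (.cyc 15 [3, 0, 2, 1, 6, 5, 17]),
  .x 16 17 (.cyc 16 [1, 2, 3, 0, 4, 5, 17])]
 (.ind [10, 11, 12, 13, 14, 15, 16, 17])

def t_7_4_1 : Tm := ⟨10, [(0, 1), (0, 2), (0, 3), (1, 2), (1, 3), (2, 3), (0, 4), (4, 5), (5, 6), (6, 1), (1, 7), (7, 8), (8, 9), (9, 2)]⟩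

def f_7_4_1 : Pf :=
 .seq [
  .x 0 5 (.cyc 0 [2, 9, 8, 7, 1, 6, 5]),
  .x 0 6 (.cyc 0 [3, 2, 9, 8, 7, 1, 6]),
  .x 0 8 (.cyc 0 [4, 5, 6, 1, 2, 9, 8]),
  .x 2 4 (.cyc 2 [9, 8, 7, 1, 3, 0, 4]),
  .x 2 5 (.cyc 2 [9, 8, 7, 1, 0, 4, 5]),
  .x 2 7 (.cyc 2 [3, 0, 4, 5, 6, 1, 7]),
  .x 2 8 (.cyc 2 [0, 4, 5, 6, 1, 7, 8]),
  .x 3 4 (.cyc 3 [1, 7, 8, 9, 2, 0, 4]),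
  .x 3 5 (.cyc 3 [2, 9, 8, 7, 1, 6, 5]),
  .x 3 6 (.cyc 3 [0, 2, 9, 8, 7, 1, 6]),
  .x 3 7 (.cyc 3 [2, 0, 4, 5, 6, 1, 7]),
  .x 3 8 (.cyc 3 [0, 4, 5, 6, 1, 7, 8]),
  .x 3 9 (.cyc 3 [0, 4, 5, 6, 1, 2, 9]),
  .x 4 6 (.cyc 4 [0, 2, 9, 8, 7, 1, 6]),
  .x 4 7 (.cyc 4 [0, 1, 3, 2, 9, 8, 7]),
  .x 5 7 (.cyc 5 [4, 0, 1, 2, 9, 8, 7]),
  .x 5 8 (.cyc 5 [4, 0, 1, 3, 2, 9, 8]),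
  .x 6 7 (.cyc 6 [1, 0, 3, 2, 9, 8, 7]),
  .x 6 8 (.cyc 6 [5, 4, 0, 1, 2, 9, 8]),
  .x 6 9 (.cyc 6 [5, 4, 0, 1, 3, 2, 9]),
  .x 7 9 (.cyc 7 [1, 6, 5, 4, 0, 2, 9]),
  .new2 3,
  .x 0 10 (.cyc 0 [1, 7, 8, 9, 2, 3, 10]),
  .x 0 11 (.cyc 0 [1, 7, 8, 9, 2, 3, 11]),
  .x 2 10 (.cyc 2 [0, 4, 5, 6, 1, 3, 10]),
  .x 5 10 (.emb 0 [3, 0, 1, 2, 10, 5, 4, 7, 8, 9]),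
  .x 5 11 (.emb 0 [3, 0, 1, 2, 11, 5, 4, 7, 8, 9]),
  .x 6 10 (.cyc 6 [1, 7, 8, 9, 2, 3, 10]),
  .x 6 11 (.cyc 6 [1, 7, 8, 9, 2, 3, 11]),
  .x 7 10 (.cyc 7 [1, 6, 5, 4, 0, 3, 10]),
  .x 7 11 (.cyc 7 [1, 6, 5, 4, 0, 3, 11]),
  .x 8 10 (.emb 0 [3, 2, 0, 1, 10, 8, 9, 4, 5, 6]),
  .x 8 11 (.emb 0 [3, 2, 0, 1, 11, 8, 9, 4, 5, 6]),
  .new 2,
  .x 6 12 (.cyc 6 [5, 4, 0, 1, 3, 2, 12]),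
  .x 7 12 (.cyc 7 [1, 6, 5, 4, 0, 2, 12]),
  .new2 7,
  .x 0 13 (.cyc 0 [1, 3, 2, 9, 8, 7, 13]),
  .x 0 14 (.cyc 0 [1, 3, 2, 9, 8, 7, 14]),
  .x 5 13 (.cyc 5 [4, 0, 2, 3, 1, 7, 13]),
  .x 5 14 (.cyc 5 [4, 0, 2, 3, 1, 7, 14]),
  .x 6 13 (.cyc 6 [1, 0, 2, 9, 8, 7, 13]),
  .x 6 14 (.cyc 6 [1, 0, 2, 9, 8, 7, 14]),
  .x 8 13 (.cyc 8 [9, 2, 0, 3, 1, 7, 13]),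
  .x 8 14 (.cyc 8 [9, 2, 0, 3, 1, 7, 14]),
  .x 10 13 (.cyc 10 [3, 0, 2, 9, 8, 7, 13]),
  .x 10 14 (.cyc 10 [3, 0, 2, 9, 8, 7, 14]),
  .x 11 13 (.cyc 11 [3, 0, 2, 9, 8, 7, 13]),
  .x 11 14 (.cyc 11 [3, 0, 2, 9, 8, 7, 14]),
  .new2 6,
  .x 0 15 (.cyc 0 [2, 9, 8, 7, 1, 6, 15]),
  .x 5 15 (.cyc 5 [4, 0, 2, 3, 1, 6, 15]),
  .x 8 15 (.cyc 8 [7, 1, 0, 4, 5, 6, 15]),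
  .x 10 15 (.cyc 10 [3, 1, 0, 4, 5, 6, 15]),
  .x 11 15 (.cyc 11 [3, 1, 0, 4, 5, 6, 15]),
  .x 13 15 (.cyc 13 [7, 1, 0, 4, 5, 6, 15]),
  .x 14 15 (.cyc 14 [7, 1, 0, 4, 5, 6, 15])]
 (.ind [0, 5, 8, 10, 11, 13, 14, 15])

def t_7_4_2 : Tm := ⟨9, [(0, 1), (0, 2), (0, 3), (1, 2), (1, 3), (2, 3), (0, 4), (4, 5), (5, 1), (2, 6), (6, 7), (7, 8), (8, 3)]⟩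

def f_7_4_2 : Pf :=
 .seq [
  .x 0 5 (.cyc 0 [2, 6, 7, 8, 3, 1, 5]),
  .x 0 6 (.cyc 0 [4, 5, 1, 3, 8, 7, 6]),
  .x 0 7 (.cyc 0 [4, 5, 1, 2, 3, 8, 7]),
  .x 1 4 (.cyc 1 [2, 6, 7, 8, 3, 0, 4]),
  .x 1 6 (.cyc 1 [5, 4, 0, 3, 8, 7, 6]),
  .x 1 7 (.cyc 1 [5, 4, 0, 2, 3, 8, 7]),
  .x 1 8 (.cyc 1 [5, 4, 0, 2, 6, 7, 8]),
  .x 2 5 (.cyc 2 [6, 7, 8, 3, 0, 1, 5]),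
  .x 2 7 (.cyc 2 [0, 4, 5, 1, 3, 8, 7]),
  .x 3 5 (.cyc 3 [8, 7, 6, 2, 0, 1, 5]),
  .x 3 7 (.cyc 3 [0, 4, 5, 1, 2, 6, 7]),
  .x 4 6 (.cyc 4 [0, 1, 2, 3, 8, 7, 6]),
  .x 4 7 (.cyc 4 [5, 1, 0, 2, 3, 8, 7]),
  .x 4 8 (.cyc 4 [0, 1, 3, 2, 6, 7, 8]),
  .x 5 6 (.cyc 5 [1, 0, 2, 3, 8, 7, 6]),
  .x 5 7 (.cyc 5 [4, 0, 1, 2, 3, 8, 7]),
  .x 5 8 (.cyc 5 [1, 0, 3, 2, 6, 7, 8]),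
  .x 6 8 (.cyc 6 [2, 0, 4, 5, 1, 3, 8]),
  .new2 6,
  .x 5 9 (.cyc 5 [1, 0, 3, 8, 7, 6, 9]),
  .x 5 10 (.cyc 5 [1, 0, 3, 8, 7, 6, 10]),
  .x 7 9 (.cyc 7 [8, 3, 0, 1, 2, 6, 9]),
  .x 7 10 (.cyc 7 [8, 3, 0, 1, 2, 6, 10]),
  .new 1,
  .x 5 11 (.emb 0 [1, 0, 2, 3, 11, 5, 4, 6, 7, 8]),
  .new2 7,
  .x 1 12 (.cyc 1 [5, 4, 0, 2, 6, 7, 12]),
  .x 1 13 (.cyc 1 [5, 4, 0, 2, 6, 7, 13]),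
  .x 4 12 (.cyc 4 [0, 1, 2, 3, 8, 7, 12]),
  .x 4 13 (.cyc 4 [0, 1, 2, 3, 8, 7, 13]),
  .x 5 12 (.cyc 5 [1, 0, 2, 3, 8, 7, 12]),
  .x 6 12 (.cyc 6 [2, 0, 1, 3, 8, 7, 12]),
  .x 6 13 (.cyc 6 [2, 0, 1, 3, 8, 7, 13]),
  .x 8 12 (.cyc 8 [3, 0, 1, 2, 6, 7, 12]),
  .x 8 13 (.cyc 8 [3, 0, 1, 2, 6, 7, 13]),
  .new2 5,
  .x 1 14 (.emb 0 [1, 0, 2, 3, 14, 5, 4, 6, 7, 8]),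
  .x 1 15 (.emb 0 [1, 0, 2, 3, 15, 5, 4, 6, 7, 8]),
  .x 4 14 (.emb 0 [0, 1, 2, 3, 4, 14, 5, 6, 7, 8]),
  .x 4 15 (.emb 0 [0, 1, 2, 3, 4, 15, 5, 6, 7, 8]),
  .x 6 14 (.cyc 6 [2, 1, 3, 0, 4, 5, 14]),
  .x 6 15 (.cyc 6 [2, 1, 3, 0, 4, 5, 15]),
  .x 8 14 (.cyc 8 [3, 1, 2, 0, 4, 5, 14]),
  .x 8 15 (.cyc 8 [3, 1, 2, 0, 4, 5, 15]),
  .x 12 14 (.cyc 12 [7, 6, 2, 0, 1, 5, 14]),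
  .x 12 15 (.cyc 12 [7, 6, 2, 0, 1, 5, 15]),
  .x 13 14 (.cyc 13 [7, 6, 2, 0, 1, 5, 14]),
  .x 13 15 (.cyc 13 [7, 6, 2, 0, 1, 5, 15])]
 (.ind [1, 4, 6, 8, 12, 13, 14, 15])

def t_7_4_3 : Tm := ⟨7, [(0, 1), (0, 2), (0, 3), (1, 2), (1, 3), (2, 3), (0, 4), (4, 1), (2, 5), (5, 6), (6, 3)]⟩

def f_7_4_3 : Pf :=
 .seq [
  .new 1,
  .x 2 7 (.cyc 2 [5, 6, 3, 0, 4, 1, 7]),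
  .x 3 7 (.cyc 3 [6, 5, 2, 0, 4, 1, 7]),
  .x 4 7 (.cyc 4 [0, 2, 5, 6, 3, 1, 7]),
  .x 5 7 (.cyc 5 [6, 3, 2, 0, 4, 1, 7]),
  .x 6 7 (.cyc 6 [5, 2, 3, 0, 4, 1, 7]),
  .new 2,
  .x 0 8 (.cyc 0 [4, 1, 3, 6, 5, 2, 8]),
  .x 1 8 (.cyc 1 [4, 0, 3, 6, 5, 2, 8]),
  .x 4 8 (.cyc 4 [0, 1, 3, 6, 5, 2, 8]),
  .x 5 8 (.cyc 5 [6, 3, 0, 4, 1, 2, 8]),
  .x 7 8 (.cyc 7 [1, 0, 3, 6, 5, 2, 8]),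
  .new 4,
  .x 0 9 (.cyc 0 [2, 5, 6, 3, 1, 4, 9]),
  .x 5 9 (.cyc 5 [6, 3, 0, 2, 1, 4, 9]),
  .x 8 9 (.cyc 8 [2, 5, 6, 3, 0, 4, 9]),
  .new 5,
  .x 0 10 (.cyc 0 [4, 1, 2, 3, 6, 5, 10]),
  .x 1 10 (.cyc 1 [4, 0, 2, 3, 6, 5, 10]),
  .x 2 10 (.cyc 2 [0, 4, 1, 3, 6, 5, 10]),
  .x 4 10 (.cyc 4 [0, 1, 2, 3, 6, 5, 10]),
  .x 6 10 (.cyc 6 [3, 0, 4, 1, 2, 5, 10]),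
  .x 7 10 (.cyc 7 [1, 0, 2, 3, 6, 5, 10]),
  .x 8 10 (.cyc 8 [2, 0, 1, 3, 6, 5, 10]),
  .x 9 10 (.cyc 9 [4, 0, 1, 3, 2, 5, 10]),
  .new2 7,
  .x 0 11 (.cyc 0 [2, 5, 6, 3, 1, 7, 11]),
  .x 0 12 (.cyc 0 [2, 5, 6, 3, 1, 7, 12]),
  .x 8 11 (.cyc 8 [2, 3, 0, 4, 1, 7, 11]),
  .x 8 12 (.cyc 8 [2, 3, 0, 4, 1, 7, 12]),
  .x 9 11 (.cyc 9 [4, 0, 2, 3, 1, 7, 11]),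
  .x 9 12 (.cyc 9 [4, 0, 2, 3, 1, 7, 12]),
  .x 10 11 (.cyc 10 [5, 2, 0, 3, 1, 7, 11]),
  .new2 10,
  .x 0 13 (.cyc 0 [1, 2, 3, 6, 5, 10, 13]),
  .x 0 14 (.cyc 0 [1, 2, 3, 6, 5, 10, 14]),
  .x 8 13 (.cyc 8 [2, 0, 3, 6, 5, 10, 13]),
  .x 8 14 (.cyc 8 [2, 0, 3, 6, 5, 10, 14]),
  .x 9 13 (.cyc 9 [4, 0, 1, 2, 5, 10, 13]),
  .x 9 14 (.cyc 9 [4, 0, 1, 2, 5, 10, 14]),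
  .x 11 13 (.cyc 11 [7, 1, 0, 2, 5, 10, 13]),
  .x 11 14 (.cyc 11 [7, 1, 0, 2, 5, 10, 14]),
  .x 12 13 (.cyc 12 [7, 1, 0, 2, 5, 10, 13]),
  .x 12 14 (.cyc 12 [7, 1, 0, 2, 5, 10, 14]),
  .new2 8,
  .x 0 15 (.cyc 0 [1, 3, 6, 5, 2, 8, 15]),
  .x 0 16 (.cyc 0 [1, 3, 6, 5, 2, 8, 16]),
  .x 9 15 (.cyc 9 [4, 0, 1, 3, 2, 8, 15]),
  .x 9 16 (.cyc 9 [4, 0, 1, 3, 2, 8, 16]),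
  .x 11 15 (.cyc 11 [7, 1, 0, 3, 2, 8, 15]),
  .x 11 16 (.cyc 11 [7, 1, 0, 3, 2, 8, 16]),
  .x 12 15 (.cyc 12 [7, 1, 0, 3, 2, 8, 15]),
  .x 12 16 (.cyc 12 [7, 1, 0, 3, 2, 8, 16]),
  .x 13 15 (.cyc 13 [10, 5, 6, 3, 2, 8, 15]),
  .x 13 16 (.cyc 13 [10, 5, 6, 3, 2, 8, 16]),
  .x 14 15 (.cyc 14 [10, 5, 6, 3, 2, 8, 15]),
  .x 14 16 (.cyc 14 [10, 5, 6, 3, 2, 8, 16])]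
 (.ind [0, 9, 11, 12, 13, 14, 15, 16])

def t_7_4_4 : Tm := ⟨7, [(0, 1), (0, 2), (0, 3), (1, 2), (1, 3), (2, 3), (0, 4), (4, 1), (1, 5), (5, 2), (2, 6), (6, 3)]⟩

def f_7_4_4 : Pf :=
 .seq [
  .x 4 6 (.emb 3 [1, 2, 3, 0, 5, 6, 4]),
  .new 1,
  .x 4 7 (.cyc 4 [0, 3, 6, 2, 5, 1, 7]),
  .x 5 7 (.cyc 5 [2, 6, 3, 0, 4, 1, 7]),
  .new 6,
  .x 0 8 (.cyc 0 [4, 1, 5, 2, 3, 6, 8]),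
  .x 2 8 (.cyc 2 [5, 1, 4, 0, 3, 6, 8]),
  .x 3 8 (.cyc 3 [0, 4, 1, 5, 2, 6, 8]),
  .x 4 8 (.cyc 4 [0, 1, 5, 2, 3, 6, 8]),
  .x 5 8 (.cyc 5 [1, 4, 0, 2, 3, 6, 8]),
  .x 7 8 (.cyc 7 [1, 4, 0, 2, 3, 6, 8]),
  .new 4,
  .x 0 9 (.cyc 0 [3, 6, 2, 5, 1, 4, 9]),
  .x 1 9 (.cyc 1 [5, 2, 6, 3, 0, 4, 9]),
  .x 3 9 (.cyc 3 [6, 2, 5, 1, 0, 4, 9]),
  .x 5 9 (.cyc 5 [1, 2, 6, 3, 0, 4, 9]),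
  .x 6 9 (.cyc 6 [2, 5, 1, 3, 0, 4, 9]),
  .x 7 9 (.cyc 7 [1, 2, 6, 3, 0, 4, 9]),
  .x 8 9 (.cyc 8 [6, 2, 0, 3, 1, 4, 9]),
  .new 5,
  .x 0 10 (.cyc 0 [4, 1, 3, 6, 2, 5, 10]),
  .x 1 10 (.cyc 1 [4, 0, 3, 6, 2, 5, 10]),
  .x 2 10 (.cyc 2 [6, 3, 0, 4, 1, 5, 10]),
  .x 3 10 (.cyc 3 [6, 2, 0, 4, 1, 5, 10]),
  .x 7 10 (.cyc 7 [1, 0, 3, 6, 2, 5, 10]),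
  .x 8 10 (.cyc 8 [6, 2, 0, 3, 1, 5, 10]),
  .x 9 10 (.cyc 9 [4, 0, 1, 3, 2, 5, 10]),
  .new2 10,
  .x 0 11 (.cyc 0 [1, 3, 6, 2, 5, 10, 11]),
  .x 0 12 (.cyc 0 [1, 3, 6, 2, 5, 10, 12]),
  .x 7 11 (.cyc 7 [1, 0, 3, 2, 5, 10, 11]),
  .x 7 12 (.cyc 7 [1, 0, 3, 2, 5, 10, 12]),
  .x 8 11 (.cyc 8 [6, 2, 0, 1, 5, 10, 11]),
  .x 9 11 (.cyc 9 [4, 0, 1, 2, 5, 10, 11]),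
  .x 9 12 (.cyc 9 [4, 0, 1, 2, 5, 10, 12]),
  .new2 8,
  .x 0 13 (.cyc 0 [1, 5, 2, 3, 6, 8, 13]),
  .x 0 14 (.cyc 0 [1, 5, 2, 3, 6, 8, 14]),
  .x 7 13 (.cyc 7 [1, 0, 2, 3, 6, 8, 13]),
  .x 7 14 (.cyc 7 [1, 0, 2, 3, 6, 8, 14]),
  .x 9 13 (.cyc 9 [4, 0, 1, 2, 6, 8, 13]),
  .x 11 13 (.cyc 11 [10, 5, 1, 2, 6, 8, 13]),
  .x 11 14 (.cyc 11 [10, 5, 1, 2, 6, 8, 14]),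
  .x 12 13 (.cyc 12 [10, 5, 1, 2, 6, 8, 13]),
  .x 12 14 (.cyc 12 [10, 5, 1, 2, 6, 8, 14]),
  .new2 9,
  .x 0 15 (.cyc 0 [2, 6, 3, 1, 4, 9, 15]),
  .x 0 16 (.cyc 0 [2, 6, 3, 1, 4, 9, 16]),
  .x 7 15 (.cyc 7 [1, 2, 3, 0, 4, 9, 15]),
  .x 11 15 (.cyc 11 [10, 5, 1, 0, 4, 9, 15]),
  .x 11 16 (.cyc 11 [10, 5, 1, 0, 4, 9, 16]),
  .x 12 15 (.cyc 12 [10, 5, 1, 0, 4, 9, 15]),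
  .x 12 16 (.cyc 12 [10, 5, 1, 0, 4, 9, 16]),
  .x 13 15 (.cyc 13 [8, 6, 2, 0, 4, 9, 15]),
  .x 13 16 (.cyc 13 [8, 6, 2, 0, 4, 9, 16]),
  .x 14 15 (.cyc 14 [8, 6, 2, 0, 4, 9, 15]),
  .x 14 16 (.cyc 14 [8, 6, 2, 0, 4, 9, 16]),
  .new 7,
  .x 0 17 (.cyc 0 [3, 6, 2, 5, 1, 7, 17]),
  .x 11 17 (.cyc 11 [10, 5, 2, 0, 1, 7, 17]),
  .x 12 17 (.cyc 12 [10, 5, 2, 0, 1, 7, 17]),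
  .x 13 17 (.cyc 13 [8, 6, 2, 0, 1, 7, 17]),
  .x 14 17 (.cyc 14 [8, 6, 2, 0, 1, 7, 17]),
  .x 15 17 (.cyc 15 [9, 4, 0, 2, 1, 7, 17]),
  .x 16 17 (.cyc 16 [9, 4, 0, 2, 1, 7, 17])]
 (.ind [0, 11, 12, 13, 14, 15, 16, 17])

def t_7_4_5 : Tm := ⟨7, [(0, 1), (0, 2), (0, 3), (1, 2), (1, 3), (2, 3), (0, 4), (4, 5), (5, 1), (1, 6), (6, 2)]⟩

def f_7_4_5 : Pf :=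
 .seq [
  .new 5,
  .x 1 7 (.cyc 1 [6, 2, 3, 0, 4, 5, 7]),
  .x 2 7 (.cyc 2 [6, 1, 3, 0, 4, 5, 7]),
  .x 3 7 (.cyc 3 [1, 6, 2, 0, 4, 5, 7]),
  .x 4 7 (.cyc 4 [0, 3, 2, 6, 1, 5, 7]),
  .x 6 7 (.cyc 6 [1, 2, 3, 0, 4, 5, 7]),
  .new 4,
  .x 0 8 (.cyc 0 [3, 2, 6, 1, 5, 4, 8]),
  .x 3 8 (.cyc 3 [0, 2, 6, 1, 5, 4, 8]),
  .x 5 8 (.cyc 5 [1, 6, 2, 3, 0, 4, 8]),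
  .x 6 8 (.cyc 6 [2, 0, 3, 1, 5, 4, 8]),
  .x 7 8 (.cyc 7 [5, 1, 2, 3, 0, 4, 8]),
  .new 3,
  .x 0 9 (.cyc 0 [4, 5, 1, 6, 2, 3, 9]),
  .x 2 9 (.cyc 2 [6, 1, 5, 4, 0, 3, 9]),
  .x 4 9 (.cyc 4 [5, 1, 6, 2, 0, 3, 9]),
  .x 5 9 (.cyc 5 [4, 0, 1, 6, 2, 3, 9]),
  .x 6 9 (.cyc 6 [1, 5, 4, 0, 2, 3, 9]),
  .x 7 9 (.cyc 7 [5, 1, 6, 2, 0, 3, 9]),
  .x 8 9 (.cyc 8 [4, 0, 1, 6, 2, 3, 9]),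
  .new 6,
  .x 0 10 (.cyc 0 [4, 5, 1, 3, 2, 6, 10]),
  .x 7 10 (.cyc 7 [5, 1, 0, 3, 2, 6, 10]),
  .x 8 10 (.cyc 8 [4, 0, 1, 3, 2, 6, 10]),
  .x 9 10 (.cyc 9 [3, 0, 4, 5, 1, 6, 10]),
  .new2 8,
  .x 0 11 (.cyc 0 [2, 3, 1, 5, 4, 8, 11]),
  .x 0 12 (.cyc 0 [2, 3, 1, 5, 4, 8, 12]),
  .x 7 11 (.cyc 7 [5, 1, 2, 0, 4, 8, 11]),
  .x 7 12 (.cyc 7 [5, 1, 2, 0, 4, 8, 12]),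
  .x 9 11 (.cyc 9 [3, 0, 1, 5, 4, 8, 11]),
  .x 10 11 (.cyc 10 [6, 1, 2, 0, 4, 8, 11]),
  .x 10 12 (.cyc 10 [6, 1, 2, 0, 4, 8, 12]),
  .new2 9,
  .x 0 13 (.cyc 0 [4, 5, 1, 2, 3, 9, 13]),
  .x 0 14 (.cyc 0 [4, 5, 1, 2, 3, 9, 14]),
  .x 7 13 (.cyc 7 [5, 1, 0, 2, 3, 9, 13]),
  .x 10 13 (.cyc 10 [6, 1, 0, 2, 3, 9, 13]),
  .x 10 14 (.cyc 10 [6, 1, 0, 2, 3, 9, 14]),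
  .x 11 13 (.cyc 11 [8, 4, 0, 1, 3, 9, 13]),
  .x 11 14 (.cyc 11 [8, 4, 0, 1, 3, 9, 14]),
  .x 12 13 (.cyc 12 [8, 4, 0, 1, 3, 9, 13]),
  .x 12 14 (.cyc 12 [8, 4, 0, 1, 3, 9, 14]),
  .new2 7,
  .x 0 15 (.cyc 0 [3, 2, 6, 1, 5, 7, 15]),
  .x 0 16 (.cyc 0 [3, 2, 6, 1, 5, 7, 16]),
  .x 10 15 (.cyc 10 [6, 1, 0, 4, 5, 7, 15]),
  .x 10 16 (.cyc 10 [6, 1, 0, 4, 5, 7, 16]),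
  .x 11 15 (.cyc 11 [8, 4, 0, 1, 5, 7, 15]),
  .x 11 16 (.cyc 11 [8, 4, 0, 1, 5, 7, 16]),
  .x 12 15 (.cyc 12 [8, 4, 0, 1, 5, 7, 15]),
  .x 12 16 (.cyc 12 [8, 4, 0, 1, 5, 7, 16]),
  .x 13 15 (.cyc 13 [9, 3, 0, 1, 5, 7, 15]),
  .x 13 16 (.cyc 13 [9, 3, 0, 1, 5, 7, 16]),
  .x 14 15 (.cyc 14 [9, 3, 0, 1, 5, 7, 15]),
  .x 14 16 (.cyc 14 [9, 3, 0, 1, 5, 7, 16])]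
 (.ind [0, 10, 11, 12, 13, 14, 15, 16])

def t_7_4_6 : Tm := ⟨6, [(0, 1), (0, 2), (0, 3), (1, 2), (1, 3), (2, 3), (0, 4), (4, 1), (2, 5), (5, 3)]⟩

def f_7_4_6 : Pf :=
 .seq [
  .new 4,
  .x 0 6 (.emb 3 [2, 3, 0, 1, 5, 6, 4]),
  .x 1 6 (.emb 3 [2, 3, 1, 0, 5, 6, 4]),
  .x 3 6 (.emb 5 [0, 3, 2, 1, 4, 6, 5]),
  .new 2,
  .x 0 7 (.emb 4 [1, 0, 2, 3, 4, 7, 5]),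
  .x 1 7 (.emb 4 [0, 1, 2, 3, 4, 7, 5]),
  .x 4 7 (.emb 5 [0, 2, 3, 1, 4, 7, 5]),
  .x 5 7 (.emb 3 [0, 1, 2, 3, 4, 7, 5]),
  .x 6 7 (.cyc 6 [4, 0, 1, 3, 5, 2, 7]),
  .new 3,
  .x 0 8 (.emb 4 [1, 0, 3, 2, 4, 8, 5]),
  .x 1 8 (.emb 4 [0, 1, 3, 2, 4, 8, 5]),
  .x 5 8 (.emb 3 [0, 1, 3, 2, 4, 8, 5]),
  .x 6 8 (.cyc 6 [4, 0, 1, 2, 5, 3, 8]),
  .x 7 8 (.emb 3 [0, 1, 3, 2, 4, 8, 7]),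
  .new 0,
  .x 5 9 (.emb 5 [2, 0, 1, 3, 5, 9, 4]),
  .x 7 9 (.cyc 7 [2, 5, 3, 1, 4, 0, 9]),
  .new 5,
  .x 0 10 (.emb 5 [2, 0, 1, 3, 5, 10, 4]),
  .x 1 10 (.emb 5 [2, 1, 0, 3, 5, 10, 4]),
  .x 6 10 (.cyc 6 [4, 0, 1, 2, 3, 5, 10]),
  .x 8 10 (.cyc 8 [3, 0, 4, 1, 2, 5, 10]),
  .new 1,
  .x 2 11 (.emb 4 [3, 2, 1, 0, 5, 11, 4]),
  .x 3 11 (.emb 4 [2, 3, 1, 0, 5, 11, 4]),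
  .x 4 11 (.emb 3 [2, 3, 1, 0, 5, 11, 4]),
  .x 5 11 (.emb 5 [2, 1, 0, 3, 5, 11, 4]),
  .x 6 11 (.cyc 6 [4, 0, 2, 5, 3, 1, 11]),
  .x 7 11 (.cyc 7 [2, 5, 3, 0, 4, 1, 11]),
  .x 8 11 (.cyc 8 [3, 5, 2, 0, 4, 1, 11]),
  .x 9 11 (.emb 3 [2, 3, 1, 0, 5, 11, 9]),
  .x 10 11 (.cyc 10 [5, 2, 3, 0, 4, 1, 11]),
  .new2 7,
  .x 0 12 (.cyc 0 [4, 1, 3, 5, 2, 7, 12]),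
  .x 0 13 (.cyc 0 [4, 1, 3, 5, 2, 7, 13]),
  .x 6 12 (.cyc 6 [4, 0, 1, 3, 2, 7, 12]),
  .x 6 13 (.cyc 6 [4, 0, 1, 3, 2, 7, 13]),
  .x 8 12 (.cyc 8 [3, 0, 4, 1, 2, 7, 12]),
  .x 8 13 (.cyc 8 [3, 0, 4, 1, 2, 7, 13]),
  .x 10 12 (.cyc 10 [5, 3, 0, 1, 2, 7, 12]),
  .x 10 13 (.cyc 10 [5, 3, 0, 1, 2, 7, 13]),
  .x 11 12 (.cyc 11 [1, 0, 3, 5, 2, 7, 12]),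
  .new2 11,
  .x 0 14 (.emb 3 [2, 3, 0, 1, 5, 14, 11]),
  .x 0 15 (.emb 3 [2, 3, 0, 1, 5, 15, 11]),
  .x 6 14 (.cyc 6 [4, 0, 2, 3, 1, 11, 14]),
  .x 6 15 (.cyc 6 [4, 0, 2, 3, 1, 11, 15]),
  .x 8 14 (.cyc 8 [3, 2, 0, 4, 1, 11, 14]),
  .x 8 15 (.cyc 8 [3, 2, 0, 4, 1, 11, 15]),
  .x 10 14 (.cyc 10 [5, 2, 0, 3, 1, 11, 14]),
  .x 10 15 (.cyc 10 [5, 2, 0, 3, 1, 11, 15]),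
  .x 12 14 (.cyc 12 [7, 2, 0, 3, 1, 11, 14]),
  .x 12 15 (.cyc 12 [7, 2, 0, 3, 1, 11, 15]),
  .x 13 14 (.cyc 13 [7, 2, 0, 3, 1, 11, 14]),
  .x 13 15 (.cyc 13 [7, 2, 0, 3, 1, 11, 15])]
 (.ind [0, 6, 8, 10, 12, 13, 14, 15])

def t_7_4_7 : Tm := ⟨6, [(0, 1), (0, 2), (0, 3), (1, 2), (1, 3), (2, 3), (0, 4), (4, 1), (1, 5), (5, 2)]⟩

def f_7_4_7 : Pf :=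
 .seq [
  .x 3 5 (.emb 6 [3, 2, 0, 1, 5, 4]),
  .new 1,
  .x 4 6 (.emb 5 [0, 1, 2, 3, 4, 6, 5]),
  .x 5 6 (.emb 5 [2, 1, 0, 3, 5, 6, 4]),
  .new 2,
  .x 6 7 (.emb 5 [2, 1, 0, 3, 7, 6, 4]),
  .new 4,
  .x 0 8 (.emb 5 [0, 1, 2, 3, 8, 4, 5]),
  .x 1 8 (.emb 5 [0, 1, 2, 3, 4, 8, 5]),
  .x 2 8 (.emb 5 [0, 2, 1, 3, 4, 8, 5]),
  .x 3 8 (.emb 3 [1, 2, 3, 0, 5, 8, 4]),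
  .x 6 8 (.cyc 6 [1, 5, 2, 3, 0, 4, 8]),
  .x 7 8 (.cyc 7 [2, 5, 1, 3, 0, 4, 8]),
  .new 3,
  .x 0 9 (.emb 4 [3, 0, 1, 2, 9, 4, 5]),
  .x 2 9 (.emb 4 [3, 2, 1, 0, 9, 5, 4]),
  .x 4 9 (.emb 3 [1, 2, 3, 0, 5, 9, 4]),
  .x 5 9 (.emb 3 [0, 1, 3, 2, 4, 9, 5]),
  .x 6 9 (.emb 5 [3, 1, 0, 2, 9, 6, 4]),
  .x 7 9 (.cyc 7 [2, 5, 1, 4, 0, 3, 9]),
  .x 8 9 (.cyc 8 [4, 0, 1, 5, 2, 3, 9]),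
  .new 5,
  .x 0 10 (.emb 5 [2, 0, 1, 3, 5, 10, 4]),
  .x 1 10 (.emb 5 [2, 1, 0, 3, 5, 10, 4]),
  .x 2 10 (.emb 5 [2, 1, 0, 3, 10, 5, 4]),
  .x 3 10 (.emb 3 [0, 1, 3, 2, 4, 10, 5]),
  .x 6 10 (.cyc 6 [1, 4, 0, 3, 2, 5, 10]),
  .x 8 10 (.cyc 8 [4, 0, 1, 3, 2, 5, 10]),
  .x 9 10 (.cyc 9 [3, 0, 4, 1, 2, 5, 10]),
  .new2 10,
  .x 0 11 (.cyc 0 [4, 1, 3, 2, 5, 10, 11]),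
  .x 0 12 (.cyc 0 [4, 1, 3, 2, 5, 10, 12]),
  .x 6 11 (.cyc 6 [1, 0, 3, 2, 5, 10, 11]),
  .x 6 12 (.cyc 6 [1, 0, 3, 2, 5, 10, 12]),
  .x 8 11 (.cyc 8 [4, 0, 1, 2, 5, 10, 11]),
  .x 8 12 (.cyc 8 [4, 0, 1, 2, 5, 10, 12]),
  .x 9 11 (.cyc 9 [3, 0, 1, 2, 5, 10, 11]),
  .new2 9,
  .x 0 13 (.cyc 0 [4, 1, 5, 2, 3, 9, 13]),
  .x 0 14 (.cyc 0 [4, 1, 5, 2, 3, 9, 14]),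
  .x 8 13 (.cyc 8 [4, 0, 1, 2, 3, 9, 13]),
  .x 8 14 (.cyc 8 [4, 0, 1, 2, 3, 9, 14]),
  .x 11 13 (.cyc 11 [10, 5, 1, 0, 3, 9, 13]),
  .x 11 14 (.cyc 11 [10, 5, 1, 0, 3, 9, 14]),
  .x 12 13 (.cyc 12 [10, 5, 1, 0, 3, 9, 13]),
  .x 12 14 (.cyc 12 [10, 5, 1, 0, 3, 9, 14]),
  .new 6,
  .x 0 15 (.emb 5 [0, 1, 2, 3, 15, 6, 5]),
  .x 11 15 (.cyc 11 [10, 5, 2, 0, 1, 6, 15]),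
  .x 12 15 (.cyc 12 [10, 5, 2, 0, 1, 6, 15]),
  .x 13 15 (.cyc 13 [9, 3, 0, 2, 1, 6, 15]),
  .x 14 15 (.cyc 14 [9, 3, 0, 2, 1, 6, 15]),
  .new2 8,
  .x 0 16 (.cyc 0 [3, 2, 5, 1, 4, 8, 16]),
  .x 0 17 (.cyc 0 [3, 2, 5, 1, 4, 8, 17]),
  .x 11 16 (.cyc 11 [10, 5, 1, 0, 4, 8, 16]),
  .x 11 17 (.cyc 11 [10, 5, 1, 0, 4, 8, 17]),
  .x 12 16 (.cyc 12 [10, 5, 1, 0, 4, 8, 16]),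
  .x 12 17 (.cyc 12 [10, 5, 1, 0, 4, 8, 17]),
  .x 13 16 (.cyc 13 [9, 3, 0, 1, 4, 8, 16]),
  .x 13 17 (.cyc 13 [9, 3, 0, 1, 4, 8, 17]),
  .x 14 16 (.cyc 14 [9, 3, 0, 1, 4, 8, 16]),
  .x 14 17 (.cyc 14 [9, 3, 0, 1, 4, 8, 17]),
  .x 15 16 (.cyc 15 [6, 1, 2, 0, 4, 8, 16]),
  .x 15 17 (.cyc 15 [6, 1, 2, 0, 4, 8, 17])]
 (.ind [0, 11, 12, 13, 14, 15, 16, 17])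

def t_7_4_8 : Tm := ⟨7, [(0, 1), (0, 2), (0, 3), (1, 2), (1, 3), (2, 3), (0, 4), (4, 5), (5, 6), (6, 1)]⟩

def f_7_4_8 : Pf :=
 .br 0 5
 (.seq [
  .x 2 4 (.emb 5 [1, 0, 2, 3, 6, 5, 4]),
  .x 3 4 (.emb 5 [1, 0, 3, 2, 6, 5, 4]),
  .new 1,
  .x 6 7 (.cyc 6 [5, 4, 0, 2, 3, 1, 7]),
  .new 6,
  .x 1 8 (.cyc 1 [2, 3, 0, 4, 5, 6, 8]),
  .x 2 8 (.cyc 2 [1, 3, 0, 4, 5, 6, 8]),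
  .x 3 8 (.cyc 3 [1, 2, 0, 4, 5, 6, 8]),
  .x 4 8 (.cyc 4 [5, 0, 2, 3, 1, 6, 8]),
  .x 5 8 (.cyc 5 [4, 0, 2, 3, 1, 6, 8]),
  .x 7 8 (.cyc 7 [1, 2, 0, 4, 5, 6, 8]),
  .new 2,
  .x 0 9 (.cyc 0 [4, 5, 6, 1, 3, 2, 9]),
  .x 1 9 (.cyc 1 [6, 5, 4, 0, 3, 2, 9]),
  .x 3 9 (.cyc 3 [0, 4, 5, 6, 1, 2, 9]),
  .x 4 9 (.cyc 4 [0, 5, 6, 1, 3, 2, 9]),
  .x 6 9 (.cyc 6 [5, 4, 0, 1, 3, 2, 9]),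
  .x 7 9 (.cyc 7 [1, 6, 5, 0, 3, 2, 9]),
  .x 8 9 (.cyc 8 [6, 5, 0, 1, 3, 2, 9]),
  .new 3,
  .x 1 10 (.cyc 1 [6, 5, 4, 0, 2, 3, 10]),
  .x 8 10 (.cyc 8 [6, 5, 0, 1, 2, 3, 10]),
  .new 4,
  .x 0 11 (.cyc 0 [2, 3, 1, 6, 5, 4, 11]),
  .x 2 11 (.cyc 2 [0, 3, 1, 6, 5, 4, 11]),
  .x 3 11 (.cyc 3 [0, 2, 1, 6, 5, 4, 11]),
  .x 5 11 (.cyc 5 [6, 1, 2, 3, 0, 4, 11]),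
  .x 6 11 (.cyc 6 [1, 2, 3, 0, 5, 4, 11]),
  .x 7 11 (.cyc 7 [1, 2, 3, 0, 5, 4, 11]),
  .x 8 11 (.cyc 8 [6, 1, 2, 0, 5, 4, 11]),
  .x 9 11 (.cyc 9 [2, 0, 1, 6, 5, 4, 11]),
  .x 10 11 (.cyc 10 [3, 0, 1, 6, 5, 4, 11]),
  .new2 9,
  .x 1 12 (.cyc 1 [6, 5, 0, 3, 2, 9, 12]),
  .x 1 13 (.cyc 1 [6, 5, 0, 3, 2, 9, 13]),
  .x 8 12 (.cyc 8 [6, 1, 0, 3, 2, 9, 12]),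
  .x 10 12 (.emb 0 [3, 2, 0, 1, 10, 12, 9, 4, 5, 6]),
  .x 10 13 (.emb 0 [3, 2, 0, 1, 10, 13, 9, 4, 5, 6]),
  .x 11 12 (.cyc 11 [4, 0, 1, 3, 2, 9, 12]),
  .x 11 13 (.cyc 11 [4, 0, 1, 3, 2, 9, 13]),
  .new2 8,
  .x 1 14 (.cyc 1 [2, 0, 4, 5, 6, 8, 14]),
  .x 1 15 (.cyc 1 [2, 0, 4, 5, 6, 8, 15]),
  .x 10 14 (.cyc 10 [3, 0, 2, 1, 6, 8, 14]),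
  .x 10 15 (.cyc 10 [3, 0, 2, 1, 6, 8, 15]),
  .x 11 14 (.cyc 11 [4, 0, 2, 1, 6, 8, 14]),
  .x 12 14 (.cyc 12 [9, 2, 0, 1, 6, 8, 14]),
  .x 12 15 (.cyc 12 [9, 2, 0, 1, 6, 8, 15]),
  .x 13 14 (.cyc 13 [9, 2, 0, 1, 6, 8, 14]),
  .x 13 15 (.cyc 13 [9, 2, 0, 1, 6, 8, 15]),
  .new2 11,
  .x 1 16 (.cyc 1 [2, 3, 0, 5, 4, 11, 16]),
  .x 1 17 (.cyc 1 [2, 3, 0, 5, 4, 11, 17]),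
  .x 10 16 (.cyc 10 [3, 1, 0, 5, 4, 11, 16]),
  .x 10 17 (.cyc 10 [3, 1, 0, 5, 4, 11, 17]),
  .x 12 16 (.cyc 12 [9, 2, 0, 5, 4, 11, 16]),
  .x 12 17 (.cyc 12 [9, 2, 0, 5, 4, 11, 17]),
  .x 13 16 (.cyc 13 [9, 2, 0, 5, 4, 11, 16]),
  .x 13 17 (.cyc 13 [9, 2, 0, 5, 4, 11, 17]),
  .x 14 16 (.cyc 14 [8, 6, 1, 0, 4, 11, 16]),
  .x 14 17 (.cyc 14 [8, 6, 1, 0, 4, 11, 17]),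
  .x 15 16 (.cyc 15 [8, 6, 1, 0, 4, 11, 16]),
  .x 15 17 (.cyc 15 [8, 6, 1, 0, 4, 11, 17])]
 (.ind [1, 10, 12, 13, 14, 15, 16, 17]))
 (.seq [
  .new 2,
  .x 0 7 (.cyc 0 [4, 5, 6, 1, 3, 2, 7]),
  .x 1 7 (.cyc 1 [6, 5, 4, 0, 3, 2, 7]),
  .x 3 7 (.cyc 3 [0, 4, 5, 6, 1, 2, 7]),
  .x 4 7 (.cyc 4 [5, 6, 1, 0, 3, 2, 7]),
  .x 6 7 (.cyc 6 [5, 4, 0, 1, 3, 2, 7]),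
  .new 0,
  .x 3 8 (.cyc 3 [2, 1, 6, 5, 4, 0, 8]),
  .x 4 8 (.cyc 4 [5, 6, 1, 2, 3, 0, 8]),
  .x 7 8 (.cyc 7 [2, 1, 6, 5, 4, 0, 8]),
  .new 4,
  .x 0 9 (.cyc 0 [2, 3, 1, 6, 5, 4, 9]),
  .x 2 9 (.cyc 2 [0, 3, 1, 6, 5, 4, 9]),
  .x 3 9 (.cyc 3 [0, 2, 1, 6, 5, 4, 9]),
  .x 5 9 (.cyc 5 [6, 1, 2, 3, 0, 4, 9]),
  .x 7 9 (.cyc 7 [2, 0, 1, 6, 5, 4, 9]),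
  .x 8 9 (.cyc 8 [0, 2, 1, 6, 5, 4, 9]),
  .new 3,
  .x 0 10 (.cyc 0 [4, 5, 6, 1, 2, 3, 10]),
  .x 1 10 (.cyc 1 [6, 5, 4, 0, 2, 3, 10]),
  .x 2 10 (.cyc 2 [0, 4, 5, 6, 1, 3, 10]),
  .x 4 10 (.cyc 4 [5, 6, 1, 0, 2, 3, 10]),
  .x 6 10 (.cyc 6 [5, 4, 0, 1, 2, 3, 10]),
  .x 7 10 (.emb 2 [3, 2, 0, 1, 10, 7, 4, 5, 6]),
  .x 9 10 (.cyc 9 [4, 5, 6, 1, 0, 3, 10]),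
  .new2 10,
  .x 0 11 (.cyc 0 [4, 5, 6, 1, 3, 10, 11]),
  .x 0 12 (.cyc 0 [4, 5, 6, 1, 3, 10, 12]),
  .x 5 11 (.cyc 5 [4, 0, 1, 2, 3, 10, 11]),
  .x 5 12 (.cyc 5 [4, 0, 1, 2, 3, 10, 12]),
  .x 7 11 (.emb 0 [2, 3, 0, 1, 7, 11, 10, 4, 5, 6]),
  .x 9 11 (.cyc 9 [4, 0, 1, 2, 3, 10, 11]),
  .x 9 12 (.cyc 9 [4, 0, 1, 2, 3, 10, 12]),
  .new2 7,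
  .x 0 13 (.cyc 0 [4, 5, 6, 1, 2, 7, 13]),
  .x 0 14 (.cyc 0 [4, 5, 6, 1, 2, 7, 14]),
  .x 5 13 (.cyc 5 [4, 0, 1, 3, 2, 7, 13]),
  .x 5 14 (.cyc 5 [4, 0, 1, 3, 2, 7, 14]),
  .x 9 13 (.cyc 9 [4, 0, 1, 3, 2, 7, 13]),
  .x 9 14 (.cyc 9 [4, 0, 1, 3, 2, 7, 14]),
  .x 11 13 (.cyc 11 [10, 3, 0, 1, 2, 7, 13]),
  .x 11 14 (.cyc 11 [10, 3, 0, 1, 2, 7, 14]),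
  .x 12 13 (.cyc 12 [10, 3, 0, 1, 2, 7, 13]),
  .x 12 14 (.cyc 12 [10, 3, 0, 1, 2, 7, 14]),
  .new2 9,
  .x 0 15 (.cyc 0 [2, 1, 6, 5, 4, 9, 15]),
  .x 0 16 (.cyc 0 [2, 1, 6, 5, 4, 9, 16]),
  .x 5 15 (.cyc 5 [6, 1, 2, 0, 4, 9, 15]),
  .x 5 16 (.cyc 5 [6, 1, 2, 0, 4, 9, 16]),
  .x 11 15 (.cyc 11 [10, 3, 1, 0, 4, 9, 15]),
  .x 11 16 (.cyc 11 [10, 3, 1, 0, 4, 9, 16]),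
  .x 12 15 (.cyc 12 [10, 3, 1, 0, 4, 9, 15]),
  .x 12 16 (.cyc 12 [10, 3, 1, 0, 4, 9, 16]),
  .x 13 15 (.cyc 13 [7, 2, 1, 0, 4, 9, 15]),
  .x 13 16 (.cyc 13 [7, 2, 1, 0, 4, 9, 16]),
  .x 14 15 (.cyc 14 [7, 2, 1, 0, 4, 9, 15]),
  .x 14 16 (.cyc 14 [7, 2, 1, 0, 4, 9, 16])]
 (.ind [0, 5, 11, 12, 13, 14, 15, 16]))

def t_7_4_9 : Tm := ⟨6, [(0, 1), (0, 2), (0, 3), (1, 2), (1, 3), (2, 3), (0, 4), (4, 5), (5, 1)]⟩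

def f_7_4_9 : Pf :=
 .seq [
  .new 2,
  .x 0 6 (.emb 5 [1, 0, 2, 3, 5, 4, 6]),
  .x 1 6 (.emb 5 [0, 1, 2, 3, 4, 5, 6]),
  .x 3 6 (.emb 3 [3, 2, 0, 1, 6, 4, 5]),
  .x 4 6 (.emb 8 [2, 1, 0, 3, 6, 4, 5]),
  .x 5 6 (.emb 8 [2, 0, 1, 3, 6, 5, 4]),
  .new 4,
  .x 0 7 (.emb 8 [0, 1, 2, 3, 7, 4, 5]),
  .x 2 7 (.emb 8 [2, 1, 0, 3, 7, 4, 5]),
  .x 3 7 (.emb 8 [3, 1, 0, 2, 7, 4, 5]),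
  .x 5 7 (.emb 8 [1, 0, 2, 3, 5, 7, 4]),
  .x 6 7 (.cyc 6 [2, 0, 3, 1, 5, 4, 7]),
  .new 0,
  .x 6 8 (.cyc 6 [2, 3, 1, 5, 4, 0, 8]),
  .x 7 8 (.cyc 7 [4, 5, 1, 2, 3, 0, 8]),
  .new 5,
  .x 1 9 (.emb 8 [1, 0, 2, 3, 9, 5, 4]),
  .x 2 9 (.emb 8 [2, 0, 1, 3, 9, 5, 4]),
  .x 3 9 (.emb 8 [3, 0, 1, 2, 9, 5, 4]),
  .x 4 9 (.emb 8 [0, 1, 2, 3, 4, 9, 5]),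
  .x 6 9 (.cyc 6 [2, 1, 3, 0, 4, 5, 9]),
  .x 7 9 (.cyc 7 [4, 0, 2, 3, 1, 5, 9]),
  .x 8 9 (.emb 8 [0, 1, 2, 3, 8, 9, 5]),
  .new 3,
  .x 0 10 (.emb 5 [1, 0, 3, 2, 5, 4, 10]),
  .x 6 10 (.cyc 6 [2, 0, 4, 5, 1, 3, 10]),
  .x 7 10 (.cyc 7 [4, 5, 1, 0, 2, 3, 10]),
  .new2 9,
  .x 0 11 (.emb 8 [0, 1, 2, 3, 11, 9, 5]),
  .x 0 12 (.emb 8 [0, 1, 2, 3, 12, 9, 5]),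
  .x 6 11 (.cyc 6 [2, 0, 3, 1, 5, 9, 11]),
  .x 6 12 (.cyc 6 [2, 0, 3, 1, 5, 9, 12]),
  .x 7 11 (.cyc 7 [4, 0, 2, 1, 5, 9, 11]),
  .x 10 11 (.cyc 10 [3, 0, 2, 1, 5, 9, 11]),
  .x 10 12 (.cyc 10 [3, 0, 2, 1, 5, 9, 12]),
  .new2 7,
  .x 0 13 (.cyc 0 [2, 3, 1, 5, 4, 7, 13]),
  .x 0 14 (.cyc 0 [2, 3, 1, 5, 4, 7, 14]),
  .x 10 13 (.cyc 10 [3, 0, 1, 5, 4, 7, 13]),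
  .x 10 14 (.cyc 10 [3, 0, 1, 5, 4, 7, 14]),
  .x 11 13 (.cyc 11 [9, 5, 1, 0, 4, 7, 13]),
  .x 11 14 (.cyc 11 [9, 5, 1, 0, 4, 7, 14]),
  .x 12 13 (.cyc 12 [9, 5, 1, 0, 4, 7, 13]),
  .x 12 14 (.cyc 12 [9, 5, 1, 0, 4, 7, 14]),
  .new2 6,
  .x 0 15 (.cyc 0 [4, 5, 1, 3, 2, 6, 15]),
  .x 0 16 (.cyc 0 [4, 5, 1, 3, 2, 6, 16]),
  .x 10 15 (.emb 2 [0, 1, 3, 2, 4, 5, 10, 15, 6]),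
  .x 10 16 (.emb 2 [0, 1, 3, 2, 4, 5, 10, 16, 6]),
  .x 11 15 (.cyc 11 [9, 5, 1, 0, 2, 6, 15]),
  .x 11 16 (.cyc 11 [9, 5, 1, 0, 2, 6, 16]),
  .x 12 15 (.cyc 12 [9, 5, 1, 0, 2, 6, 15]),
  .x 12 16 (.cyc 12 [9, 5, 1, 0, 2, 6, 16]),
  .x 13 15 (.cyc 13 [7, 4, 0, 1, 2, 6, 15]),
  .x 13 16 (.cyc 13 [7, 4, 0, 1, 2, 6, 16]),
  .x 14 15 (.cyc 14 [7, 4, 0, 1, 2, 6, 15]),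
  .x 14 16 (.cyc 14 [7, 4, 0, 1, 2, 6, 16])]
 (.ind [0, 10, 11, 12, 13, 14, 15, 16])

def t_7_4_10 : Tm := ⟨5, [(0, 1), (0, 2), (0, 3), (1, 2), (1, 3), (2, 3), (0, 4), (4, 1)]⟩

def f_7_4_10 : Pf :=
 .seq [
  .new 2,
  .x 1 5 (.emb 7 [2, 1, 0, 3, 5, 4]),
  .new 0,
  .x 2 6 (.emb 7 [2, 0, 1, 3, 6, 4]),
  .x 3 6 (.emb 7 [3, 0, 1, 2, 6, 4]),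
  .x 4 6 (.emb 9 [0, 1, 2, 3, 6, 4]),
  .x 5 6 (.emb 5 [2, 0, 1, 3, 5, 6, 4]),
  .new 3,
  .x 0 7 (.emb 7 [3, 0, 1, 2, 7, 4]),
  .x 1 7 (.emb 7 [3, 1, 0, 2, 7, 4]),
  .x 2 7 (.emb 6 [2, 3, 0, 1, 7, 4]),
  .x 4 7 (.emb 9 [3, 0, 1, 2, 7, 4]),
  .x 5 7 (.emb 3 [0, 1, 3, 2, 4, 7, 5]),
  .x 6 7 (.emb 5 [3, 0, 1, 2, 7, 6, 4]),
  .new 4,
  .x 2 8 (.emb 9 [2, 0, 1, 3, 8, 4]),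
  .x 7 8 (.emb 8 [3, 0, 1, 2, 7, 8, 4]),
  .new 1,
  .x 2 9 (.emb 7 [2, 1, 0, 3, 9, 4]),
  .x 3 9 (.emb 7 [3, 1, 0, 2, 9, 4]),
  .x 4 9 (.emb 9 [1, 0, 2, 3, 9, 4]),
  .x 5 9 (.emb 5 [2, 1, 0, 3, 5, 9, 4]),
  .x 6 9 (.emb 9 [1, 0, 2, 3, 9, 6]),
  .x 7 9 (.emb 5 [3, 1, 0, 2, 7, 9, 4]),
  .x 8 9 (.emb 8 [1, 0, 2, 3, 9, 8, 4]),
  .new2 6,
  .x 2 10 (.emb 5 [2, 0, 1, 3, 10, 6, 4]),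
  .x 2 11 (.emb 5 [2, 0, 1, 3, 11, 6, 4]),
  .x 8 10 (.cyc 8 [4, 1, 2, 3, 0, 6, 10]),
  .x 8 11 (.cyc 8 [4, 1, 2, 3, 0, 6, 11]),
  .x 9 10 (.emb 8 [1, 0, 2, 3, 9, 10, 6]),
  .x 9 11 (.emb 8 [1, 0, 2, 3, 9, 11, 6]),
  .new2 7,
  .x 2 12 (.emb 3 [0, 1, 2, 3, 4, 12, 7]),
  .x 2 13 (.emb 3 [0, 1, 2, 3, 4, 13, 7]),
  .x 8 12 (.cyc 8 [4, 0, 1, 2, 3, 7, 12]),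
  .x 8 13 (.cyc 8 [4, 0, 1, 2, 3, 7, 13]),
  .x 9 12 (.cyc 9 [1, 4, 0, 2, 3, 7, 12]),
  .x 10 12 (.cyc 10 [6, 0, 1, 2, 3, 7, 12]),
  .x 10 13 (.cyc 10 [6, 0, 1, 2, 3, 7, 13]),
  .x 11 12 (.cyc 11 [6, 0, 1, 2, 3, 7, 12]),
  .x 11 13 (.cyc 11 [6, 0, 1, 2, 3, 7, 13]),
  .new2 9,
  .x 2 14 (.emb 5 [2, 1, 0, 3, 14, 9, 4]),
  .x 2 15 (.emb 5 [2, 1, 0, 3, 15, 9, 4]),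
  .x 8 14 (.cyc 8 [4, 0, 2, 3, 1, 9, 14]),
  .x 8 15 (.cyc 8 [4, 0, 2, 3, 1, 9, 15]),
  .x 10 14 (.cyc 10 [6, 0, 2, 3, 1, 9, 14]),
  .x 10 15 (.cyc 10 [6, 0, 2, 3, 1, 9, 15]),
  .x 11 14 (.cyc 11 [6, 0, 2, 3, 1, 9, 14]),
  .x 11 15 (.cyc 11 [6, 0, 2, 3, 1, 9, 15]),
  .x 12 14 (.cyc 12 [7, 3, 0, 2, 1, 9, 14]),
  .x 12 15 (.cyc 12 [7, 3, 0, 2, 1, 9, 15]),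
  .x 13 14 (.cyc 13 [7, 3, 0, 2, 1, 9, 14]),
  .x 13 15 (.cyc 13 [7, 3, 0, 2, 1, 9, 15])]
 (.ind [2, 8, 10, 11, 12, 13, 14, 15])

def t_7_4_11 : Tm := ⟨4, [(0, 1), (0, 2), (0, 3), (1, 2), (1, 3), (2, 3)]⟩

def f_7_4_11 : Pf :=
 .seq [
  .new2 1,
  .x 0 4 (.emb 10 [0, 1, 2, 3, 4]),
  .x 0 5 (.emb 10 [0, 1, 2, 3, 5]),
  .x 2 4 (.emb 10 [2, 1, 0, 3, 4]),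
  .x 2 5 (.emb 10 [2, 1, 0, 3, 5]),
  .x 3 4 (.emb 10 [3, 1, 0, 2, 4]),
  .x 3 5 (.emb 10 [3, 1, 0, 2, 5]),
  .new2 0,
  .x 2 6 (.emb 10 [2, 0, 1, 3, 6]),
  .x 2 7 (.emb 10 [2, 0, 1, 3, 7]),
  .x 3 6 (.emb 10 [3, 0, 1, 2, 6]),
  .x 3 7 (.emb 10 [3, 0, 1, 2, 7]),
  .x 4 6 (.emb 9 [0, 1, 2, 3, 6, 4]),
  .x 4 7 (.emb 9 [0, 1, 2, 3, 7, 4]),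
  .x 5 6 (.emb 9 [0, 1, 2, 3, 6, 5]),
  .x 5 7 (.emb 9 [0, 1, 2, 3, 7, 5]),
  .new2 2,
  .x 3 8 (.emb 10 [3, 2, 0, 1, 8]),
  .x 3 9 (.emb 10 [3, 2, 0, 1, 9]),
  .x 4 8 (.emb 9 [2, 1, 0, 3, 8, 4]),
  .x 4 9 (.emb 9 [2, 1, 0, 3, 9, 4]),
  .x 5 8 (.emb 9 [2, 1, 0, 3, 8, 5]),
  .x 5 9 (.emb 9 [2, 1, 0, 3, 9, 5]),
  .x 6 8 (.emb 9 [2, 0, 1, 3, 8, 6]),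
  .x 6 9 (.emb 9 [2, 0, 1, 3, 9, 6]),
  .x 7 8 (.emb 9 [2, 0, 1, 3, 8, 7]),
  .x 7 9 (.emb 9 [2, 0, 1, 3, 9, 7]),
  .new2 3,
  .x 4 10 (.emb 9 [3, 1, 0, 2, 10, 4]),
  .x 4 11 (.emb 9 [3, 1, 0, 2, 11, 4]),
  .x 5 10 (.emb 9 [3, 1, 0, 2, 10, 5]),
  .x 5 11 (.emb 9 [3, 1, 0, 2, 11, 5]),
  .x 6 10 (.emb 9 [3, 0, 1, 2, 10, 6]),
  .x 6 11 (.emb 9 [3, 0, 1, 2, 11, 6]),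
  .x 7 10 (.emb 9 [3, 0, 1, 2, 10, 7]),
  .x 7 11 (.emb 9 [3, 0, 1, 2, 11, 7]),
  .x 8 10 (.emb 9 [3, 2, 0, 1, 10, 8]),
  .x 8 11 (.emb 9 [3, 2, 0, 1, 11, 8]),
  .x 9 10 (.emb 9 [3, 2, 0, 1, 10, 9]),
  .x 9 11 (.emb 9 [3, 2, 0, 1, 11, 9])]
 (.ind [4, 5, 6, 7, 8, 9, 10, 11])

def d_7_4 : List (Tm × Pf) := [(t_7_4_0, f_7_4_0), (t_7_4_1, f_7_4_1), (t_7_4_2, f_7_4_2), (t_7_4_3, f_7_4_3), (t_7_4_4, f_7_4_4), (t_7_4_5, f_7_4_5), (t_7_4_6, f_7_4_6), (t_7_4_7, f_7_4_7), (t_7_4_8, f_7_4_8), (t_7_4_9, f_7_4_9), (t_7_4_10, f_7_4_10), (t_7_4_11, f_7_4_11)]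

theorem k_7_4 : killFull 7 4 d_7_4 = true := by decide +kernel

end Vale.Agent.P048
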