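import Vale.Agent.P048.Engine

namespace Vale.Agent.P048

def t_8_5_0 : Tm := ⟨11, [(0, 1), (0, 2), (0, 3), (0, 4), (1, 2), (1, 3), (1, 4), (2, 3), (2, 4), (3, 4), (0, 5), (5, 6), (6, 7), (7, 1), (2, 8), (8, 9), (9, 10), (10, 3)]⟩

def f_8_5_0 : Pf :=
 .seq [
  .x 0 7 (.cyc 0 [2, 8, 9, 10, 3, 4, 1, 7]),
  .x 0 8 (.cyc 0 [5, 6, 7, 1, 3, 4, 2, 8]),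
  .x 0 9 (.cyc 0 [5, 6, 7, 1, 2, 3, 10, 9]),
  .x 0 10 (.cyc 0 [5, 6, 7, 1, 2, 4, 3, 10]),
  .x 1 8 (.cyc 1 [7, 6, 5, 0, 3, 4, 2, 8]),
  .x 1 9 (.cyc 1 [7, 6, 5, 0, 2, 3, 10, 9]),
  .x 2 5 (.cyc 2 [8, 9, 10, 3, 1, 4, 0, 5]),
  .x 2 6 (.cyc 2 [8, 9, 10, 3, 0, 1, 7, 6]),
  .x 2 7 (.cyc 2 [8, 9, 10, 3, 0, 4, 1, 7]),
  .x 2 9 (.cyc 2 [0, 5, 6, 7, 1, 3, 10, 9]),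
  .x 2 10 (.cyc 2 [0, 5, 6, 7, 1, 4, 3, 10]),
  .x 3 5 (.cyc 3 [10, 9, 8, 2, 1, 4, 0, 5]),
  .x 3 6 (.cyc 3 [10, 9, 8, 2, 0, 1, 7, 6]),
  .x 3 7 (.cyc 3 [10, 9, 8, 2, 0, 4, 1, 7]),
  .x 3 8 (.cyc 3 [0, 5, 6, 7, 1, 4, 2, 8]),
  .x 3 9 (.cyc 3 [0, 5, 6, 7, 1, 2, 8, 9]),
  .x 4 5 (.cyc 4 [1, 2, 8, 9, 10, 3, 0, 5]),
  .x 4 6 (.cyc 4 [2, 8, 9, 10, 3, 0, 5, 6]),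
  .x 4 7 (.cyc 4 [0, 2, 8, 9, 10, 3, 1, 7]),
  .x 4 8 (.cyc 4 [0, 5, 6, 7, 1, 3, 2, 8]),
  .x 4 9 (.cyc 4 [0, 5, 6, 7, 1, 2, 8, 9]),
  .x 4 10 (.cyc 4 [0, 5, 6, 7, 1, 2, 3, 10]),
  .x 5 8 (.cyc 5 [0, 1, 2, 4, 3, 10, 9, 8]),
  .x 5 9 (.cyc 5 [6, 7, 1, 0, 2, 3, 10, 9]),
  .x 6 9 (.cyc 6 [5, 0, 1, 2, 4, 3, 10, 9]),
  .x 7 8 (.cyc 7 [1, 0, 2, 4, 3, 10, 9, 8]),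
  .x 7 9 (.cyc 7 [6, 5, 0, 1, 2, 3, 10, 9]),
  .x 7 10 (.cyc 7 [1, 0, 3, 4, 2, 8, 9, 10]),
  .x 8 10 (.cyc 8 [2, 0, 5, 6, 7, 1, 3, 10]),
  .new2 8,
  .x 2 11 (.cyc 2 [0, 1, 4, 3, 10, 9, 8, 11]),
  .x 2 12 (.cyc 2 [0, 1, 4, 3, 10, 9, 8, 12]),
  .x 3 11 (.cyc 3 [0, 5, 6, 7, 1, 2, 8, 11]),
  .x 3 12 (.cyc 3 [0, 5, 6, 7, 1, 2, 8, 12]),
  .x 4 11 (.cyc 4 [0, 1, 2, 3, 10, 9, 8, 11]),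
  .x 9 11 (.cyc 9 [10, 3, 0, 1, 4, 2, 8, 11]),
  .new2 9,
  .x 0 13 (.cyc 0 [5, 6, 7, 1, 2, 8, 9, 13]),
  .x 0 14 (.cyc 0 [5, 6, 7, 1, 2, 8, 9, 14]),
  .x 7 13 (.cyc 7 [1, 0, 2, 4, 3, 10, 9, 13]),
  .x 7 14 (.cyc 7 [1, 0, 2, 4, 3, 10, 9, 14]),
  .x 8 13 (.cyc 8 [2, 0, 1, 4, 3, 10, 9, 13]),
  .x 8 14 (.cyc 8 [2, 0, 1, 4, 3, 10, 9, 14]),
  .x 10 13 (.cyc 10 [3, 0, 1, 4, 2, 8, 9, 13]),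
  .x 10 14 (.cyc 10 [3, 0, 1, 4, 2, 8, 9, 14]),
  .new 4,
  .x 0 15 (.cyc 0 [1, 2, 8, 9, 10, 3, 4, 15]),
  .x 2 15 (.cyc 2 [0, 5, 6, 7, 1, 3, 4, 15]),
  .x 3 15 (.cyc 3 [0, 5, 6, 7, 1, 2, 4, 15]),
  .x 7 15 (.cyc 7 [1, 2, 8, 9, 10, 3, 4, 15]),
  .x 8 15 (.cyc 8 [2, 0, 5, 6, 7, 1, 4, 15]),
  .x 10 15 (.cyc 10 [3, 0, 5, 6, 7, 1, 4, 15]),
  .x 13 15 (.cyc 13 [9, 8, 2, 0, 1, 3, 4, 15]),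
  .x 14 15 (.cyc 14 [9, 8, 2, 0, 1, 3, 4, 15]),
  .new 3,
  .x 0 16 (.cyc 0 [1, 4, 2, 8, 9, 10, 3, 16]),
  .x 2 16 (.cyc 2 [0, 5, 6, 7, 1, 4, 3, 16]),
  .x 7 16 (.cyc 7 [1, 0, 2, 8, 9, 10, 3, 16]),
  .x 8 16 (.cyc 8 [2, 0, 5, 6, 7, 1, 3, 16]),
  .x 10 16 (.cyc 10 [9, 8, 2, 0, 1, 4, 3, 16]),
  .x 13 16 (.cyc 13 [9, 8, 2, 0, 1, 4, 3, 16]),
  .x 14 16 (.cyc 14 [9, 8, 2, 0, 1, 4, 3, 16]),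
  .x 15 16 (.cyc 15 [4, 0, 2, 8, 9, 10, 3, 16]),
  .new 2,
  .x 0 17 (.cyc 0 [1, 4, 3, 10, 9, 8, 2, 17]),
  .x 7 17 (.cyc 7 [1, 0, 3, 10, 9, 8, 2, 17]),
  .x 8 17 (.cyc 8 [9, 10, 3, 0, 1, 4, 2, 17]),
  .x 10 17 (.cyc 10 [3, 0, 5, 6, 7, 1, 2, 17]),
  .x 13 17 (.cyc 13 [9, 10, 3, 0, 1, 4, 2, 17]),
  .x 14 17 (.cyc 14 [9, 10, 3, 0, 1, 4, 2, 17]),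
  .x 15 17 (.cyc 15 [4, 0, 3, 10, 9, 8, 2, 17]),
  .x 16 17 (.cyc 16 [3, 0, 5, 6, 7, 1, 2, 17])]
 (.ind [0, 7, 8, 10, 13, 14, 15, 16, 17])

def d_8_5 : List (Tm × Pf) := [(t_8_5_0, f_8_5_0)]

theorem k_8_5 : killAll 8 5 d_8_5 [] = true := by decide +kernel

def t_9_5_0 : Tm := ⟨13, [(0, 1), (0, 2), (0, 3), (0, 4), (1, 2), (1, 3), (1, 4), (2, 3), (2, 4), (3, 4), (0, 5), (5, 6), (6, 7), (7, 8), (8, 1), (2, 9), (9, 10), (10, 11), (11, 12), (12, 3)]⟩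

def f_9_5_0 : Pf :=
 .seq [
  .x 0 7 (.cyc 0 [2, 9, 10, 11, 12, 3, 1, 8, 7]),
  .x 0 8 (.cyc 0 [2, 9, 10, 11, 12, 3, 4, 1, 8]),
  .x 0 9 (.cyc 0 [5, 6, 7, 8, 1, 3, 4, 2, 9]),
  .x 0 10 (.cyc 0 [5, 6, 7, 8, 1, 3, 2, 9, 10]),
  .x 0 11 (.cyc 0 [5, 6, 7, 8, 1, 2, 3, 12, 11]),
  .x 0 12 (.cyc 0 [5, 6, 7, 8, 1, 2, 4, 3, 12]),
  .x 1 5 (.cyc 1 [2, 9, 10, 11, 12, 3, 4, 0, 5]),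
  .x 1 6 (.cyc 1 [2, 9, 10, 11, 12, 3, 0, 5, 6]),
  .x 1 9 (.cyc 1 [8, 7, 6, 5, 0, 3, 4, 2, 9]),
  .x 1 10 (.cyc 1 [8, 7, 6, 5, 0, 3, 2, 9, 10]),
  .x 1 11 (.cyc 1 [8, 7, 6, 5, 0, 2, 3, 12, 11]),
  .x 1 12 (.cyc 1 [8, 7, 6, 5, 0, 2, 4, 3, 12]),
  .x 2 5 (.cyc 2 [9, 10, 11, 12, 3, 1, 4, 0, 5]),
  .x 2 6 (.cyc 2 [9, 10, 11, 12, 3, 1, 0, 5, 6]),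
  .x 2 7 (.cyc 2 [9, 10, 11, 12, 3, 0, 1, 8, 7]),
  .x 2 8 (.cyc 2 [9, 10, 11, 12, 3, 0, 4, 1, 8]),
  .x 2 11 (.cyc 2 [0, 5, 6, 7, 8, 1, 3, 12, 11]),
  .x 2 12 (.cyc 2 [0, 5, 6, 7, 8, 1, 4, 3, 12]),
  .x 3 5 (.cyc 3 [12, 11, 10, 9, 2, 1, 4, 0, 5]),
  .x 3 6 (.cyc 3 [12, 11, 10, 9, 2, 1, 0, 5, 6]),
  .x 3 7 (.cyc 3 [12, 11, 10, 9, 2, 0, 1, 8, 7]),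
  .x 3 8 (.cyc 3 [12, 11, 10, 9, 2, 0, 4, 1, 8]),
  .x 3 9 (.cyc 3 [0, 5, 6, 7, 8, 1, 4, 2, 9]),
  .x 3 10 (.cyc 3 [0, 5, 6, 7, 8, 1, 2, 9, 10]),
  .x 4 5 (.cyc 4 [1, 2, 9, 10, 11, 12, 3, 0, 5]),
  .x 4 6 (.cyc 4 [2, 9, 10, 11, 12, 3, 0, 5, 6]),
  .x 4 7 (.cyc 4 [2, 9, 10, 11, 12, 3, 1, 8, 7]),
  .x 4 8 (.cyc 4 [0, 2, 9, 10, 11, 12, 3, 1, 8]),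
  .x 4 9 (.cyc 4 [0, 5, 6, 7, 8, 1, 3, 2, 9]),
  .x 4 10 (.cyc 4 [0, 5, 6, 7, 8, 1, 2, 9, 10]),
  .x 4 11 (.cyc 4 [0, 5, 6, 7, 8, 1, 3, 12, 11]),
  .x 4 12 (.cyc 4 [0, 5, 6, 7, 8, 1, 2, 3, 12]),
  .x 5 8 (.cyc 5 [0, 2, 9, 10, 11, 12, 3, 1, 8]),
  .x 5 9 (.cyc 5 [0, 1, 2, 4, 3, 12, 11, 10, 9]),
  .x 5 10 (.cyc 5 [6, 7, 8, 1, 0, 3, 2, 9, 10]),
  .x 5 11 (.cyc 5 [6, 7, 8, 1, 0, 2, 3, 12, 11]),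
  .x 5 12 (.cyc 5 [0, 1, 3, 4, 2, 9, 10, 11, 12]),
  .x 6 11 (.cyc 6 [5, 0, 1, 3, 4, 2, 9, 10, 11]),
  .x 6 12 (.cyc 6 [5, 0, 1, 3, 2, 9, 10, 11, 12]),
  .x 7 11 (.cyc 7 [6, 5, 0, 1, 2, 4, 3, 12, 11]),
  .x 7 12 (.cyc 7 [6, 5, 0, 1, 2, 9, 10, 11, 12]),
  .x 8 11 (.cyc 8 [7, 6, 5, 0, 1, 2, 3, 12, 11]),
  .x 8 12 (.cyc 8 [1, 0, 3, 4, 2, 9, 10, 11, 12]),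
  .x 9 12 (.cyc 9 [2, 0, 5, 6, 7, 8, 1, 3, 12]),
  .new2 11,
  .x 0 13 (.cyc 0 [5, 6, 7, 8, 1, 3, 12, 11, 13]),
  .x 0 14 (.cyc 0 [5, 6, 7, 8, 1, 3, 12, 11, 14]),
  .x 1 13 (.cyc 1 [8, 7, 6, 5, 0, 3, 12, 11, 13]),
  .x 1 14 (.cyc 1 [8, 7, 6, 5, 0, 3, 12, 11, 14]),
  .x 5 13 (.cyc 5 [0, 1, 3, 4, 2, 9, 10, 11, 13]),
  .x 5 14 (.cyc 5 [0, 1, 3, 4, 2, 9, 10, 11, 14]),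
  .x 12 13 (.cyc 12 [3, 0, 1, 4, 2, 9, 10, 11, 13]),
  .x 12 14 (.cyc 12 [3, 0, 1, 4, 2, 9, 10, 11, 14]),
  .new 9,
  .x 0 15 (.cyc 0 [1, 2, 4, 3, 12, 11, 10, 9, 15]),
  .x 2 15 (.cyc 2 [0, 1, 4, 3, 12, 11, 10, 9, 15]),
  .x 3 15 (.cyc 3 [0, 5, 6, 7, 8, 1, 2, 9, 15]),
  .x 5 15 (.cyc 5 [0, 1, 2, 3, 12, 11, 10, 9, 15]),
  .new 4,
  .x 0 16 (.cyc 0 [1, 2, 9, 10, 11, 12, 3, 4, 16]),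
  .x 1 16 (.cyc 1 [0, 2, 9, 10, 11, 12, 3, 4, 16]),
  .x 2 16 (.cyc 2 [0, 5, 6, 7, 8, 1, 3, 4, 16]),
  .x 3 16 (.cyc 3 [0, 5, 6, 7, 8, 1, 2, 4, 16]),
  .x 5 16 (.cyc 5 [0, 2, 9, 10, 11, 12, 3, 4, 16]),
  .x 12 16 (.cyc 12 [3, 0, 5, 6, 7, 8, 1, 4, 16]),
  .x 13 16 (.cyc 13 [11, 10, 9, 2, 0, 1, 3, 4, 16]),
  .x 14 16 (.cyc 14 [11, 10, 9, 2, 0, 1, 3, 4, 16]),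
  .new 3,
  .x 0 17 (.cyc 0 [1, 4, 2, 9, 10, 11, 12, 3, 17]),
  .x 1 17 (.cyc 1 [0, 4, 2, 9, 10, 11, 12, 3, 17]),
  .x 2 17 (.cyc 2 [0, 5, 6, 7, 8, 1, 4, 3, 17]),
  .x 5 17 (.cyc 5 [0, 1, 2, 9, 10, 11, 12, 3, 17]),
  .x 12 17 (.cyc 12 [11, 10, 9, 2, 0, 1, 4, 3, 17]),
  .x 13 17 (.cyc 13 [11, 10, 9, 2, 0, 1, 4, 3, 17]),
  .x 14 17 (.cyc 14 [11, 10, 9, 2, 0, 1, 4, 3, 17]),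
  .x 16 17 (.cyc 16 [4, 0, 2, 9, 10, 11, 12, 3, 17]),
  .new 2,
  .x 0 18 (.cyc 0 [1, 4, 3, 12, 11, 10, 9, 2, 18]),
  .x 5 18 (.cyc 5 [0, 1, 3, 12, 11, 10, 9, 2, 18]),
  .x 12 18 (.cyc 12 [3, 0, 5, 6, 7, 8, 1, 2, 18]),
  .new 1,
  .x 0 19 (.cyc 0 [2, 9, 10, 11, 12, 3, 4, 1, 19]),
  .x 5 19 (.cyc 5 [0, 2, 9, 10, 11, 12, 3, 1, 19]),
  .x 12 19 (.cyc 12 [3, 2, 0, 5, 6, 7, 8, 1, 19]),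
  .new2 12,
  .x 0 20 (.cyc 0 [1, 3, 4, 2, 9, 10, 11, 12, 20]),
  .x 0 21 (.cyc 0 [1, 3, 4, 2, 9, 10, 11, 12, 21]),
  .x 1 20 (.cyc 1 [0, 3, 4, 2, 9, 10, 11, 12, 20]),
  .x 1 21 (.cyc 1 [0, 3, 4, 2, 9, 10, 11, 12, 21]),
  .x 5 20 (.cyc 5 [0, 1, 3, 2, 9, 10, 11, 12, 20]),
  .x 13 20 (.cyc 13 [11, 10, 9, 2, 0, 1, 3, 12, 20]),
  .x 13 21 (.cyc 13 [11, 10, 9, 2, 0, 1, 3, 12, 21]),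
  .x 14 20 (.cyc 14 [11, 10, 9, 2, 0, 1, 3, 12, 20]),
  .x 14 21 (.cyc 14 [11, 10, 9, 2, 0, 1, 3, 12, 21]),
  .x 16 20 (.cyc 16 [4, 0, 1, 2, 9, 10, 11, 12, 20]),
  .x 16 21 (.cyc 16 [4, 0, 1, 2, 9, 10, 11, 12, 21]),
  .x 17 20 (.cyc 17 [3, 0, 1, 2, 9, 10, 11, 12, 20]),
  .x 17 21 (.cyc 17 [3, 0, 1, 2, 9, 10, 11, 12, 21]),
  .new2 5,
  .x 1 22 (.cyc 1 [2, 9, 10, 11, 12, 3, 0, 5, 22]),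
  .x 1 23 (.cyc 1 [2, 9, 10, 11, 12, 3, 0, 5, 23]),
  .x 13 22 (.cyc 13 [11, 10, 9, 2, 1, 3, 0, 5, 22]),
  .x 13 23 (.cyc 13 [11, 10, 9, 2, 1, 3, 0, 5, 23]),
  .x 14 22 (.cyc 14 [11, 10, 9, 2, 1, 3, 0, 5, 22]),
  .x 14 23 (.cyc 14 [11, 10, 9, 2, 1, 3, 0, 5, 23]),
  .x 16 22 (.cyc 16 [4, 0, 2, 1, 8, 7, 6, 5, 22]),
  .x 16 23 (.cyc 16 [4, 0, 2, 1, 8, 7, 6, 5, 23]),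
  .x 17 22 (.cyc 17 [3, 0, 2, 1, 8, 7, 6, 5, 22]),
  .x 17 23 (.cyc 17 [3, 0, 2, 1, 8, 7, 6, 5, 23]),
  .x 20 22 (.cyc 20 [12, 3, 0, 1, 8, 7, 6, 5, 22]),
  .x 20 23 (.cyc 20 [12, 3, 0, 1, 8, 7, 6, 5, 23]),
  .x 21 22 (.cyc 21 [12, 3, 0, 1, 8, 7, 6, 5, 22]),
  .x 21 23 (.cyc 21 [12, 3, 0, 1, 8, 7, 6, 5, 23]),
  .new 0,
  .x 1 24 (.cyc 1 [2, 9, 10, 11, 12, 3, 4, 0, 24]),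
  .x 13 24 (.cyc 13 [11, 10, 9, 2, 1, 3, 4, 0, 24]),
  .x 14 24 (.cyc 14 [11, 10, 9, 2, 1, 3, 4, 0, 24]),
  .x 16 24 (.cyc 16 [4, 2, 1, 8, 7, 6, 5, 0, 24]),
  .x 17 24 (.cyc 17 [3, 2, 1, 8, 7, 6, 5, 0, 24]),
  .x 20 24 (.cyc 20 [12, 3, 1, 8, 7, 6, 5, 0, 24]),
  .x 21 24 (.cyc 21 [12, 3, 1, 8, 7, 6, 5, 0, 24]),
  .x 22 24 (.cyc 22 [5, 6, 7, 8, 1, 2, 3, 0, 24]),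
  .x 23 24 (.cyc 23 [5, 6, 7, 8, 1, 2, 3, 0, 24])]
 (.ind [1, 13, 14, 16, 17, 20, 21, 22, 23, 24])

def t_9_5_1 : Tm := ⟨13, [(0, 1), (0, 2), (0, 3), (0, 4), (1, 2), (1, 3), (1, 4), (2, 3), (2, 4), (3, 4), (0, 5), (5, 6), (6, 7), (7, 8), (8, 1), (1, 9), (9, 10), (10, 11), (11, 12), (12, 2)]⟩

def f_9_5_1 : Pf :=
 .seq [
  .x 0 7 (.cyc 0 [3, 2, 12, 11, 10, 9, 1, 8, 7]),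
  .x 0 8 (.cyc 0 [3, 4, 2, 12, 11, 10, 9, 1, 8]),
  .x 0 10 (.cyc 0 [5, 6, 7, 8, 1, 2, 12, 11, 10]),
  .x 0 12 (.cyc 0 [5, 6, 7, 8, 1, 3, 4, 2, 12]),
  .x 2 5 (.cyc 2 [12, 11, 10, 9, 1, 3, 4, 0, 5]),
  .x 2 6 (.cyc 2 [12, 11, 10, 9, 1, 3, 0, 5, 6]),
  .x 2 7 (.cyc 2 [12, 11, 10, 9, 1, 0, 5, 6, 7]),
  .x 2 9 (.cyc 2 [3, 4, 0, 5, 6, 7, 8, 1, 9]),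
  .x 2 10 (.cyc 2 [3, 0, 5, 6, 7, 8, 1, 9, 10]),
  .x 2 11 (.cyc 2 [0, 5, 6, 7, 8, 1, 9, 10, 11]),
  .x 3 8 (.cyc 3 [0, 4, 2, 12, 11, 10, 9, 1, 8]),
  .x 3 9 (.cyc 3 [2, 4, 0, 5, 6, 7, 8, 1, 9]),
  .x 4 5 (.cyc 4 [1, 9, 10, 11, 12, 2, 3, 0, 5]),
  .x 4 6 (.cyc 4 [1, 9, 10, 11, 12, 2, 0, 5, 6]),
  .x 4 7 (.cyc 4 [0, 2, 12, 11, 10, 9, 1, 8, 7]),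
  .x 4 8 (.cyc 4 [0, 3, 2, 12, 11, 10, 9, 1, 8]),
  .x 4 9 (.cyc 4 [2, 3, 0, 5, 6, 7, 8, 1, 9]),
  .x 4 10 (.cyc 4 [2, 0, 5, 6, 7, 8, 1, 9, 10]),
  .x 4 11 (.cyc 4 [0, 5, 6, 7, 8, 1, 2, 12, 11]),
  .x 4 12 (.cyc 4 [0, 5, 6, 7, 8, 1, 3, 2, 12]),
  .x 5 8 (.cyc 5 [0, 3, 2, 12, 11, 10, 9, 1, 8]),
  .x 5 9 (.cyc 5 [0, 1, 3, 4, 2, 12, 11, 10, 9]),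
  .x 6 8 (.cyc 6 [5, 0, 2, 12, 11, 10, 9, 1, 8]),
  .x 6 9 (.cyc 6 [5, 0, 1, 3, 2, 12, 11, 10, 9]),
  .x 7 9 (.cyc 7 [6, 5, 0, 1, 2, 12, 11, 10, 9]),
  .x 7 10 (.cyc 7 [6, 5, 0, 1, 3, 2, 12, 11, 10]),
  .x 7 12 (.cyc 7 [6, 5, 0, 2, 1, 9, 10, 11, 12]),
  .x 8 9 (.cyc 8 [1, 0, 3, 4, 2, 12, 11, 10, 9]),
  .x 8 10 (.cyc 8 [7, 6, 5, 0, 1, 2, 12, 11, 10]),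
  .x 8 11 (.cyc 8 [7, 6, 5, 0, 1, 3, 2, 12, 11]),
  .x 8 12 (.cyc 8 [7, 6, 5, 0, 1, 3, 4, 2, 12]),
  .x 9 11 (.cyc 9 [1, 8, 7, 6, 5, 0, 2, 12, 11]),
  .x 9 12 (.cyc 9 [1, 8, 7, 6, 5, 0, 3, 2, 12]),
  .x 10 12 (.cyc 10 [9, 1, 8, 7, 6, 5, 0, 2, 12]),
  .new 0,
  .x 2 13 (.cyc 2 [3, 4, 1, 8, 7, 6, 5, 0, 13]),
  .x 4 13 (.cyc 4 [1, 9, 10, 11, 12, 2, 3, 0, 13]),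
  .x 8 13 (.cyc 8 [1, 9, 10, 11, 12, 2, 3, 0, 13]),
  .new2 9,
  .x 0 14 (.cyc 0 [1, 3, 4, 2, 12, 11, 10, 9, 14]),
  .x 0 15 (.cyc 0 [1, 3, 4, 2, 12, 11, 10, 9, 15]),
  .x 2 14 (.cyc 2 [3, 0, 5, 6, 7, 8, 1, 9, 14]),
  .x 2 15 (.cyc 2 [3, 0, 5, 6, 7, 8, 1, 9, 15]),
  .x 4 14 (.cyc 4 [0, 1, 3, 2, 12, 11, 10, 9, 14]),
  .x 4 15 (.cyc 4 [0, 1, 3, 2, 12, 11, 10, 9, 15]),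
  .x 7 14 (.cyc 7 [6, 5, 0, 2, 3, 4, 1, 9, 14]),
  .x 7 15 (.cyc 7 [6, 5, 0, 2, 3, 4, 1, 9, 15]),
  .x 8 14 (.cyc 8 [1, 0, 3, 2, 12, 11, 10, 9, 14]),
  .x 10 14 (.cyc 10 [11, 12, 2, 0, 3, 4, 1, 9, 14]),
  .x 10 15 (.cyc 10 [11, 12, 2, 0, 3, 4, 1, 9, 15]),
  .x 12 14 (.cyc 12 [2, 0, 5, 6, 7, 8, 1, 9, 14]),
  .x 12 15 (.cyc 12 [2, 0, 5, 6, 7, 8, 1, 9, 15]),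
  .new2 8,
  .x 0 16 (.cyc 0 [3, 2, 12, 11, 10, 9, 1, 8, 16]),
  .x 0 17 (.cyc 0 [3, 2, 12, 11, 10, 9, 1, 8, 17]),
  .x 4 16 (.cyc 4 [0, 2, 12, 11, 10, 9, 1, 8, 16]),
  .x 4 17 (.cyc 4 [0, 2, 12, 11, 10, 9, 1, 8, 17]),
  .x 7 16 (.cyc 7 [6, 5, 0, 2, 3, 4, 1, 8, 16]),
  .x 7 17 (.cyc 7 [6, 5, 0, 2, 3, 4, 1, 8, 17]),
  .x 10 16 (.cyc 10 [9, 1, 2, 0, 5, 6, 7, 8, 16]),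
  .x 10 17 (.cyc 10 [9, 1, 2, 0, 5, 6, 7, 8, 17]),
  .x 12 16 (.cyc 12 [2, 1, 3, 0, 5, 6, 7, 8, 16]),
  .x 12 17 (.cyc 12 [2, 1, 3, 0, 5, 6, 7, 8, 17]),
  .x 14 16 (.cyc 14 [9, 1, 2, 0, 5, 6, 7, 8, 16]),
  .x 14 17 (.cyc 14 [9, 1, 2, 0, 5, 6, 7, 8, 17]),
  .x 15 16 (.cyc 15 [9, 1, 2, 0, 5, 6, 7, 8, 16]),
  .x 15 17 (.cyc 15 [9, 1, 2, 0, 5, 6, 7, 8, 17]),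
  .new 2,
  .x 4 18 (.cyc 4 [0, 3, 1, 9, 10, 11, 12, 2, 18]),
  .new2 4,
  .x 0 19 (.cyc 0 [1, 9, 10, 11, 12, 2, 3, 4, 19]),
  .x 0 20 (.cyc 0 [1, 9, 10, 11, 12, 2, 3, 4, 20]),
  .x 7 19 (.cyc 7 [8, 1, 9, 10, 11, 12, 2, 4, 19]),
  .x 7 20 (.cyc 7 [8, 1, 9, 10, 11, 12, 2, 4, 20]),
  .x 10 19 (.cyc 10 [9, 1, 8, 7, 6, 5, 0, 4, 19]),
  .x 10 20 (.cyc 10 [9, 1, 8, 7, 6, 5, 0, 4, 20]),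
  .x 12 19 (.cyc 12 [2, 0, 5, 6, 7, 8, 1, 4, 19]),
  .x 12 20 (.cyc 12 [2, 0, 5, 6, 7, 8, 1, 4, 20]),
  .x 14 19 (.cyc 14 [9, 1, 8, 7, 6, 5, 0, 4, 19]),
  .x 14 20 (.cyc 14 [9, 1, 8, 7, 6, 5, 0, 4, 20]),
  .x 15 19 (.cyc 15 [9, 1, 8, 7, 6, 5, 0, 4, 19]),
  .x 15 20 (.cyc 15 [9, 1, 8, 7, 6, 5, 0, 4, 20]),
  .x 16 19 (.cyc 16 [8, 1, 9, 10, 11, 12, 2, 4, 19]),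
  .x 16 20 (.cyc 16 [8, 1, 9, 10, 11, 12, 2, 4, 20]),
  .x 17 19 (.cyc 17 [8, 1, 9, 10, 11, 12, 2, 4, 19]),
  .x 17 20 (.cyc 17 [8, 1, 9, 10, 11, 12, 2, 4, 20])]
 (.ind [0, 7, 10, 12, 14, 15, 16, 17, 19, 20])

def t_9_5_2 : Tm := ⟨12, [(0, 1), (0, 2), (0, 3), (0, 4), (1, 2), (1, 3), (1, 4), (2, 3), (2, 4), (3, 4), (0, 5), (5, 6), (6, 7), (7, 1), (2, 8), (8, 9), (9, 10), (10, 11), (11, 3)]⟩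

def f_9_5_2 : Pf :=
 .seq [
  .x 0 6 (.cyc 0 [2, 8, 9, 10, 11, 3, 1, 7, 6]),
  .x 0 8 (.cyc 0 [5, 6, 7, 1, 3, 11, 10, 9, 8]),
  .x 0 9 (.cyc 0 [5, 6, 7, 1, 2, 3, 11, 10, 9]),
  .x 0 10 (.cyc 0 [5, 6, 7, 1, 2, 4, 3, 11, 10]),
  .x 0 11 (.cyc 0 [5, 6, 7, 1, 2, 8, 9, 10, 11]),
  .x 1 5 (.cyc 1 [2, 8, 9, 10, 11, 3, 4, 0, 5]),
  .x 1 6 (.cyc 1 [2, 8, 9, 10, 11, 3, 0, 5, 6]),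
  .x 1 8 (.cyc 1 [7, 6, 5, 0, 3, 11, 10, 9, 8]),
  .x 1 9 (.cyc 1 [7, 6, 5, 0, 2, 3, 11, 10, 9]),
  .x 1 10 (.cyc 1 [7, 6, 5, 0, 2, 4, 3, 11, 10]),
  .x 1 11 (.cyc 1 [7, 6, 5, 0, 2, 8, 9, 10, 11]),
  .x 2 5 (.cyc 2 [8, 9, 10, 11, 3, 1, 4, 0, 5]),
  .x 2 6 (.cyc 2 [8, 9, 10, 11, 3, 0, 1, 7, 6]),
  .x 2 7 (.cyc 2 [8, 9, 10, 11, 3, 0, 4, 1, 7]),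
  .x 2 9 (.cyc 2 [0, 5, 6, 7, 1, 3, 11, 10, 9]),
  .x 2 10 (.cyc 2 [0, 5, 6, 7, 1, 4, 3, 11, 10]),
  .x 3 5 (.cyc 3 [11, 10, 9, 8, 2, 1, 4, 0, 5]),
  .x 3 6 (.cyc 3 [11, 10, 9, 8, 2, 0, 1, 7, 6]),
  .x 3 10 (.cyc 3 [0, 5, 6, 7, 1, 2, 8, 9, 10]),
  .x 4 5 (.cyc 4 [1, 2, 8, 9, 10, 11, 3, 0, 5]),
  .x 4 6 (.cyc 4 [2, 8, 9, 10, 11, 3, 0, 5, 6]),
  .x 4 7 (.cyc 4 [0, 2, 8, 9, 10, 11, 3, 1, 7]),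
  .x 4 10 (.cyc 4 [0, 5, 6, 7, 1, 2, 3, 11, 10]),
  .x 5 7 (.cyc 5 [0, 2, 8, 9, 10, 11, 3, 1, 7]),
  .x 5 8 (.cyc 5 [0, 1, 2, 4, 3, 11, 10, 9, 8]),
  .x 5 9 (.cyc 5 [6, 7, 1, 0, 2, 3, 11, 10, 9]),
  .x 5 10 (.cyc 5 [6, 7, 1, 0, 2, 4, 3, 11, 10]),
  .x 5 11 (.cyc 5 [0, 1, 3, 4, 2, 8, 9, 10, 11]),
  .x 6 8 (.cyc 6 [5, 0, 1, 2, 3, 11, 10, 9, 8]),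
  .x 6 9 (.cyc 6 [5, 0, 1, 2, 4, 3, 11, 10, 9]),
  .x 6 10 (.cyc 6 [5, 0, 1, 3, 4, 2, 8, 9, 10]),
  .x 6 11 (.cyc 6 [5, 0, 1, 3, 2, 8, 9, 10, 11]),
  .x 7 8 (.cyc 7 [1, 0, 2, 4, 3, 11, 10, 9, 8]),
  .x 7 10 (.cyc 7 [6, 5, 0, 1, 2, 4, 3, 11, 10]),
  .x 8 10 (.cyc 8 [2, 0, 5, 6, 7, 1, 3, 11, 10]),
  .x 8 11 (.cyc 8 [2, 0, 5, 6, 7, 1, 4, 3, 11]),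
  .x 9 11 (.cyc 9 [8, 2, 0, 5, 6, 7, 1, 3, 11]),
  .new 3,
  .x 0 12 (.cyc 0 [1, 4, 2, 8, 9, 10, 11, 3, 12]),
  .x 1 12 (.cyc 1 [0, 4, 2, 8, 9, 10, 11, 3, 12]),
  .x 6 12 (.cyc 6 [5, 0, 2, 8, 9, 10, 11, 3, 12]),
  .x 8 12 (.cyc 8 [2, 0, 5, 6, 7, 1, 4, 3, 12]),
  .x 9 12 (.cyc 9 [8, 2, 0, 5, 6, 7, 1, 3, 12]),
  .x 11 12 (.cyc 11 [10, 9, 8, 2, 0, 1, 4, 3, 12]),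
  .new 4,
  .x 2 13 (.cyc 2 [8, 9, 10, 11, 3, 0, 1, 4, 13]),
  .x 8 13 (.cyc 8 [2, 0, 5, 6, 7, 1, 3, 4, 13]),
  .x 10 13 (.cyc 10 [11, 3, 0, 5, 6, 7, 1, 4, 13]),
  .new2 5,
  .x 0 14 (.emb 0 [0, 1, 2, 3, 4, 14, 5, 6, 7, 8, 9, 10, 11]),
  .x 0 15 (.emb 0 [0, 1, 2, 3, 4, 15, 5, 6, 7, 8, 9, 10, 11]),
  .x 2 14 (.cyc 2 [8, 9, 10, 11, 3, 1, 0, 5, 14]),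
  .x 2 15 (.cyc 2 [8, 9, 10, 11, 3, 1, 0, 5, 15]),
  .x 6 14 (.emb 0 [0, 1, 2, 3, 4, 5, 14, 6, 7, 8, 9, 10, 11]),
  .x 6 15 (.emb 0 [0, 1, 2, 3, 4, 5, 15, 6, 7, 8, 9, 10, 11]),
  .x 8 14 (.cyc 8 [2, 0, 3, 4, 1, 7, 6, 5, 14]),
  .x 8 15 (.cyc 8 [2, 0, 3, 4, 1, 7, 6, 5, 15]),
  .x 9 14 (.cyc 9 [8, 2, 0, 3, 1, 7, 6, 5, 14]),
  .x 9 15 (.cyc 9 [8, 2, 0, 3, 1, 7, 6, 5, 15]),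
  .x 10 14 (.cyc 10 [9, 8, 2, 0, 1, 7, 6, 5, 14]),
  .x 11 14 (.cyc 11 [3, 0, 2, 4, 1, 7, 6, 5, 14]),
  .x 11 15 (.cyc 11 [3, 0, 2, 4, 1, 7, 6, 5, 15]),
  .x 12 14 (.cyc 12 [3, 0, 2, 4, 1, 7, 6, 5, 14]),
  .x 12 15 (.cyc 12 [3, 0, 2, 4, 1, 7, 6, 5, 15]),
  .new 1,
  .x 8 16 (.cyc 8 [2, 3, 4, 0, 5, 6, 7, 1, 16]),
  .new 2,
  .x 8 17 (.cyc 8 [9, 10, 11, 3, 0, 1, 4, 2, 17]),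
  .new2 8,
  .x 0 18 (.cyc 0 [1, 2, 4, 3, 11, 10, 9, 8, 18]),
  .x 0 19 (.cyc 0 [1, 2, 4, 3, 11, 10, 9, 8, 19]),
  .x 6 18 (.cyc 6 [5, 0, 1, 3, 11, 10, 9, 8, 18]),
  .x 6 19 (.cyc 6 [5, 0, 1, 3, 11, 10, 9, 8, 19]),
  .x 9 18 (.cyc 9 [10, 11, 3, 0, 1, 4, 2, 8, 18]),
  .x 9 19 (.cyc 9 [10, 11, 3, 0, 1, 4, 2, 8, 19]),
  .x 11 18 (.cyc 11 [3, 0, 5, 6, 7, 1, 2, 8, 18]),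
  .x 11 19 (.cyc 11 [3, 0, 5, 6, 7, 1, 2, 8, 19]),
  .x 12 18 (.cyc 12 [3, 0, 5, 6, 7, 1, 2, 8, 18]),
  .x 12 19 (.cyc 12 [3, 0, 5, 6, 7, 1, 2, 8, 19]),
  .x 14 18 (.cyc 14 [5, 0, 1, 3, 11, 10, 9, 8, 18]),
  .x 14 19 (.cyc 14 [5, 0, 1, 3, 11, 10, 9, 8, 19]),
  .x 15 18 (.cyc 15 [5, 0, 1, 3, 11, 10, 9, 8, 18]),
  .x 15 19 (.cyc 15 [5, 0, 1, 3, 11, 10, 9, 8, 19]),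
  .new 10,
  .x 0 20 (.cyc 0 [5, 6, 7, 1, 2, 3, 11, 10, 20]),
  .x 6 20 (.cyc 6 [5, 0, 1, 2, 4, 3, 11, 10, 20]),
  .x 9 20 (.cyc 9 [8, 2, 0, 1, 4, 3, 11, 10, 20]),
  .x 11 20 (.cyc 11 [3, 0, 1, 4, 2, 8, 9, 10, 20]),
  .x 12 20 (.cyc 12 [3, 0, 1, 4, 2, 8, 9, 10, 20]),
  .x 14 20 (.cyc 14 [5, 0, 1, 2, 4, 3, 11, 10, 20]),
  .x 15 20 (.cyc 15 [5, 0, 1, 2, 4, 3, 11, 10, 20]),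
  .x 18 20 (.cyc 18 [8, 2, 0, 1, 4, 3, 11, 10, 20]),
  .x 19 20 (.cyc 19 [8, 2, 0, 1, 4, 3, 11, 10, 20])]
 (.ind [0, 6, 9, 11, 12, 14, 15, 18, 19, 20])

def t_9_5_3 : Tm := ⟨11, [(0, 1), (0, 2), (0, 3), (0, 4), (1, 2), (1, 3), (1, 4), (2, 3), (2, 4), (3, 4), (0, 5), (5, 6), (6, 1), (2, 7), (7, 8), (8, 3), (3, 9), (9, 10), (10, 4)]⟩

def f_9_5_3 : Pf :=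
 .seq [
  .x 0 6 (.cyc 0 [2, 7, 8, 3, 9, 10, 4, 1, 6]),
  .x 0 7 (.cyc 0 [5, 6, 1, 3, 9, 10, 4, 2, 7]),
  .x 0 8 (.cyc 0 [5, 6, 1, 2, 4, 10, 9, 3, 8]),
  .x 0 9 (.cyc 0 [5, 6, 1, 4, 2, 7, 8, 3, 9]),
  .x 0 10 (.cyc 0 [5, 6, 1, 2, 7, 8, 3, 4, 10]),
  .x 1 5 (.cyc 1 [2, 7, 8, 3, 9, 10, 4, 0, 5]),
  .x 1 7 (.cyc 1 [6, 5, 0, 3, 9, 10, 4, 2, 7]),
  .x 1 10 (.cyc 1 [6, 5, 0, 2, 7, 8, 3, 4, 10]),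
  .x 2 5 (.cyc 2 [7, 8, 3, 9, 10, 4, 1, 0, 5]),
  .x 2 10 (.cyc 2 [7, 8, 3, 0, 5, 6, 1, 4, 10]),
  .x 3 7 (.cyc 3 [9, 10, 4, 0, 5, 6, 1, 2, 7]),
  .x 3 10 (.cyc 3 [8, 7, 2, 0, 5, 6, 1, 4, 10]),
  .x 4 5 (.cyc 4 [10, 9, 3, 8, 7, 2, 1, 0, 5]),
  .x 4 6 (.cyc 4 [10, 9, 3, 8, 7, 2, 0, 1, 6]),
  .x 4 7 (.cyc 4 [10, 9, 3, 0, 5, 6, 1, 2, 7]),
  .x 4 9 (.cyc 4 [0, 5, 6, 1, 2, 7, 8, 3, 9]),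
  .x 5 7 (.cyc 5 [0, 1, 2, 4, 10, 9, 3, 8, 7]),
  .x 5 8 (.cyc 5 [0, 1, 3, 9, 10, 4, 2, 7, 8]),
  .x 5 9 (.cyc 5 [0, 1, 2, 7, 8, 3, 4, 10, 9]),
  .x 5 10 (.cyc 5 [0, 1, 4, 2, 7, 8, 3, 9, 10]),
  .x 6 7 (.cyc 6 [1, 0, 2, 4, 10, 9, 3, 8, 7]),
  .x 6 8 (.cyc 6 [1, 0, 3, 9, 10, 4, 2, 7, 8]),
  .x 6 9 (.cyc 6 [1, 0, 2, 7, 8, 3, 4, 10, 9]),
  .x 6 10 (.cyc 6 [1, 0, 4, 2, 7, 8, 3, 9, 10]),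
  .x 7 9 (.cyc 7 [2, 0, 5, 6, 1, 3, 4, 10, 9]),
  .x 7 10 (.cyc 7 [2, 0, 5, 6, 1, 4, 3, 9, 10]),
  .x 8 9 (.cyc 8 [3, 0, 5, 6, 1, 2, 4, 10, 9]),
  .x 8 10 (.cyc 8 [7, 2, 0, 5, 6, 1, 3, 4, 10]),
  .new 2,
  .x 5 11 (.cyc 5 [0, 4, 10, 9, 3, 8, 7, 2, 11]),
  .x 7 11 (.cyc 7 [8, 3, 0, 5, 6, 1, 4, 2, 11]),
  .x 10 11 (.cyc 10 [9, 3, 0, 5, 6, 1, 4, 2, 11]),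
  .new 0,
  .x 5 12 (.cyc 5 [6, 1, 2, 3, 9, 10, 4, 0, 12]),
  .x 7 12 (.cyc 7 [8, 3, 2, 4, 1, 6, 5, 0, 12]),
  .new 4,
  .x 5 13 (.cyc 5 [0, 2, 7, 8, 3, 9, 10, 4, 13]),
  .x 7 13 (.cyc 7 [8, 3, 0, 5, 6, 1, 2, 4, 13]),
  .new2 10,
  .x 0 14 (.cyc 0 [1, 4, 2, 7, 8, 3, 9, 10, 14]),
  .x 0 15 (.cyc 0 [1, 4, 2, 7, 8, 3, 9, 10, 15]),
  .x 5 14 (.cyc 5 [0, 1, 2, 7, 8, 3, 4, 10, 14]),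
  .x 6 14 (.cyc 6 [1, 0, 2, 7, 8, 3, 4, 10, 14]),
  .x 6 15 (.cyc 6 [1, 0, 2, 7, 8, 3, 4, 10, 15]),
  .x 7 14 (.cyc 7 [2, 0, 5, 6, 1, 3, 4, 10, 14]),
  .x 7 15 (.cyc 7 [2, 0, 5, 6, 1, 3, 4, 10, 15]),
  .x 8 14 (.cyc 8 [3, 0, 5, 6, 1, 2, 4, 10, 14]),
  .x 8 15 (.cyc 8 [3, 0, 5, 6, 1, 2, 4, 10, 15]),
  .x 9 14 (.cyc 9 [3, 0, 5, 6, 1, 2, 4, 10, 14]),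
  .x 9 15 (.cyc 9 [3, 0, 5, 6, 1, 2, 4, 10, 15]),
  .new2 5,
  .x 0 16 (.cyc 0 [2, 3, 9, 10, 4, 1, 6, 5, 16]),
  .x 0 17 (.cyc 0 [2, 3, 9, 10, 4, 1, 6, 5, 17]),
  .x 6 16 (.cyc 6 [1, 2, 3, 9, 10, 4, 0, 5, 16]),
  .x 6 17 (.cyc 6 [1, 2, 3, 9, 10, 4, 0, 5, 17]),
  .x 8 16 (.cyc 8 [3, 9, 10, 4, 0, 1, 6, 5, 16]),
  .x 8 17 (.cyc 8 [3, 9, 10, 4, 0, 1, 6, 5, 17]),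
  .x 9 16 (.cyc 9 [3, 8, 7, 2, 0, 1, 6, 5, 16]),
  .x 9 17 (.cyc 9 [3, 8, 7, 2, 0, 1, 6, 5, 17]),
  .x 14 16 (.cyc 14 [10, 4, 0, 2, 3, 1, 6, 5, 16]),
  .x 14 17 (.cyc 14 [10, 4, 0, 2, 3, 1, 6, 5, 17]),
  .x 15 16 (.cyc 15 [10, 4, 0, 2, 3, 1, 6, 5, 16]),
  .x 15 17 (.cyc 15 [10, 4, 0, 2, 3, 1, 6, 5, 17]),
  .new2 7,
  .x 0 18 (.cyc 0 [1, 2, 4, 10, 9, 3, 8, 7, 18]),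
  .x 0 19 (.cyc 0 [1, 2, 4, 10, 9, 3, 8, 7, 19]),
  .x 6 18 (.cyc 6 [1, 0, 3, 9, 10, 4, 2, 7, 18]),
  .x 6 19 (.cyc 6 [1, 0, 3, 9, 10, 4, 2, 7, 19]),
  .x 8 18 (.cyc 8 [3, 0, 5, 6, 1, 4, 2, 7, 18]),
  .x 8 19 (.cyc 8 [3, 0, 5, 6, 1, 4, 2, 7, 19]),
  .x 9 18 (.cyc 9 [3, 0, 5, 6, 1, 4, 2, 7, 18]),
  .x 9 19 (.cyc 9 [3, 0, 5, 6, 1, 4, 2, 7, 19]),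
  .x 14 18 (.cyc 14 [10, 4, 0, 1, 2, 3, 8, 7, 18]),
  .x 14 19 (.cyc 14 [10, 4, 0, 1, 2, 3, 8, 7, 19]),
  .x 15 18 (.cyc 15 [10, 4, 0, 1, 2, 3, 8, 7, 18]),
  .x 15 19 (.cyc 15 [10, 4, 0, 1, 2, 3, 8, 7, 19]),
  .x 16 18 (.cyc 16 [5, 0, 1, 2, 4, 3, 8, 7, 18]),
  .x 16 19 (.cyc 16 [5, 0, 1, 2, 4, 3, 8, 7, 19]),
  .x 17 18 (.cyc 17 [5, 0, 1, 2, 4, 3, 8, 7, 18]),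
  .x 17 19 (.cyc 17 [5, 0, 1, 2, 4, 3, 8, 7, 19])]
 (.ind [0, 6, 8, 9, 14, 15, 16, 17, 18, 19])

def d_9_5 : List (Tm × Pf) := [(t_9_5_0, f_9_5_0), (t_9_5_1, f_9_5_1), (t_9_5_2, f_9_5_2), (t_9_5_3, f_9_5_3)]

theorem k_9_5 : killAll 9 5 d_9_5 [] = true := by decide +kernel

def t_10_6_0 : Tm := ⟨14, [(0, 1), (0, 2), (0, 3), (0, 4), (0, 5), (1, 2), (1, 3), (1, 4), (1, 5), (2, 3), (2, 4), (2, 5), (3, 4), (3, 5), (4, 5), (0, 6), (6, 7), (7, 8), (8, 9), (9, 1), (2, 10), (10, 11), (11, 12), (12, 13), (13, 3)]⟩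

def f_10_6_0 : Pf :=
 .seq [
  .x 0 7 (.cyc 0 [2, 10, 11, 12, 13, 3, 1, 9, 8, 7]),
  .x 0 8 (.cyc 0 [2, 10, 11, 12, 13, 3, 4, 1, 9, 8]),
  .x 0 9 (.cyc 0 [2, 10, 11, 12, 13, 3, 4, 5, 1, 9]),
  .x 0 10 (.cyc 0 [6, 7, 8, 9, 1, 3, 4, 5, 2, 10]),
  .x 0 11 (.cyc 0 [6, 7, 8, 9, 1, 2, 3, 13, 12, 11]),
  .x 0 12 (.cyc 0 [6, 7, 8, 9, 1, 2, 4, 3, 13, 12]),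
  .x 0 13 (.cyc 0 [6, 7, 8, 9, 1, 2, 4, 5, 3, 13]),
  .x 1 8 (.cyc 1 [2, 10, 11, 12, 13, 3, 0, 6, 7, 8]),
  .x 1 10 (.cyc 1 [9, 8, 7, 6, 0, 3, 4, 5, 2, 10]),
  .x 1 12 (.cyc 1 [9, 8, 7, 6, 0, 2, 4, 3, 13, 12]),
  .x 2 8 (.cyc 2 [10, 11, 12, 13, 3, 0, 4, 1, 9, 8]),
  .x 2 12 (.cyc 2 [0, 6, 7, 8, 9, 1, 4, 3, 13, 12]),
  .x 3 8 (.cyc 3 [13, 12, 11, 10, 2, 0, 4, 1, 9, 8]),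
  .x 3 10 (.cyc 3 [0, 6, 7, 8, 9, 1, 4, 5, 2, 10]),
  .x 3 12 (.cyc 3 [0, 6, 7, 8, 9, 1, 2, 10, 11, 12]),
  .x 4 8 (.cyc 4 [0, 2, 10, 11, 12, 13, 3, 1, 9, 8]),
  .x 4 10 (.cyc 4 [0, 6, 7, 8, 9, 1, 3, 5, 2, 10]),
  .x 4 12 (.cyc 4 [0, 6, 7, 8, 9, 1, 2, 3, 13, 12]),
  .x 5 8 (.cyc 5 [0, 2, 10, 11, 12, 13, 3, 1, 9, 8]),
  .x 5 10 (.cyc 5 [0, 6, 7, 8, 9, 1, 3, 4, 2, 10]),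
  .x 5 12 (.cyc 5 [0, 6, 7, 8, 9, 1, 2, 3, 13, 12]),
  .x 6 8 (.cyc 6 [0, 2, 10, 11, 12, 13, 3, 1, 9, 8]),
  .x 6 10 (.cyc 6 [0, 1, 2, 4, 5, 3, 13, 12, 11, 10]),
  .x 6 12 (.cyc 6 [7, 8, 9, 1, 0, 2, 4, 3, 13, 12]),
  .x 7 9 (.cyc 7 [6, 0, 2, 10, 11, 12, 13, 3, 1, 9]),
  .x 7 10 (.cyc 7 [6, 0, 1, 2, 4, 3, 13, 12, 11, 10]),
  .x 7 11 (.cyc 7 [6, 0, 1, 2, 4, 5, 3, 13, 12, 11]),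
  .x 7 12 (.cyc 7 [6, 0, 1, 3, 4, 5, 2, 10, 11, 12]),
  .x 7 13 (.cyc 7 [6, 0, 1, 3, 4, 2, 10, 11, 12, 13]),
  .x 8 10 (.cyc 8 [7, 6, 0, 1, 2, 3, 13, 12, 11, 10]),
  .x 8 11 (.cyc 8 [7, 6, 0, 1, 2, 4, 3, 13, 12, 11]),
  .x 8 12 (.cyc 8 [7, 6, 0, 1, 2, 4, 5, 3, 13, 12]),
  .x 8 13 (.cyc 8 [7, 6, 0, 1, 3, 2, 10, 11, 12, 13]),
  .x 9 11 (.cyc 9 [8, 7, 6, 0, 1, 2, 3, 13, 12, 11]),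
  .x 9 12 (.cyc 9 [8, 7, 6, 0, 1, 2, 4, 3, 13, 12]),
  .x 9 13 (.cyc 9 [1, 0, 3, 4, 5, 2, 10, 11, 12, 13]),
  .x 10 12 (.cyc 10 [2, 0, 6, 7, 8, 9, 1, 3, 13, 12]),
  .x 11 13 (.cyc 11 [10, 2, 0, 6, 7, 8, 9, 1, 3, 13]),
  .new2 10,
  .x 0 14 (.cyc 0 [1, 2, 4, 5, 3, 13, 12, 11, 10, 14]),
  .x 0 15 (.cyc 0 [1, 2, 4, 5, 3, 13, 12, 11, 10, 15]),
  .x 7 14 (.cyc 7 [6, 0, 1, 2, 3, 13, 12, 11, 10, 14]),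
  .x 7 15 (.cyc 7 [6, 0, 1, 2, 3, 13, 12, 11, 10, 15]),
  .x 9 14 (.cyc 9 [1, 0, 2, 4, 3, 13, 12, 11, 10, 14]),
  .x 9 15 (.cyc 9 [1, 0, 2, 4, 3, 13, 12, 11, 10, 15]),
  .x 11 14 (.cyc 11 [12, 13, 3, 0, 1, 4, 5, 2, 10, 14]),
  .x 11 15 (.cyc 11 [12, 13, 3, 0, 1, 4, 5, 2, 10, 15]),
  .x 13 14 (.cyc 13 [3, 0, 6, 7, 8, 9, 1, 2, 10, 14]),
  .x 13 15 (.cyc 13 [3, 0, 6, 7, 8, 9, 1, 2, 10, 15]),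
  .new2 8,
  .x 0 16 (.cyc 0 [2, 10, 11, 12, 13, 3, 1, 9, 8, 16]),
  .x 0 17 (.cyc 0 [2, 10, 11, 12, 13, 3, 1, 9, 8, 17]),
  .x 7 16 (.cyc 7 [6, 0, 2, 3, 4, 5, 1, 9, 8, 16]),
  .x 7 17 (.cyc 7 [6, 0, 2, 3, 4, 5, 1, 9, 8, 17]),
  .x 9 16 (.cyc 9 [1, 2, 3, 4, 5, 0, 6, 7, 8, 16]),
  .x 9 17 (.cyc 9 [1, 2, 3, 4, 5, 0, 6, 7, 8, 17]),
  .x 11 16 (.cyc 11 [10, 2, 0, 3, 4, 5, 1, 9, 8, 16]),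
  .x 11 17 (.cyc 11 [10, 2, 0, 3, 4, 5, 1, 9, 8, 17]),
  .x 12 16 (.cyc 12 [11, 10, 2, 0, 3, 4, 1, 9, 8, 16]),
  .x 12 17 (.cyc 12 [11, 10, 2, 0, 3, 4, 1, 9, 8, 17]),
  .x 13 16 (.cyc 13 [3, 1, 2, 4, 5, 0, 6, 7, 8, 16]),
  .x 13 17 (.cyc 13 [3, 1, 2, 4, 5, 0, 6, 7, 8, 17]),
  .x 14 16 (.cyc 14 [10, 2, 0, 3, 4, 5, 1, 9, 8, 16]),
  .x 14 17 (.cyc 14 [10, 2, 0, 3, 4, 5, 1, 9, 8, 17]),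
  .x 15 16 (.cyc 15 [10, 2, 0, 3, 4, 5, 1, 9, 8, 16]),
  .x 15 17 (.cyc 15 [10, 2, 0, 3, 4, 5, 1, 9, 8, 17]),
  .new2 12,
  .x 0 18 (.cyc 0 [6, 7, 8, 9, 1, 2, 3, 13, 12, 18]),
  .x 0 19 (.cyc 0 [6, 7, 8, 9, 1, 2, 3, 13, 12, 19]),
  .x 7 18 (.cyc 7 [6, 0, 1, 2, 4, 5, 3, 13, 12, 18]),
  .x 7 19 (.cyc 7 [6, 0, 1, 2, 4, 5, 3, 13, 12, 19]),
  .x 9 18 (.cyc 9 [1, 0, 3, 4, 5, 2, 10, 11, 12, 18]),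
  .x 9 19 (.cyc 9 [1, 0, 3, 4, 5, 2, 10, 11, 12, 19]),
  .x 11 18 (.cyc 11 [10, 2, 0, 1, 4, 5, 3, 13, 12, 18]),
  .x 11 19 (.cyc 11 [10, 2, 0, 1, 4, 5, 3, 13, 12, 19]),
  .x 13 18 (.cyc 13 [3, 0, 1, 4, 5, 2, 10, 11, 12, 18]),
  .x 13 19 (.cyc 13 [3, 0, 1, 4, 5, 2, 10, 11, 12, 19]),
  .x 14 18 (.cyc 14 [10, 2, 0, 1, 4, 5, 3, 13, 12, 18]),
  .x 14 19 (.cyc 14 [10, 2, 0, 1, 4, 5, 3, 13, 12, 19]),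
  .x 15 18 (.cyc 15 [10, 2, 0, 1, 4, 5, 3, 13, 12, 18]),
  .x 15 19 (.cyc 15 [10, 2, 0, 1, 4, 5, 3, 13, 12, 19]),
  .x 16 18 (.cyc 16 [8, 7, 6, 0, 1, 2, 3, 13, 12, 18]),
  .x 16 19 (.cyc 16 [8, 7, 6, 0, 1, 2, 3, 13, 12, 19]),
  .x 17 18 (.cyc 17 [8, 7, 6, 0, 1, 2, 3, 13, 12, 18]),
  .x 17 19 (.cyc 17 [8, 7, 6, 0, 1, 2, 3, 13, 12, 19])]
 (.ind [0, 7, 9, 11, 13, 14, 15, 16, 17, 18, 19])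

def t_10_6_1 : Tm := ⟨12, [(0, 1), (0, 2), (0, 3), (0, 4), (0, 5), (1, 2), (1, 3), (1, 4), (1, 5), (2, 3), (2, 4), (2, 5), (3, 4), (3, 5), (4, 5), (0, 6), (6, 7), (7, 1), (2, 8), (8, 9), (9, 3), (4, 10), (10, 11), (11, 5)]⟩

def f_10_6_1 : Pf :=
 .seq [
  .x 0 7 (.cyc 0 [2, 8, 9, 3, 4, 10, 11, 5, 1, 7]),
  .x 0 8 (.cyc 0 [6, 7, 1, 3, 4, 10, 11, 5, 2, 8]),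
  .x 0 9 (.cyc 0 [6, 7, 1, 2, 4, 10, 11, 5, 3, 9]),
  .x 0 10 (.cyc 0 [6, 7, 1, 2, 8, 9, 3, 5, 4, 10]),
  .x 0 11 (.cyc 0 [6, 7, 1, 2, 8, 9, 3, 4, 5, 11]),
  .x 1 6 (.cyc 1 [2, 8, 9, 3, 4, 10, 11, 5, 0, 6]),
  .x 1 8 (.cyc 1 [7, 6, 0, 3, 4, 10, 11, 5, 2, 8]),
  .x 1 11 (.cyc 1 [7, 6, 0, 2, 8, 9, 3, 4, 5, 11]),
  .x 2 6 (.cyc 2 [8, 9, 3, 1, 4, 10, 11, 5, 0, 6]),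
  .x 2 7 (.cyc 2 [8, 9, 3, 0, 4, 10, 11, 5, 1, 7]),
  .x 2 9 (.cyc 2 [0, 6, 7, 1, 4, 10, 11, 5, 3, 9]),
  .x 2 10 (.cyc 2 [8, 9, 3, 0, 6, 7, 1, 5, 4, 10]),
  .x 2 11 (.cyc 2 [8, 9, 3, 0, 6, 7, 1, 4, 5, 11]),
  .x 3 6 (.cyc 3 [9, 8, 2, 1, 4, 10, 11, 5, 0, 6]),
  .x 3 7 (.cyc 3 [9, 8, 2, 0, 4, 10, 11, 5, 1, 7]),
  .x 3 8 (.cyc 3 [0, 6, 7, 1, 4, 10, 11, 5, 2, 8]),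
  .x 3 10 (.cyc 3 [9, 8, 2, 0, 6, 7, 1, 5, 4, 10]),
  .x 3 11 (.cyc 3 [9, 8, 2, 0, 6, 7, 1, 4, 5, 11]),
  .x 4 6 (.cyc 4 [10, 11, 5, 1, 2, 8, 9, 3, 0, 6]),
  .x 4 8 (.cyc 4 [10, 11, 5, 0, 6, 7, 1, 3, 2, 8]),
  .x 4 11 (.cyc 4 [0, 6, 7, 1, 2, 8, 9, 3, 5, 11]),
  .x 5 6 (.cyc 5 [11, 10, 4, 1, 2, 8, 9, 3, 0, 6]),
  .x 5 7 (.cyc 5 [11, 10, 4, 0, 2, 8, 9, 3, 1, 7]),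
  .x 5 8 (.cyc 5 [11, 10, 4, 0, 6, 7, 1, 3, 2, 8]),
  .x 5 9 (.cyc 5 [11, 10, 4, 0, 6, 7, 1, 2, 3, 9]),
  .x 5 10 (.cyc 5 [0, 6, 7, 1, 2, 8, 9, 3, 4, 10]),
  .x 6 8 (.cyc 6 [0, 1, 2, 4, 10, 11, 5, 3, 9, 8]),
  .x 6 9 (.cyc 6 [0, 1, 3, 4, 10, 11, 5, 2, 8, 9]),
  .x 6 10 (.cyc 6 [0, 1, 2, 8, 9, 3, 4, 5, 11, 10]),
  .x 6 11 (.cyc 6 [0, 1, 2, 8, 9, 3, 5, 4, 10, 11]),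
  .x 7 8 (.cyc 7 [1, 0, 2, 4, 10, 11, 5, 3, 9, 8]),
  .x 7 9 (.cyc 7 [1, 0, 3, 4, 10, 11, 5, 2, 8, 9]),
  .x 7 10 (.cyc 7 [1, 0, 2, 8, 9, 3, 4, 5, 11, 10]),
  .x 7 11 (.cyc 7 [1, 0, 2, 8, 9, 3, 5, 4, 10, 11]),
  .x 8 10 (.cyc 8 [2, 0, 6, 7, 1, 3, 4, 5, 11, 10]),
  .x 8 11 (.cyc 8 [2, 0, 6, 7, 1, 3, 5, 4, 10, 11]),
  .x 9 10 (.cyc 9 [3, 0, 6, 7, 1, 2, 4, 5, 11, 10]),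
  .new 0,
  .x 3 12 (.cyc 3 [2, 4, 10, 11, 5, 1, 7, 6, 0, 12]),
  .x 5 12 (.cyc 5 [2, 8, 9, 3, 4, 1, 7, 6, 0, 12]),
  .x 6 12 (.cyc 6 [7, 1, 2, 3, 4, 10, 11, 5, 0, 12]),
  .x 8 12 (.cyc 8 [2, 4, 10, 11, 5, 1, 7, 6, 0, 12]),
  .new2 11,
  .x 0 13 (.cyc 0 [1, 2, 8, 9, 3, 5, 4, 10, 11, 13]),
  .x 0 14 (.cyc 0 [1, 2, 8, 9, 3, 5, 4, 10, 11, 14]),
  .x 3 13 (.cyc 3 [0, 6, 7, 1, 2, 5, 4, 10, 11, 13]),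
  .x 3 14 (.cyc 3 [0, 6, 7, 1, 2, 5, 4, 10, 11, 14]),
  .x 5 13 (.cyc 5 [0, 1, 2, 8, 9, 3, 4, 10, 11, 13]),
  .x 5 14 (.cyc 5 [0, 1, 2, 8, 9, 3, 4, 10, 11, 14]),
  .x 6 13 (.cyc 6 [0, 1, 2, 8, 9, 3, 4, 5, 11, 13]),
  .x 7 13 (.cyc 7 [1, 0, 2, 8, 9, 3, 4, 5, 11, 13]),
  .x 7 14 (.cyc 7 [1, 0, 2, 8, 9, 3, 4, 5, 11, 14]),
  .x 8 13 (.cyc 8 [2, 0, 6, 7, 1, 3, 4, 5, 11, 13]),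
  .x 8 14 (.cyc 8 [2, 0, 6, 7, 1, 3, 4, 5, 11, 14]),
  .x 9 13 (.cyc 9 [3, 0, 6, 7, 1, 2, 4, 5, 11, 13]),
  .x 9 14 (.cyc 9 [3, 0, 6, 7, 1, 2, 4, 5, 11, 14]),
  .x 10 13 (.cyc 10 [4, 0, 1, 2, 8, 9, 3, 5, 11, 13]),
  .x 10 14 (.cyc 10 [4, 0, 1, 2, 8, 9, 3, 5, 11, 14]),
  .new 2,
  .x 3 15 (.cyc 3 [0, 6, 7, 1, 4, 10, 11, 5, 2, 15]),
  .x 8 15 (.cyc 8 [9, 3, 0, 1, 4, 10, 11, 5, 2, 15]),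
  .new2 6,
  .x 0 16 (.cyc 0 [2, 3, 4, 10, 11, 5, 1, 7, 6, 16]),
  .x 0 17 (.cyc 0 [2, 3, 4, 10, 11, 5, 1, 7, 6, 17]),
  .x 3 16 (.cyc 3 [0, 2, 4, 10, 11, 5, 1, 7, 6, 16]),
  .x 3 17 (.cyc 3 [0, 2, 4, 10, 11, 5, 1, 7, 6, 17]),
  .x 7 16 (.cyc 7 [1, 2, 3, 4, 10, 11, 5, 0, 6, 16]),
  .x 7 17 (.cyc 7 [1, 2, 3, 4, 10, 11, 5, 0, 6, 17]),
  .x 8 16 (.cyc 8 [2, 0, 4, 10, 11, 5, 1, 7, 6, 16]),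
  .x 9 16 (.cyc 9 [3, 0, 4, 10, 11, 5, 1, 7, 6, 16]),
  .x 9 17 (.cyc 9 [3, 0, 4, 10, 11, 5, 1, 7, 6, 17]),
  .x 10 16 (.cyc 10 [4, 0, 2, 8, 9, 3, 1, 7, 6, 16]),
  .x 10 17 (.cyc 10 [4, 0, 2, 8, 9, 3, 1, 7, 6, 17]),
  .x 13 16 (.cyc 13 [11, 5, 0, 2, 3, 4, 1, 7, 6, 16]),
  .x 13 17 (.cyc 13 [11, 5, 0, 2, 3, 4, 1, 7, 6, 17]),
  .x 14 16 (.cyc 14 [11, 5, 0, 2, 3, 4, 1, 7, 6, 16]),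
  .x 14 17 (.cyc 14 [11, 5, 0, 2, 3, 4, 1, 7, 6, 17]),
  .new 5,
  .new2 8,
  .x 0 19 (.cyc 0 [1, 2, 4, 10, 11, 5, 3, 9, 8, 19]),
  .x 0 20 (.cyc 0 [1, 2, 4, 10, 11, 5, 3, 9, 8, 20]),
  .x 7 19 (.cyc 7 [1, 0, 3, 4, 10, 11, 5, 2, 8, 19]),
  .x 7 20 (.cyc 7 [1, 0, 3, 4, 10, 11, 5, 2, 8, 20]),
  .x 9 19 (.cyc 9 [3, 0, 1, 4, 10, 11, 5, 2, 8, 19]),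
  .x 9 20 (.cyc 9 [3, 0, 1, 4, 10, 11, 5, 2, 8, 20]),
  .x 10 19 (.cyc 10 [4, 0, 6, 7, 1, 2, 3, 9, 8, 19]),
  .x 10 20 (.cyc 10 [4, 0, 6, 7, 1, 2, 3, 9, 8, 20]),
  .x 13 19 (.cyc 13 [11, 5, 0, 1, 2, 4, 3, 9, 8, 19]),
  .x 13 20 (.cyc 13 [11, 5, 0, 1, 2, 4, 3, 9, 8, 20]),
  .x 14 19 (.cyc 14 [11, 5, 0, 1, 2, 4, 3, 9, 8, 19]),
  .x 14 20 (.cyc 14 [11, 5, 0, 1, 2, 4, 3, 9, 8, 20]),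
  .x 16 19 (.cyc 16 [6, 0, 1, 2, 4, 5, 3, 9, 8, 19]),
  .x 16 20 (.cyc 16 [6, 0, 1, 2, 4, 5, 3, 9, 8, 20]),
  .x 17 19 (.cyc 17 [6, 0, 1, 2, 4, 5, 3, 9, 8, 19]),
  .x 17 20 (.cyc 17 [6, 0, 1, 2, 4, 5, 3, 9, 8, 20]),
  .new 3,
  .x 0 21 (.cyc 0 [1, 4, 10, 11, 5, 2, 8, 9, 3, 21]),
  .x 7 21 (.cyc 7 [1, 4, 10, 11, 5, 2, 8, 9, 3, 21]),
  .x 9 21 (.cyc 9 [8, 2, 0, 1, 4, 10, 11, 5, 3, 21]),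
  .x 10 21 (.cyc 10 [4, 0, 6, 7, 1, 2, 8, 9, 3, 21]),
  .x 13 21 (.cyc 13 [11, 5, 0, 1, 4, 2, 8, 9, 3, 21]),
  .x 14 21 (.cyc 14 [11, 5, 0, 1, 4, 2, 8, 9, 3, 21]),
  .x 16 21 (.cyc 16 [6, 0, 1, 2, 4, 10, 11, 5, 3, 21]),
  .x 17 21 (.cyc 17 [6, 0, 1, 2, 4, 10, 11, 5, 3, 21]),
  .x 19 21 (.cyc 19 [8, 2, 0, 1, 4, 10, 11, 5, 3, 21]),
  .x 20 21 (.cyc 20 [8, 2, 0, 1, 4, 10, 11, 5, 3, 21])]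
 (.ind [0, 7, 9, 10, 13, 14, 16, 17, 19, 20, 21])

def d_10_6 : List (Tm × Pf) := [(t_10_6_0, f_10_6_0), (t_10_6_1, f_10_6_1)]

theorem k_10_6 : killAll 10 6 d_10_6 [] = true := by decide +kernel

def t_11_6_0 : Tm := ⟨15, [(0, 1), (0, 2), (0, 3), (0, 4), (0, 5), (1, 2), (1, 3), (1, 4), (1, 5), (2, 3), (2, 4), (2, 5), (3, 4), (3, 5), (4, 5), (0, 6), (6, 7), (7, 8), (8, 9), (9, 1), (2, 10), (10, 11), (11, 12), (12, 13), (13, 14), (14, 3)]⟩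

def f_11_6_0 : Pf :=
 .seq [
  .x 0 7 (.cyc 0 [2, 10, 11, 12, 13, 14, 3, 1, 9, 8, 7]),
  .x 0 9 (.cyc 0 [2, 10, 11, 12, 13, 14, 3, 4, 5, 1, 9]),
  .x 0 10 (.cyc 0 [6, 7, 8, 9, 1, 3, 14, 13, 12, 11, 10]),
  .x 0 11 (.cyc 0 [6, 7, 8, 9, 1, 2, 3, 14, 13, 12, 11]),
  .x 0 12 (.cyc 0 [6, 7, 8, 9, 1, 2, 4, 3, 14, 13, 12]),
  .x 0 13 (.cyc 0 [6, 7, 8, 9, 1, 2, 4, 5, 3, 14, 13]),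
  .x 0 14 (.cyc 0 [6, 7, 8, 9, 1, 2, 10, 11, 12, 13, 14]),
  .x 1 11 (.cyc 1 [9, 8, 7, 6, 0, 2, 3, 14, 13, 12, 11]),
  .x 1 13 (.cyc 1 [9, 8, 7, 6, 0, 2, 4, 5, 3, 14, 13]),
  .x 2 6 (.cyc 2 [10, 11, 12, 13, 14, 3, 1, 4, 5, 0, 6]),
  .x 2 7 (.cyc 2 [10, 11, 12, 13, 14, 3, 0, 1, 9, 8, 7]),
  .x 2 8 (.cyc 2 [10, 11, 12, 13, 14, 3, 0, 4, 1, 9, 8]),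
  .x 2 9 (.cyc 2 [10, 11, 12, 13, 14, 3, 0, 4, 5, 1, 9]),
  .x 2 11 (.cyc 2 [0, 6, 7, 8, 9, 1, 3, 14, 13, 12, 11]),
  .x 2 12 (.cyc 2 [0, 6, 7, 8, 9, 1, 4, 3, 14, 13, 12]),
  .x 2 13 (.cyc 2 [0, 6, 7, 8, 9, 1, 4, 5, 3, 14, 13]),
  .x 3 6 (.cyc 3 [14, 13, 12, 11, 10, 2, 1, 4, 5, 0, 6]),
  .x 3 7 (.cyc 3 [14, 13, 12, 11, 10, 2, 0, 1, 9, 8, 7]),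
  .x 3 8 (.cyc 3 [14, 13, 12, 11, 10, 2, 0, 4, 1, 9, 8]),
  .x 3 9 (.cyc 3 [14, 13, 12, 11, 10, 2, 0, 4, 5, 1, 9]),
  .x 3 11 (.cyc 3 [0, 6, 7, 8, 9, 1, 4, 5, 2, 10, 11]),
  .x 3 12 (.cyc 3 [0, 6, 7, 8, 9, 1, 4, 2, 10, 11, 12]),
  .x 3 13 (.cyc 3 [0, 6, 7, 8, 9, 1, 2, 10, 11, 12, 13]),
  .x 4 9 (.cyc 4 [0, 2, 10, 11, 12, 13, 14, 3, 5, 1, 9]),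
  .x 4 11 (.cyc 4 [0, 6, 7, 8, 9, 1, 3, 5, 2, 10, 11]),
  .x 4 13 (.cyc 4 [0, 6, 7, 8, 9, 1, 2, 5, 3, 14, 13]),
  .x 5 11 (.cyc 5 [0, 6, 7, 8, 9, 1, 3, 4, 2, 10, 11]),
  .x 5 13 (.cyc 5 [0, 6, 7, 8, 9, 1, 2, 4, 3, 14, 13]),
  .x 6 11 (.cyc 6 [7, 8, 9, 1, 0, 2, 3, 14, 13, 12, 11]),
  .x 6 13 (.cyc 6 [7, 8, 9, 1, 0, 2, 4, 5, 3, 14, 13]),
  .x 7 9 (.cyc 7 [6, 0, 2, 10, 11, 12, 13, 14, 3, 1, 9]),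
  .x 7 10 (.cyc 7 [6, 0, 1, 2, 4, 3, 14, 13, 12, 11, 10]),
  .x 7 11 (.cyc 7 [6, 0, 1, 2, 4, 5, 3, 14, 13, 12, 11]),
  .x 7 12 (.cyc 7 [8, 9, 1, 0, 2, 4, 5, 3, 14, 13, 12]),
  .x 7 13 (.cyc 7 [6, 0, 1, 3, 4, 5, 2, 10, 11, 12, 13]),
  .x 7 14 (.cyc 7 [6, 0, 1, 3, 4, 2, 10, 11, 12, 13, 14]),
  .x 8 13 (.cyc 8 [7, 6, 0, 1, 3, 4, 2, 10, 11, 12, 13]),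
  .x 9 10 (.cyc 9 [1, 0, 2, 4, 5, 3, 14, 13, 12, 11, 10]),
  .x 9 12 (.cyc 9 [8, 7, 6, 0, 1, 2, 4, 3, 14, 13, 12]),
  .x 9 13 (.cyc 9 [8, 7, 6, 0, 1, 2, 4, 5, 3, 14, 13]),
  .x 9 14 (.cyc 9 [1, 0, 3, 4, 5, 2, 10, 11, 12, 13, 14]),
  .x 10 12 (.cyc 10 [2, 0, 6, 7, 8, 9, 1, 3, 14, 13, 12]),
  .x 10 13 (.cyc 10 [2, 0, 6, 7, 8, 9, 1, 4, 3, 14, 13]),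
  .x 10 14 (.cyc 10 [2, 0, 6, 7, 8, 9, 1, 4, 5, 3, 14]),
  .x 11 13 (.cyc 11 [10, 2, 0, 6, 7, 8, 9, 1, 3, 14, 13]),
  .x 12 14 (.cyc 12 [11, 10, 2, 0, 6, 7, 8, 9, 1, 3, 14]),
  .new2 11,
  .x 0 15 (.cyc 0 [6, 7, 8, 9, 1, 3, 4, 2, 10, 11, 15]),
  .x 0 16 (.cyc 0 [6, 7, 8, 9, 1, 3, 4, 2, 10, 11, 16]),
  .x 3 15 (.cyc 3 [0, 6, 7, 8, 9, 1, 4, 2, 10, 11, 15]),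
  .x 3 16 (.cyc 3 [0, 6, 7, 8, 9, 1, 4, 2, 10, 11, 16]),
  .x 7 15 (.cyc 7 [6, 0, 1, 2, 4, 3, 14, 13, 12, 11, 15]),
  .x 7 16 (.cyc 7 [6, 0, 1, 2, 4, 3, 14, 13, 12, 11, 16]),
  .x 9 15 (.cyc 9 [1, 0, 2, 4, 5, 3, 14, 13, 12, 11, 15]),
  .x 9 16 (.cyc 9 [1, 0, 2, 4, 5, 3, 14, 13, 12, 11, 16]),
  .x 10 15 (.cyc 10 [2, 0, 1, 4, 5, 3, 14, 13, 12, 11, 15]),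
  .x 10 16 (.cyc 10 [2, 0, 1, 4, 5, 3, 14, 13, 12, 11, 16]),
  .x 12 15 (.cyc 12 [13, 14, 3, 0, 1, 4, 5, 2, 10, 11, 15]),
  .x 12 16 (.cyc 12 [13, 14, 3, 0, 1, 4, 5, 2, 10, 11, 16]),
  .x 14 15 (.cyc 14 [3, 0, 6, 7, 8, 9, 1, 2, 10, 11, 15]),
  .x 14 16 (.cyc 14 [3, 0, 6, 7, 8, 9, 1, 2, 10, 11, 16]),
  .new2 9,
  .x 2 17 (.cyc 2 [10, 11, 12, 13, 14, 3, 0, 4, 1, 9, 17]),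
  .x 2 18 (.cyc 2 [10, 11, 12, 13, 14, 3, 0, 4, 1, 9, 18]),
  .x 3 17 (.cyc 3 [14, 13, 12, 11, 10, 2, 0, 4, 1, 9, 17]),
  .x 13 17 (.cyc 13 [12, 11, 10, 2, 0, 3, 4, 5, 1, 9, 17]),
  .new2 13,
  .x 0 19 (.cyc 0 [6, 7, 8, 9, 1, 2, 4, 3, 14, 13, 19]),
  .x 0 20 (.cyc 0 [6, 7, 8, 9, 1, 2, 4, 3, 14, 13, 20]),
  .x 2 19 (.cyc 2 [0, 6, 7, 8, 9, 1, 4, 3, 14, 13, 19]),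
  .x 2 20 (.cyc 2 [0, 6, 7, 8, 9, 1, 4, 3, 14, 13, 20]),
  .x 7 19 (.cyc 7 [6, 0, 1, 3, 4, 2, 10, 11, 12, 13, 19]),
  .x 7 20 (.cyc 7 [6, 0, 1, 3, 4, 2, 10, 11, 12, 13, 20]),
  .x 9 19 (.cyc 9 [1, 0, 3, 4, 5, 2, 10, 11, 12, 13, 19]),
  .x 9 20 (.cyc 9 [1, 0, 3, 4, 5, 2, 10, 11, 12, 13, 20]),
  .x 10 19 (.cyc 10 [2, 0, 6, 7, 8, 9, 1, 3, 14, 13, 19]),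
  .x 10 20 (.cyc 10 [2, 0, 6, 7, 8, 9, 1, 3, 14, 13, 20]),
  .x 12 19 (.cyc 12 [11, 10, 2, 0, 1, 4, 5, 3, 14, 13, 19]),
  .x 12 20 (.cyc 12 [11, 10, 2, 0, 1, 4, 5, 3, 14, 13, 20]),
  .x 14 19 (.cyc 14 [3, 0, 1, 4, 5, 2, 10, 11, 12, 13, 19]),
  .x 14 20 (.cyc 14 [3, 0, 1, 4, 5, 2, 10, 11, 12, 13, 20]),
  .x 15 19 (.cyc 15 [11, 10, 2, 0, 1, 4, 5, 3, 14, 13, 19]),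
  .x 15 20 (.cyc 15 [11, 10, 2, 0, 1, 4, 5, 3, 14, 13, 20]),
  .x 16 19 (.cyc 16 [11, 10, 2, 0, 1, 4, 5, 3, 14, 13, 19]),
  .x 16 20 (.cyc 16 [11, 10, 2, 0, 1, 4, 5, 3, 14, 13, 20]),
  .new 3,
  .x 0 21 (.cyc 0 [1, 4, 5, 2, 10, 11, 12, 13, 14, 3, 21]),
  .x 7 21 (.cyc 7 [6, 0, 1, 2, 10, 11, 12, 13, 14, 3, 21]),
  .x 9 21 (.cyc 9 [1, 0, 4, 2, 10, 11, 12, 13, 14, 3, 21]),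
  .x 10 21 (.cyc 10 [2, 0, 6, 7, 8, 9, 1, 4, 5, 3, 21]),
  .x 12 21 (.cyc 12 [11, 10, 2, 0, 6, 7, 8, 9, 1, 3, 21]),
  .x 14 21 (.cyc 14 [13, 12, 11, 10, 2, 0, 1, 4, 5, 3, 21]),
  .x 15 21 (.cyc 15 [11, 10, 2, 0, 6, 7, 8, 9, 1, 3, 21]),
  .x 16 21 (.cyc 16 [11, 10, 2, 0, 6, 7, 8, 9, 1, 3, 21]),
  .x 19 21 (.cyc 19 [13, 12, 11, 10, 2, 0, 1, 4, 5, 3, 21]),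
  .x 20 21 (.cyc 20 [13, 12, 11, 10, 2, 0, 1, 4, 5, 3, 21]),
  .new 2,
  .x 0 22 (.cyc 0 [1, 4, 5, 3, 14, 13, 12, 11, 10, 2, 22]),
  .x 7 22 (.cyc 7 [6, 0, 1, 3, 14, 13, 12, 11, 10, 2, 22]),
  .x 9 22 (.cyc 9 [1, 0, 4, 3, 14, 13, 12, 11, 10, 2, 22]),
  .x 10 22 (.cyc 10 [11, 12, 13, 14, 3, 0, 1, 4, 5, 2, 22]),
  .x 12 22 (.cyc 12 [13, 14, 3, 0, 6, 7, 8, 9, 1, 2, 22]),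
  .x 14 22 (.cyc 14 [3, 0, 6, 7, 8, 9, 1, 4, 5, 2, 22]),
  .x 15 22 (.cyc 15 [11, 12, 13, 14, 3, 0, 1, 4, 5, 2, 22]),
  .x 16 22 (.cyc 16 [11, 12, 13, 14, 3, 0, 1, 4, 5, 2, 22]),
  .x 19 22 (.cyc 19 [13, 14, 3, 0, 6, 7, 8, 9, 1, 2, 22]),
  .x 20 22 (.cyc 20 [13, 14, 3, 0, 6, 7, 8, 9, 1, 2, 22]),
  .x 21 22 (.cyc 21 [3, 0, 6, 7, 8, 9, 1, 4, 5, 2, 22])]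
 (.ind [0, 7, 9, 10, 12, 14, 15, 16, 19, 20, 21, 22])

def t_11_6_1 : Tm := ⟨13, [(0, 1), (0, 2), (0, 3), (0, 4), (0, 5), (1, 2), (1, 3), (1, 4), (1, 5), (2, 3), (2, 4), (2, 5), (3, 4), (3, 5), (4, 5), (0, 6), (6, 7), (7, 1), (2, 8), (8, 9), (9, 3), (4, 10), (10, 11), (11, 12), (12, 5)]⟩

def f_11_6_1 : Pf :=
 .seq [
  .x 0 7 (.cyc 0 [2, 8, 9, 3, 4, 10, 11, 12, 5, 1, 7]),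
  .x 0 8 (.cyc 0 [6, 7, 1, 3, 4, 10, 11, 12, 5, 2, 8]),
  .x 0 9 (.cyc 0 [6, 7, 1, 2, 4, 10, 11, 12, 5, 3, 9]),
  .x 0 10 (.cyc 0 [6, 7, 1, 2, 8, 9, 3, 5, 12, 11, 10]),
  .x 0 11 (.cyc 0 [6, 7, 1, 2, 8, 9, 3, 4, 5, 12, 11]),
  .x 0 12 (.cyc 0 [6, 7, 1, 2, 8, 9, 3, 4, 10, 11, 12]),
  .x 1 8 (.cyc 1 [7, 6, 0, 3, 4, 10, 11, 12, 5, 2, 8]),
  .x 1 10 (.cyc 1 [7, 6, 0, 2, 8, 9, 3, 5, 12, 11, 10]),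
  .x 1 11 (.cyc 1 [7, 6, 0, 2, 8, 9, 3, 4, 5, 12, 11]),
  .x 1 12 (.cyc 1 [7, 6, 0, 2, 8, 9, 3, 4, 10, 11, 12]),
  .x 2 6 (.cyc 2 [8, 9, 3, 1, 4, 10, 11, 12, 5, 0, 6]),
  .x 2 10 (.cyc 2 [8, 9, 3, 0, 6, 7, 1, 5, 12, 11, 10]),
  .x 2 11 (.cyc 2 [8, 9, 3, 0, 6, 7, 1, 4, 5, 12, 11]),
  .x 2 12 (.cyc 2 [8, 9, 3, 0, 6, 7, 1, 4, 10, 11, 12]),
  .x 3 8 (.cyc 3 [0, 6, 7, 1, 4, 10, 11, 12, 5, 2, 8]),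
  .x 3 10 (.cyc 3 [9, 8, 2, 0, 6, 7, 1, 5, 12, 11, 10]),
  .x 3 11 (.cyc 3 [9, 8, 2, 0, 6, 7, 1, 4, 5, 12, 11]),
  .x 3 12 (.cyc 3 [9, 8, 2, 0, 6, 7, 1, 4, 10, 11, 12]),
  .x 4 8 (.cyc 4 [10, 11, 12, 5, 0, 6, 7, 1, 3, 2, 8]),
  .x 4 11 (.cyc 4 [0, 6, 7, 1, 2, 8, 9, 3, 5, 12, 11]),
  .x 5 8 (.cyc 5 [12, 11, 10, 4, 0, 6, 7, 1, 3, 2, 8]),
  .x 5 11 (.cyc 5 [0, 6, 7, 1, 2, 8, 9, 3, 4, 10, 11]),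
  .x 6 8 (.cyc 6 [0, 1, 2, 4, 10, 11, 12, 5, 3, 9, 8]),
  .x 6 10 (.cyc 6 [0, 1, 2, 8, 9, 3, 4, 5, 12, 11, 10]),
  .x 6 11 (.cyc 6 [7, 1, 0, 2, 8, 9, 3, 4, 5, 12, 11]),
  .x 6 12 (.cyc 6 [0, 1, 2, 8, 9, 3, 5, 4, 10, 11, 12]),
  .x 7 8 (.cyc 7 [1, 0, 2, 4, 10, 11, 12, 5, 3, 9, 8]),
  .x 7 9 (.cyc 7 [1, 0, 3, 4, 10, 11, 12, 5, 2, 8, 9]),
  .x 7 10 (.cyc 7 [1, 0, 2, 8, 9, 3, 4, 5, 12, 11, 10]),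
  .x 7 11 (.cyc 7 [6, 0, 1, 2, 8, 9, 3, 4, 5, 12, 11]),
  .x 7 12 (.cyc 7 [1, 0, 2, 8, 9, 3, 5, 4, 10, 11, 12]),
  .x 8 10 (.cyc 8 [2, 0, 6, 7, 1, 3, 4, 5, 12, 11, 10]),
  .x 8 11 (.cyc 8 [9, 3, 0, 6, 7, 1, 2, 4, 5, 12, 11]),
  .x 8 12 (.cyc 8 [2, 0, 6, 7, 1, 3, 5, 4, 10, 11, 12]),
  .x 9 10 (.cyc 9 [3, 0, 6, 7, 1, 2, 4, 5, 12, 11, 10]),
  .x 9 11 (.cyc 9 [8, 2, 0, 6, 7, 1, 3, 4, 5, 12, 11]),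
  .x 9 12 (.cyc 9 [3, 0, 6, 7, 1, 2, 5, 4, 10, 11, 12]),
  .x 10 12 (.cyc 10 [4, 0, 6, 7, 1, 2, 8, 9, 3, 5, 12]),
  .new 0,
  .x 10 13 (.cyc 10 [4, 2, 8, 9, 3, 5, 1, 7, 6, 0, 13]),
  .x 11 13 (.cyc 11 [10, 4, 2, 8, 9, 3, 1, 7, 6, 0, 13]),
  .x 12 13 (.cyc 12 [5, 2, 8, 9, 3, 4, 1, 7, 6, 0, 13]),
  .new 3,
  .x 0 14 (.cyc 0 [1, 4, 10, 11, 12, 5, 2, 8, 9, 3, 14]),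
  .x 7 14 (.cyc 7 [1, 4, 10, 11, 12, 5, 2, 8, 9, 3, 14]),
  .x 9 14 (.cyc 9 [8, 2, 0, 1, 4, 10, 11, 12, 5, 3, 14]),
  .x 10 14 (.cyc 10 [4, 0, 6, 7, 1, 5, 2, 8, 9, 3, 14]),
  .x 11 14 (.cyc 11 [10, 4, 0, 6, 7, 1, 2, 8, 9, 3, 14]),
  .x 12 14 (.cyc 12 [5, 0, 6, 7, 1, 4, 2, 8, 9, 3, 14]),
  .new 2,
  .x 10 15 (.cyc 10 [4, 0, 6, 7, 1, 5, 3, 9, 8, 2, 15]),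
  .x 12 15 (.cyc 12 [5, 0, 6, 7, 1, 4, 3, 9, 8, 2, 15]),
  .new2 8,
  .x 0 16 (.cyc 0 [1, 2, 4, 10, 11, 12, 5, 3, 9, 8, 16]),
  .x 0 17 (.cyc 0 [1, 2, 4, 10, 11, 12, 5, 3, 9, 8, 17]),
  .x 7 16 (.cyc 7 [1, 0, 3, 4, 10, 11, 12, 5, 2, 8, 16]),
  .x 7 17 (.cyc 7 [1, 0, 3, 4, 10, 11, 12, 5, 2, 8, 17]),
  .x 9 16 (.cyc 9 [3, 0, 1, 4, 10, 11, 12, 5, 2, 8, 16]),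
  .x 9 17 (.cyc 9 [3, 0, 1, 4, 10, 11, 12, 5, 2, 8, 17]),
  .x 10 16 (.cyc 10 [4, 0, 6, 7, 1, 2, 5, 3, 9, 8, 16]),
  .x 10 17 (.cyc 10 [4, 0, 6, 7, 1, 2, 5, 3, 9, 8, 17]),
  .x 12 16 (.cyc 12 [5, 0, 6, 7, 1, 2, 4, 3, 9, 8, 16]),
  .x 12 17 (.cyc 12 [5, 0, 6, 7, 1, 2, 4, 3, 9, 8, 17]),
  .x 14 16 (.cyc 14 [3, 0, 1, 4, 10, 11, 12, 5, 2, 8, 16]),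
  .x 14 17 (.cyc 14 [3, 0, 1, 4, 10, 11, 12, 5, 2, 8, 17]),
  .new2 11,
  .x 0 18 (.cyc 0 [6, 7, 1, 2, 8, 9, 3, 4, 10, 11, 18]),
  .x 0 19 (.cyc 0 [6, 7, 1, 2, 8, 9, 3, 4, 10, 11, 19]),
  .x 7 18 (.cyc 7 [1, 0, 2, 8, 9, 3, 4, 5, 12, 11, 18]),
  .x 7 19 (.cyc 7 [1, 0, 2, 8, 9, 3, 4, 5, 12, 11, 19]),
  .x 9 18 (.cyc 9 [3, 0, 6, 7, 1, 2, 4, 5, 12, 11, 18]),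
  .x 9 19 (.cyc 9 [3, 0, 6, 7, 1, 2, 4, 5, 12, 11, 19]),
  .x 12 18 (.cyc 12 [5, 0, 1, 2, 8, 9, 3, 4, 10, 11, 18]),
  .x 12 19 (.cyc 12 [5, 0, 1, 2, 8, 9, 3, 4, 10, 11, 19]),
  .x 14 18 (.cyc 14 [3, 0, 6, 7, 1, 2, 4, 5, 12, 11, 18]),
  .x 14 19 (.cyc 14 [3, 0, 6, 7, 1, 2, 4, 5, 12, 11, 19]),
  .x 16 18 (.cyc 16 [8, 2, 0, 6, 7, 1, 3, 4, 10, 11, 18]),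
  .x 16 19 (.cyc 16 [8, 2, 0, 6, 7, 1, 3, 4, 10, 11, 19]),
  .x 17 18 (.cyc 17 [8, 2, 0, 6, 7, 1, 3, 4, 10, 11, 18]),
  .x 17 19 (.cyc 17 [8, 2, 0, 6, 7, 1, 3, 4, 10, 11, 19]),
  .new2 10,
  .x 0 20 (.cyc 0 [1, 2, 8, 9, 3, 4, 5, 12, 11, 10, 20]),
  .x 0 21 (.cyc 0 [1, 2, 8, 9, 3, 4, 5, 12, 11, 10, 21]),
  .x 7 20 (.cyc 7 [1, 0, 2, 8, 9, 3, 5, 12, 11, 10, 20]),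
  .x 7 21 (.cyc 7 [1, 0, 2, 8, 9, 3, 5, 12, 11, 10, 21]),
  .x 9 20 (.cyc 9 [3, 0, 6, 7, 1, 2, 5, 12, 11, 10, 20]),
  .x 9 21 (.cyc 9 [3, 0, 6, 7, 1, 2, 5, 12, 11, 10, 21]),
  .x 14 20 (.cyc 14 [3, 0, 6, 7, 1, 2, 5, 12, 11, 10, 20]),
  .x 14 21 (.cyc 14 [3, 0, 6, 7, 1, 2, 5, 12, 11, 10, 21]),
  .x 16 20 (.cyc 16 [8, 2, 0, 1, 3, 4, 5, 12, 11, 10, 20]),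
  .x 16 21 (.cyc 16 [8, 2, 0, 1, 3, 4, 5, 12, 11, 10, 21]),
  .x 17 20 (.cyc 17 [8, 2, 0, 1, 3, 4, 5, 12, 11, 10, 20]),
  .x 17 21 (.cyc 17 [8, 2, 0, 1, 3, 4, 5, 12, 11, 10, 21]),
  .x 18 20 (.cyc 18 [11, 12, 5, 0, 2, 8, 9, 3, 4, 10, 20]),
  .x 18 21 (.cyc 18 [11, 12, 5, 0, 2, 8, 9, 3, 4, 10, 21]),
  .x 19 20 (.cyc 19 [11, 12, 5, 0, 2, 8, 9, 3, 4, 10, 20]),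
  .x 19 21 (.cyc 19 [11, 12, 5, 0, 2, 8, 9, 3, 4, 10, 21]),
  .new2 12,
  .x 0 22 (.cyc 0 [1, 2, 8, 9, 3, 5, 4, 10, 11, 12, 22]),
  .x 0 23 (.cyc 0 [1, 2, 8, 9, 3, 5, 4, 10, 11, 12, 23]),
  .x 7 22 (.cyc 7 [1, 0, 2, 8, 9, 3, 4, 10, 11, 12, 22]),
  .x 7 23 (.cyc 7 [1, 0, 2, 8, 9, 3, 4, 10, 11, 12, 23]),
  .x 9 22 (.cyc 9 [3, 0, 6, 7, 1, 2, 4, 10, 11, 12, 22]),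
  .x 9 23 (.cyc 9 [3, 0, 6, 7, 1, 2, 4, 10, 11, 12, 23]),
  .x 14 22 (.cyc 14 [3, 0, 6, 7, 1, 2, 4, 10, 11, 12, 22]),
  .x 14 23 (.cyc 14 [3, 0, 6, 7, 1, 2, 4, 10, 11, 12, 23]),
  .x 16 22 (.cyc 16 [8, 2, 0, 1, 3, 5, 4, 10, 11, 12, 22]),
  .x 16 23 (.cyc 16 [8, 2, 0, 1, 3, 5, 4, 10, 11, 12, 23]),
  .x 17 22 (.cyc 17 [8, 2, 0, 1, 3, 5, 4, 10, 11, 12, 22]),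
  .x 17 23 (.cyc 17 [8, 2, 0, 1, 3, 5, 4, 10, 11, 12, 23]),
  .x 18 22 (.cyc 18 [11, 10, 4, 0, 2, 8, 9, 3, 5, 12, 22]),
  .x 18 23 (.cyc 18 [11, 10, 4, 0, 2, 8, 9, 3, 5, 12, 23]),
  .x 19 22 (.cyc 19 [11, 10, 4, 0, 2, 8, 9, 3, 5, 12, 22]),
  .x 19 23 (.cyc 19 [11, 10, 4, 0, 2, 8, 9, 3, 5, 12, 23]),
  .x 20 22 (.cyc 20 [10, 4, 0, 1, 2, 8, 9, 3, 5, 12, 22]),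
  .x 20 23 (.cyc 20 [10, 4, 0, 1, 2, 8, 9, 3, 5, 12, 23]),
  .x 21 22 (.cyc 21 [10, 4, 0, 1, 2, 8, 9, 3, 5, 12, 22]),
  .x 21 23 (.cyc 21 [10, 4, 0, 1, 2, 8, 9, 3, 5, 12, 23])]
 (.ind [0, 7, 9, 14, 16, 17, 18, 19, 20, 21, 22, 23])

def d_11_6 : List (Tm × Pf) := [(t_11_6_0, f_11_6_0), (t_11_6_1, f_11_6_1)]

theorem k_11_6 : killAll 11 6 d_11_6 [] = true := by decide +kernel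

def t_13_7_0 : Tm := ⟨16, [(0, 1), (0, 2), (0, 3), (0, 4), (0, 5), (0, 6), (1, 2), (1, 3), (1, 4), (1, 5), (1, 6), (2, 3), (2, 4), (2, 5), (2, 6), (3, 4), (3, 5), (3, 6), (4, 5), (4, 6), (5, 6), (0, 7), (7, 8), (8, 9), (9, 1), (2, 10), (10, 11), (11, 12), (12, 3), (4, 13), (13, 14), (14, 15), (15, 5)]⟩

def f_13_7_0 : Pf :=
 .seq [
  .x 0 8 (.cyc 0 [2, 10, 11, 12, 3, 4, 13, 14, 15, 5, 1, 9, 8]),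
  .x 0 10 (.cyc 0 [7, 8, 9, 1, 3, 4, 13, 14, 15, 5, 6, 2, 10]),
  .x 0 12 (.cyc 0 [7, 8, 9, 1, 2, 4, 13, 14, 15, 5, 6, 3, 12]),
  .x 1 7 (.cyc 1 [2, 10, 11, 12, 3, 4, 13, 14, 15, 5, 6, 0, 7]),
  .x 1 8 (.cyc 1 [2, 10, 11, 12, 3, 4, 13, 14, 15, 5, 0, 7, 8]),
  .x 1 10 (.cyc 1 [9, 8, 7, 0, 3, 4, 13, 14, 15, 5, 6, 2, 10]),
  .x 1 11 (.cyc 1 [9, 8, 7, 0, 2, 4, 13, 14, 15, 5, 3, 12, 11]),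
  .x 1 12 (.cyc 1 [9, 8, 7, 0, 2, 4, 13, 14, 15, 5, 6, 3, 12]),
  .x 1 13 (.cyc 1 [9, 8, 7, 0, 2, 10, 11, 12, 3, 5, 6, 4, 13]),
  .x 1 14 (.cyc 1 [9, 8, 7, 0, 2, 10, 11, 12, 3, 4, 5, 15, 14]),
  .x 1 15 (.cyc 1 [9, 8, 7, 0, 2, 10, 11, 12, 3, 4, 6, 5, 15]),
  .x 2 7 (.cyc 2 [10, 11, 12, 3, 1, 4, 13, 14, 15, 5, 6, 0, 7]),
  .x 2 8 (.cyc 2 [10, 11, 12, 3, 0, 4, 13, 14, 15, 5, 1, 9, 8]),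
  .x 2 9 (.cyc 2 [10, 11, 12, 3, 0, 4, 13, 14, 15, 5, 6, 1, 9]),
  .x 2 11 (.cyc 2 [0, 7, 8, 9, 1, 4, 13, 14, 15, 5, 3, 12, 11]),
  .x 2 12 (.cyc 2 [0, 7, 8, 9, 1, 4, 13, 14, 15, 5, 6, 3, 12]),
  .x 2 13 (.cyc 2 [10, 11, 12, 3, 0, 7, 8, 9, 1, 5, 6, 4, 13]),
  .x 2 15 (.cyc 2 [10, 11, 12, 3, 0, 7, 8, 9, 1, 4, 6, 5, 15]),
  .x 3 8 (.cyc 3 [12, 11, 10, 2, 0, 4, 13, 14, 15, 5, 1, 9, 8]),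
  .x 3 10 (.cyc 3 [0, 7, 8, 9, 1, 4, 13, 14, 15, 5, 6, 2, 10]),
  .x 4 8 (.cyc 4 [13, 14, 15, 5, 0, 2, 10, 11, 12, 3, 1, 9, 8]),
  .x 4 10 (.cyc 4 [13, 14, 15, 5, 0, 7, 8, 9, 1, 3, 6, 2, 10]),
  .x 4 12 (.cyc 4 [13, 14, 15, 5, 0, 7, 8, 9, 1, 2, 6, 3, 12]),
  .x 5 7 (.cyc 5 [15, 14, 13, 4, 1, 2, 10, 11, 12, 3, 6, 0, 7]),
  .x 5 8 (.cyc 5 [15, 14, 13, 4, 0, 2, 10, 11, 12, 3, 1, 9, 8]),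
  .x 5 9 (.cyc 5 [15, 14, 13, 4, 0, 2, 10, 11, 12, 3, 6, 1, 9]),
  .x 5 10 (.cyc 5 [15, 14, 13, 4, 0, 7, 8, 9, 1, 3, 6, 2, 10]),
  .x 5 11 (.cyc 5 [15, 14, 13, 4, 0, 7, 8, 9, 1, 2, 3, 12, 11]),
  .x 5 12 (.cyc 5 [15, 14, 13, 4, 0, 7, 8, 9, 1, 2, 6, 3, 12]),
  .x 5 13 (.cyc 5 [0, 7, 8, 9, 1, 2, 10, 11, 12, 3, 6, 4, 13]),
  .x 5 14 (.cyc 5 [0, 7, 8, 9, 1, 2, 10, 11, 12, 3, 4, 13, 14]),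
  .x 6 8 (.cyc 6 [2, 10, 11, 12, 3, 4, 13, 14, 15, 5, 0, 7, 8]),
  .x 6 10 (.cyc 6 [0, 7, 8, 9, 1, 3, 4, 13, 14, 15, 5, 2, 10]),
  .x 6 12 (.cyc 6 [0, 7, 8, 9, 1, 2, 4, 13, 14, 15, 5, 3, 12]),
  .x 7 9 (.cyc 7 [0, 2, 10, 11, 12, 3, 4, 13, 14, 15, 5, 1, 9]),
  .x 7 10 (.cyc 7 [0, 1, 2, 4, 13, 14, 15, 5, 6, 3, 12, 11, 10]),
  .x 7 11 (.cyc 7 [8, 9, 1, 0, 2, 4, 13, 14, 15, 5, 3, 12, 11]),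
  .x 7 12 (.cyc 7 [0, 1, 3, 4, 13, 14, 15, 5, 6, 2, 10, 11, 12]),
  .x 7 13 (.cyc 7 [0, 1, 2, 10, 11, 12, 3, 4, 6, 5, 15, 14, 13]),
  .x 7 15 (.cyc 7 [0, 1, 2, 10, 11, 12, 3, 5, 6, 4, 13, 14, 15]),
  .x 8 10 (.cyc 8 [7, 0, 1, 2, 4, 13, 14, 15, 5, 3, 12, 11, 10]),
  .x 8 11 (.cyc 8 [7, 0, 1, 2, 4, 13, 14, 15, 5, 6, 3, 12, 11]),
  .x 8 12 (.cyc 8 [7, 0, 1, 3, 4, 13, 14, 15, 5, 2, 10, 11, 12]),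
  .x 8 13 (.cyc 8 [7, 0, 1, 2, 10, 11, 12, 3, 4, 5, 15, 14, 13]),
  .x 9 11 (.cyc 9 [8, 7, 0, 1, 2, 4, 13, 14, 15, 5, 3, 12, 11]),
  .x 9 12 (.cyc 9 [1, 0, 3, 4, 13, 14, 15, 5, 6, 2, 10, 11, 12]),
  .x 9 13 (.cyc 9 [1, 0, 2, 10, 11, 12, 3, 4, 6, 5, 15, 14, 13]),
  .x 9 15 (.cyc 9 [1, 0, 2, 10, 11, 12, 3, 5, 6, 4, 13, 14, 15]),
  .x 10 12 (.cyc 10 [2, 0, 7, 8, 9, 1, 4, 13, 14, 15, 5, 3, 12]),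
  .x 11 13 (.cyc 11 [10, 2, 0, 7, 8, 9, 1, 3, 4, 5, 15, 14, 13]),
  .x 11 15 (.cyc 11 [10, 2, 0, 7, 8, 9, 1, 3, 5, 4, 13, 14, 15]),
  .x 12 13 (.cyc 12 [3, 0, 7, 8, 9, 1, 2, 4, 6, 5, 15, 14, 13]),
  .x 12 14 (.cyc 12 [11, 10, 2, 0, 7, 8, 9, 1, 3, 4, 5, 15, 14]),
  .x 12 15 (.cyc 12 [3, 0, 7, 8, 9, 1, 2, 5, 6, 4, 13, 14, 15]),
  .x 13 15 (.cyc 13 [4, 0, 7, 8, 9, 1, 2, 10, 11, 12, 3, 5, 15]),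
  .new2 10,
  .x 1 16 (.cyc 1 [0, 2, 4, 13, 14, 15, 5, 6, 3, 12, 11, 10, 16]),
  .x 1 17 (.cyc 1 [0, 2, 4, 13, 14, 15, 5, 6, 3, 12, 11, 10, 17]),
  .x 2 16 (.cyc 2 [0, 1, 4, 13, 14, 15, 5, 6, 3, 12, 11, 10, 16]),
  .x 2 17 (.cyc 2 [0, 1, 4, 13, 14, 15, 5, 6, 3, 12, 11, 10, 17]),
  .x 5 16 (.cyc 5 [0, 7, 8, 9, 1, 2, 4, 6, 3, 12, 11, 10, 16]),
  .x 7 16 (.cyc 7 [0, 1, 2, 4, 13, 14, 15, 5, 3, 12, 11, 10, 16]),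
  .x 7 17 (.cyc 7 [0, 1, 2, 4, 13, 14, 15, 5, 3, 12, 11, 10, 17]),
  .x 9 16 (.cyc 9 [1, 0, 2, 4, 13, 14, 15, 5, 3, 12, 11, 10, 16]),
  .x 9 17 (.cyc 9 [1, 0, 2, 4, 13, 14, 15, 5, 3, 12, 11, 10, 17]),
  .x 11 16 (.cyc 11 [12, 3, 0, 1, 4, 13, 14, 15, 5, 6, 2, 10, 16]),
  .x 11 17 (.cyc 11 [12, 3, 0, 1, 4, 13, 14, 15, 5, 6, 2, 10, 17]),
  .x 13 16 (.cyc 13 [4, 0, 7, 8, 9, 1, 2, 5, 3, 12, 11, 10, 16]),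
  .x 13 17 (.cyc 13 [4, 0, 7, 8, 9, 1, 2, 5, 3, 12, 11, 10, 17]),
  .x 15 16 (.cyc 15 [5, 0, 7, 8, 9, 1, 2, 4, 3, 12, 11, 10, 16]),
  .x 15 17 (.cyc 15 [5, 0, 7, 8, 9, 1, 2, 4, 3, 12, 11, 10, 17]),
  .new2 8,
  .x 2 18 (.cyc 2 [10, 11, 12, 3, 4, 13, 14, 15, 5, 0, 7, 8, 18]),
  .x 2 19 (.cyc 2 [10, 11, 12, 3, 4, 13, 14, 15, 5, 0, 7, 8, 19]),
  .x 7 18 (.cyc 7 [0, 2, 3, 4, 13, 14, 15, 5, 6, 1, 9, 8, 18]),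
  .x 7 19 (.cyc 7 [0, 2, 3, 4, 13, 14, 15, 5, 6, 1, 9, 8, 19]),
  .x 9 18 (.cyc 9 [1, 2, 3, 4, 13, 14, 15, 5, 6, 0, 7, 8, 18]),
  .x 9 19 (.cyc 9 [1, 2, 3, 4, 13, 14, 15, 5, 6, 0, 7, 8, 19]),
  .x 11 18 (.cyc 11 [10, 2, 0, 3, 4, 13, 14, 15, 5, 1, 9, 8, 18]),
  .x 11 19 (.cyc 11 [10, 2, 0, 3, 4, 13, 14, 15, 5, 1, 9, 8, 19]),
  .x 13 18 (.cyc 13 [4, 0, 2, 10, 11, 12, 3, 5, 6, 1, 9, 8, 18]),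
  .x 13 19 (.cyc 13 [4, 0, 2, 10, 11, 12, 3, 5, 6, 1, 9, 8, 19]),
  .x 15 18 (.cyc 15 [5, 0, 2, 10, 11, 12, 3, 4, 6, 1, 9, 8, 18]),
  .x 15 19 (.cyc 15 [5, 0, 2, 10, 11, 12, 3, 4, 6, 1, 9, 8, 19]),
  .x 16 18 (.cyc 16 [10, 2, 0, 3, 4, 13, 14, 15, 5, 1, 9, 8, 18]),
  .x 16 19 (.cyc 16 [10, 2, 0, 3, 4, 13, 14, 15, 5, 1, 9, 8, 19]),
  .x 17 18 (.cyc 17 [10, 2, 0, 3, 4, 13, 14, 15, 5, 1, 9, 8, 18]),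
  .x 17 19 (.cyc 17 [10, 2, 0, 3, 4, 13, 14, 15, 5, 1, 9, 8, 19]),
  .new2 12,
  .x 2 20 (.cyc 2 [0, 7, 8, 9, 1, 4, 13, 14, 15, 5, 3, 12, 20]),
  .x 2 21 (.cyc 2 [0, 7, 8, 9, 1, 4, 13, 14, 15, 5, 3, 12, 21]),
  .x 7 20 (.cyc 7 [0, 1, 3, 4, 13, 14, 15, 5, 2, 10, 11, 12, 20]),
  .x 7 21 (.cyc 7 [0, 1, 3, 4, 13, 14, 15, 5, 2, 10, 11, 12, 21]),
  .x 9 20 (.cyc 9 [1, 0, 3, 4, 13, 14, 15, 5, 2, 10, 11, 12, 20]),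
  .x 9 21 (.cyc 9 [1, 0, 3, 4, 13, 14, 15, 5, 2, 10, 11, 12, 21]),
  .x 11 20 (.cyc 11 [10, 2, 0, 1, 4, 13, 14, 15, 5, 6, 3, 12, 20]),
  .x 11 21 (.cyc 11 [10, 2, 0, 1, 4, 13, 14, 15, 5, 6, 3, 12, 21]),
  .x 13 20 (.cyc 13 [4, 0, 7, 8, 9, 1, 3, 5, 2, 10, 11, 12, 20]),
  .x 13 21 (.cyc 13 [4, 0, 7, 8, 9, 1, 3, 5, 2, 10, 11, 12, 21]),
  .x 15 20 (.cyc 15 [5, 0, 7, 8, 9, 1, 3, 4, 2, 10, 11, 12, 20]),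
  .x 15 21 (.cyc 15 [5, 0, 7, 8, 9, 1, 3, 4, 2, 10, 11, 12, 21]),
  .x 16 20 (.cyc 16 [10, 2, 0, 1, 4, 13, 14, 15, 5, 6, 3, 12, 20]),
  .x 16 21 (.cyc 16 [10, 2, 0, 1, 4, 13, 14, 15, 5, 6, 3, 12, 21]),
  .x 17 20 (.cyc 17 [10, 2, 0, 1, 4, 13, 14, 15, 5, 6, 3, 12, 20]),
  .x 17 21 (.cyc 17 [10, 2, 0, 1, 4, 13, 14, 15, 5, 6, 3, 12, 21]),
  .x 18 20 (.cyc 18 [8, 7, 0, 1, 2, 4, 13, 14, 15, 5, 3, 12, 20]),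
  .x 18 21 (.cyc 18 [8, 7, 0, 1, 2, 4, 13, 14, 15, 5, 3, 12, 21]),
  .x 19 20 (.cyc 19 [8, 7, 0, 1, 2, 4, 13, 14, 15, 5, 3, 12, 20]),
  .x 19 21 (.cyc 19 [8, 7, 0, 1, 2, 4, 13, 14, 15, 5, 3, 12, 21]),
  .new 5,
  .x 2 22 (.cyc 2 [0, 7, 8, 9, 1, 3, 6, 4, 13, 14, 15, 5, 22]),
  .x 7 22 (.cyc 7 [0, 1, 2, 10, 11, 12, 3, 4, 13, 14, 15, 5, 22]),
  .x 9 22 (.cyc 9 [1, 0, 2, 10, 11, 12, 3, 4, 13, 14, 15, 5, 22]),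
  .x 11 22 (.cyc 11 [10, 2, 0, 7, 8, 9, 1, 4, 13, 14, 15, 5, 22]),
  .x 13 22 (.cyc 13 [4, 0, 7, 8, 9, 1, 2, 10, 11, 12, 3, 5, 22]),
  .x 15 22 (.cyc 15 [14, 13, 4, 0, 1, 2, 10, 11, 12, 3, 6, 5, 22]),
  .x 16 22 (.cyc 16 [10, 2, 0, 7, 8, 9, 1, 4, 13, 14, 15, 5, 22]),
  .x 17 22 (.cyc 17 [10, 2, 0, 7, 8, 9, 1, 4, 13, 14, 15, 5, 22]),
  .x 18 22 (.cyc 18 [8, 7, 0, 1, 2, 3, 6, 4, 13, 14, 15, 5, 22]),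
  .x 19 22 (.cyc 19 [8, 7, 0, 1, 2, 3, 6, 4, 13, 14, 15, 5, 22]),
  .x 20 22 (.cyc 20 [12, 3, 0, 7, 8, 9, 1, 4, 13, 14, 15, 5, 22]),
  .x 21 22 (.cyc 21 [12, 3, 0, 7, 8, 9, 1, 4, 13, 14, 15, 5, 22]),
  .new 1,
  .x 2 23 (.cyc 2 [3, 4, 13, 14, 15, 5, 6, 0, 7, 8, 9, 1, 23]),
  .x 7 23 (.cyc 7 [0, 2, 10, 11, 12, 3, 4, 13, 14, 15, 5, 1, 23]),
  .x 9 23 (.cyc 9 [8, 7, 0, 2, 3, 4, 13, 14, 15, 5, 6, 1, 23]),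
  .x 11 23 (.cyc 11 [10, 2, 4, 13, 14, 15, 5, 0, 7, 8, 9, 1, 23]),
  .x 13 23 (.cyc 13 [4, 2, 10, 11, 12, 3, 5, 0, 7, 8, 9, 1, 23]),
  .x 15 23 (.cyc 15 [5, 2, 10, 11, 12, 3, 4, 0, 7, 8, 9, 1, 23]),
  .x 16 23 (.cyc 16 [10, 2, 4, 13, 14, 15, 5, 0, 7, 8, 9, 1, 23]),
  .x 17 23 (.cyc 17 [10, 2, 4, 13, 14, 15, 5, 0, 7, 8, 9, 1, 23]),
  .x 18 23 (.cyc 18 [8, 7, 0, 2, 3, 4, 13, 14, 15, 5, 6, 1, 23]),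
  .x 19 23 (.cyc 19 [8, 7, 0, 2, 3, 4, 13, 14, 15, 5, 6, 1, 23]),
  .x 20 23 (.cyc 20 [12, 3, 4, 13, 14, 15, 5, 0, 7, 8, 9, 1, 23]),
  .x 21 23 (.cyc 21 [12, 3, 4, 13, 14, 15, 5, 0, 7, 8, 9, 1, 23]),
  .x 22 23 (.cyc 22 [5, 2, 10, 11, 12, 3, 4, 0, 7, 8, 9, 1, 23])]
 (.ind [2, 7, 9, 11, 13, 15, 16, 17, 18, 19, 20, 21, 22, 23])

def t_13_7_1 : Tm := ⟨15, [(0, 1), (0, 2), (0, 3), (0, 4), (0, 5), (0, 6), (1, 2), (1, 3), (1, 4), (1, 5), (1, 6), (2, 3), (2, 4), (2, 5), (2, 6), (3, 4), (3, 5), (3, 6), (4, 5), (4, 6), (5, 6), (0, 7), (7, 8), (8, 1), (2, 9), (9, 10), (10, 3), (4, 11), (11, 12), (12, 5), (5, 13), (13, 14), (14, 6)]⟩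

def f_13_7_1 : Pf :=
 .seq [
  .x 0 8 (.cyc 0 [2, 9, 10, 3, 4, 11, 12, 5, 13, 14, 6, 1, 8]),
  .x 0 9 (.cyc 0 [7, 8, 1, 3, 4, 11, 12, 5, 13, 14, 6, 2, 9]),
  .x 0 10 (.cyc 0 [7, 8, 1, 2, 4, 11, 12, 5, 13, 14, 6, 3, 10]),
  .x 0 11 (.cyc 0 [7, 8, 1, 2, 9, 10, 3, 5, 13, 14, 6, 4, 11]),
  .x 0 12 (.cyc 0 [7, 8, 1, 2, 9, 10, 3, 4, 6, 14, 13, 5, 12]),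
  .x 0 13 (.cyc 0 [7, 8, 1, 2, 9, 10, 3, 6, 4, 11, 12, 5, 13]),
  .x 0 14 (.cyc 0 [7, 8, 1, 2, 9, 10, 3, 4, 11, 12, 5, 6, 14]),
  .x 1 7 (.cyc 1 [2, 9, 10, 3, 4, 11, 12, 5, 13, 14, 6, 0, 7]),
  .x 1 9 (.cyc 1 [8, 7, 0, 3, 4, 11, 12, 5, 13, 14, 6, 2, 9]),
  .x 1 11 (.cyc 1 [8, 7, 0, 2, 9, 10, 3, 5, 13, 14, 6, 4, 11]),
  .x 1 14 (.cyc 1 [8, 7, 0, 2, 9, 10, 3, 4, 11, 12, 5, 6, 14]),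
  .x 2 7 (.cyc 2 [9, 10, 3, 1, 4, 11, 12, 5, 13, 14, 6, 0, 7]),
  .x 2 8 (.cyc 2 [9, 10, 3, 0, 4, 11, 12, 5, 13, 14, 6, 1, 8]),
  .x 2 10 (.cyc 2 [0, 7, 8, 1, 4, 11, 12, 5, 13, 14, 6, 3, 10]),
  .x 2 11 (.cyc 2 [9, 10, 3, 0, 7, 8, 1, 5, 13, 14, 6, 4, 11]),
  .x 2 12 (.cyc 2 [9, 10, 3, 0, 7, 8, 1, 4, 6, 14, 13, 5, 12]),
  .x 2 13 (.cyc 2 [9, 10, 3, 0, 7, 8, 1, 6, 4, 11, 12, 5, 13]),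
  .x 2 14 (.cyc 2 [9, 10, 3, 0, 7, 8, 1, 4, 11, 12, 5, 6, 14]),
  .x 3 7 (.cyc 3 [10, 9, 2, 1, 4, 11, 12, 5, 13, 14, 6, 0, 7]),
  .x 3 9 (.cyc 3 [0, 7, 8, 1, 4, 11, 12, 5, 13, 14, 6, 2, 9]),
  .x 3 11 (.cyc 3 [10, 9, 2, 0, 7, 8, 1, 5, 13, 14, 6, 4, 11]),
  .x 3 14 (.cyc 3 [10, 9, 2, 0, 7, 8, 1, 4, 11, 12, 5, 6, 14]),
  .x 4 7 (.cyc 4 [11, 12, 5, 13, 14, 6, 1, 2, 9, 10, 3, 0, 7]),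
  .x 4 8 (.cyc 4 [11, 12, 5, 13, 14, 6, 0, 2, 9, 10, 3, 1, 8]),
  .x 4 9 (.cyc 4 [11, 12, 5, 13, 14, 6, 0, 7, 8, 1, 3, 2, 9]),
  .x 4 10 (.cyc 4 [11, 12, 5, 13, 14, 6, 0, 7, 8, 1, 2, 3, 10]),
  .x 4 12 (.cyc 4 [0, 7, 8, 1, 2, 9, 10, 3, 6, 14, 13, 5, 12]),
  .x 4 14 (.cyc 4 [11, 12, 5, 0, 7, 8, 1, 2, 9, 10, 3, 6, 14]),
  .x 5 11 (.cyc 5 [13, 14, 6, 0, 7, 8, 1, 2, 9, 10, 3, 4, 11]),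
  .x 5 14 (.cyc 5 [12, 11, 4, 0, 7, 8, 1, 2, 9, 10, 3, 6, 14]),
  .x 6 7 (.cyc 6 [14, 13, 5, 12, 11, 4, 1, 2, 9, 10, 3, 0, 7]),
  .x 6 9 (.cyc 6 [14, 13, 5, 12, 11, 4, 0, 7, 8, 1, 3, 2, 9]),
  .x 6 11 (.cyc 6 [14, 13, 5, 0, 7, 8, 1, 2, 9, 10, 3, 4, 11]),
  .x 7 9 (.cyc 7 [0, 1, 2, 4, 11, 12, 5, 13, 14, 6, 3, 10, 9]),
  .x 7 10 (.cyc 7 [0, 1, 3, 4, 11, 12, 5, 13, 14, 6, 2, 9, 10]),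
  .x 7 11 (.cyc 7 [0, 1, 2, 9, 10, 3, 4, 6, 14, 13, 5, 12, 11]),
  .x 7 12 (.cyc 7 [0, 1, 2, 9, 10, 3, 5, 13, 14, 6, 4, 11, 12]),
  .x 7 13 (.cyc 7 [0, 1, 2, 9, 10, 3, 4, 11, 12, 5, 6, 14, 13]),
  .x 7 14 (.cyc 7 [0, 1, 2, 9, 10, 3, 6, 4, 11, 12, 5, 13, 14]),
  .x 8 9 (.cyc 8 [1, 0, 2, 4, 11, 12, 5, 13, 14, 6, 3, 10, 9]),
  .x 8 10 (.cyc 8 [1, 0, 3, 4, 11, 12, 5, 13, 14, 6, 2, 9, 10]),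
  .x 8 11 (.cyc 8 [1, 0, 2, 9, 10, 3, 4, 6, 14, 13, 5, 12, 11]),
  .x 8 12 (.cyc 8 [1, 0, 2, 9, 10, 3, 5, 13, 14, 6, 4, 11, 12]),
  .x 8 13 (.cyc 8 [1, 0, 2, 9, 10, 3, 4, 11, 12, 5, 6, 14, 13]),
  .x 8 14 (.cyc 8 [1, 0, 2, 9, 10, 3, 6, 4, 11, 12, 5, 13, 14]),
  .x 9 11 (.cyc 9 [2, 0, 7, 8, 1, 3, 4, 6, 14, 13, 5, 12, 11]),
  .x 9 12 (.cyc 9 [2, 0, 7, 8, 1, 3, 5, 13, 14, 6, 4, 11, 12]),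
  .x 9 13 (.cyc 9 [2, 0, 7, 8, 1, 3, 4, 11, 12, 5, 6, 14, 13]),
  .x 9 14 (.cyc 9 [2, 0, 7, 8, 1, 3, 6, 4, 11, 12, 5, 13, 14]),
  .x 10 11 (.cyc 10 [3, 0, 7, 8, 1, 2, 4, 6, 14, 13, 5, 12, 11]),
  .x 10 12 (.cyc 10 [3, 0, 7, 8, 1, 2, 5, 13, 14, 6, 4, 11, 12]),
  .x 10 13 (.cyc 10 [3, 0, 7, 8, 1, 2, 4, 11, 12, 5, 6, 14, 13]),
  .x 11 13 (.cyc 11 [4, 0, 7, 8, 1, 2, 9, 10, 3, 5, 6, 14, 13]),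
  .x 11 14 (.cyc 11 [4, 0, 7, 8, 1, 2, 9, 10, 3, 6, 5, 13, 14]),
  .x 12 13 (.cyc 12 [5, 0, 7, 8, 1, 2, 9, 10, 3, 4, 6, 14, 13]),
  .new 1,
  .x 0 15 (.cyc 0 [2, 9, 10, 3, 4, 11, 12, 5, 13, 14, 6, 1, 15]),
  .x 2 15 (.cyc 2 [3, 4, 11, 12, 5, 13, 14, 6, 0, 7, 8, 1, 15]),
  .x 4 15 (.cyc 4 [2, 9, 10, 3, 5, 13, 14, 6, 0, 7, 8, 1, 15]),
  .x 8 15 (.cyc 8 [7, 0, 2, 3, 4, 11, 12, 5, 13, 14, 6, 1, 15]),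
  .x 9 15 (.cyc 9 [2, 4, 11, 12, 5, 13, 14, 6, 0, 7, 8, 1, 15]),
  .x 10 15 (.cyc 10 [3, 4, 11, 12, 5, 13, 14, 6, 0, 7, 8, 1, 15]),
  .x 11 15 (.cyc 11 [12, 5, 2, 9, 10, 3, 4, 6, 0, 7, 8, 1, 15]),
  .x 12 15 (.cyc 12 [5, 13, 14, 6, 2, 9, 10, 3, 0, 7, 8, 1, 15]),
  .x 13 15 (.cyc 13 [5, 12, 11, 4, 2, 9, 10, 3, 0, 7, 8, 1, 15]),
  .new 0,
  .x 4 16 (.cyc 4 [2, 9, 10, 3, 5, 13, 14, 6, 1, 8, 7, 0, 16]),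
  .x 7 16 (.cyc 7 [8, 1, 2, 3, 4, 11, 12, 5, 13, 14, 6, 0, 16]),
  .x 11 16 (.cyc 11 [12, 5, 2, 9, 10, 3, 4, 6, 1, 8, 7, 0, 16]),
  .new2 14,
  .x 0 17 (.cyc 0 [1, 2, 9, 10, 3, 6, 4, 11, 12, 5, 13, 14, 17]),
  .x 0 18 (.cyc 0 [1, 2, 9, 10, 3, 6, 4, 11, 12, 5, 13, 14, 18]),
  .x 4 17 (.cyc 4 [0, 7, 8, 1, 2, 9, 10, 3, 6, 5, 13, 14, 17]),
  .x 4 18 (.cyc 4 [0, 7, 8, 1, 2, 9, 10, 3, 6, 5, 13, 14, 18]),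
  .x 7 17 (.cyc 7 [0, 1, 2, 9, 10, 3, 4, 11, 12, 5, 6, 14, 17]),
  .x 7 18 (.cyc 7 [0, 1, 2, 9, 10, 3, 4, 11, 12, 5, 6, 14, 18]),
  .x 8 17 (.cyc 8 [1, 0, 2, 9, 10, 3, 4, 11, 12, 5, 6, 14, 17]),
  .x 8 18 (.cyc 8 [1, 0, 2, 9, 10, 3, 4, 11, 12, 5, 6, 14, 18]),
  .x 10 17 (.cyc 10 [3, 0, 7, 8, 1, 2, 4, 11, 12, 5, 6, 14, 17]),
  .x 10 18 (.cyc 10 [3, 0, 7, 8, 1, 2, 4, 11, 12, 5, 6, 14, 18]),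
  .x 11 17 (.cyc 11 [4, 0, 7, 8, 1, 2, 9, 10, 3, 5, 6, 14, 17]),
  .x 11 18 (.cyc 11 [4, 0, 7, 8, 1, 2, 9, 10, 3, 5, 6, 14, 18]),
  .x 12 17 (.cyc 12 [5, 0, 7, 8, 1, 2, 9, 10, 3, 4, 6, 14, 17]),
  .x 12 18 (.cyc 12 [5, 0, 7, 8, 1, 2, 9, 10, 3, 4, 6, 14, 18]),
  .x 13 17 (.cyc 13 [5, 0, 7, 8, 1, 2, 9, 10, 3, 4, 6, 14, 17]),
  .x 13 18 (.cyc 13 [5, 0, 7, 8, 1, 2, 9, 10, 3, 4, 6, 14, 18]),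
  .x 15 17 (.cyc 15 [1, 0, 2, 9, 10, 3, 4, 11, 12, 5, 6, 14, 17]),
  .x 15 18 (.cyc 15 [1, 0, 2, 9, 10, 3, 4, 11, 12, 5, 6, 14, 18]),
  .new2 9,
  .x 0 19 (.cyc 0 [1, 2, 4, 11, 12, 5, 13, 14, 6, 3, 10, 9, 19]),
  .x 0 20 (.cyc 0 [1, 2, 4, 11, 12, 5, 13, 14, 6, 3, 10, 9, 20]),
  .x 4 19 (.cyc 4 [0, 7, 8, 1, 2, 5, 13, 14, 6, 3, 10, 9, 19]),
  .x 7 19 (.cyc 7 [0, 1, 3, 4, 11, 12, 5, 13, 14, 6, 2, 9, 19]),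
  .x 8 19 (.cyc 8 [1, 0, 3, 4, 11, 12, 5, 13, 14, 6, 2, 9, 19]),
  .x 8 20 (.cyc 8 [1, 0, 3, 4, 11, 12, 5, 13, 14, 6, 2, 9, 20]),
  .x 10 19 (.cyc 10 [3, 0, 1, 4, 11, 12, 5, 13, 14, 6, 2, 9, 19]),
  .x 10 20 (.cyc 10 [3, 0, 1, 4, 11, 12, 5, 13, 14, 6, 2, 9, 20]),
  .x 11 19 (.cyc 11 [4, 0, 7, 8, 1, 3, 5, 13, 14, 6, 2, 9, 19]),
  .x 11 20 (.cyc 11 [4, 0, 7, 8, 1, 3, 5, 13, 14, 6, 2, 9, 20]),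
  .x 12 19 (.cyc 12 [5, 13, 14, 6, 0, 7, 8, 1, 2, 3, 10, 9, 19]),
  .x 12 20 (.cyc 12 [5, 13, 14, 6, 0, 7, 8, 1, 2, 3, 10, 9, 20]),
  .x 13 19 (.cyc 13 [5, 12, 11, 4, 0, 7, 8, 1, 2, 3, 10, 9, 19]),
  .x 13 20 (.cyc 13 [5, 12, 11, 4, 0, 7, 8, 1, 2, 3, 10, 9, 20]),
  .x 15 19 (.cyc 15 [1, 0, 3, 4, 11, 12, 5, 13, 14, 6, 2, 9, 19]),
  .x 15 20 (.cyc 15 [1, 0, 3, 4, 11, 12, 5, 13, 14, 6, 2, 9, 20]),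
  .x 17 19 (.cyc 17 [14, 6, 0, 1, 2, 4, 11, 12, 5, 3, 10, 9, 19]),
  .x 17 20 (.cyc 17 [14, 6, 0, 1, 2, 4, 11, 12, 5, 3, 10, 9, 20]),
  .x 18 19 (.cyc 18 [14, 6, 0, 1, 2, 4, 11, 12, 5, 3, 10, 9, 19]),
  .x 18 20 (.cyc 18 [14, 6, 0, 1, 2, 4, 11, 12, 5, 3, 10, 9, 20]),
  .new 2,
  .new2 7,
  .x 0 22 (.cyc 0 [2, 3, 4, 11, 12, 5, 13, 14, 6, 1, 8, 7, 22]),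
  .x 0 23 (.cyc 0 [2, 3, 4, 11, 12, 5, 13, 14, 6, 1, 8, 7, 23]),
  .x 8 22 (.cyc 8 [1, 2, 3, 4, 11, 12, 5, 13, 14, 6, 0, 7, 22]),
  .x 8 23 (.cyc 8 [1, 2, 3, 4, 11, 12, 5, 13, 14, 6, 0, 7, 23]),
  .x 10 22 (.cyc 10 [3, 0, 4, 11, 12, 5, 13, 14, 6, 1, 8, 7, 22]),
  .x 10 23 (.cyc 10 [3, 0, 4, 11, 12, 5, 13, 14, 6, 1, 8, 7, 23]),
  .x 12 22 (.cyc 12 [5, 13, 14, 6, 0, 2, 9, 10, 3, 1, 8, 7, 22]),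
  .x 12 23 (.cyc 12 [5, 13, 14, 6, 0, 2, 9, 10, 3, 1, 8, 7, 23]),
  .x 13 22 (.cyc 13 [5, 12, 11, 4, 0, 2, 9, 10, 3, 1, 8, 7, 22]),
  .x 13 23 (.cyc 13 [5, 12, 11, 4, 0, 2, 9, 10, 3, 1, 8, 7, 23]),
  .x 15 22 (.cyc 15 [1, 2, 3, 4, 11, 12, 5, 13, 14, 6, 0, 7, 22]),
  .x 15 23 (.cyc 15 [1, 2, 3, 4, 11, 12, 5, 13, 14, 6, 0, 7, 23]),
  .x 17 22 (.cyc 17 [14, 6, 0, 2, 3, 4, 11, 12, 5, 1, 8, 7, 22]),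
  .x 17 23 (.cyc 17 [14, 6, 0, 2, 3, 4, 11, 12, 5, 1, 8, 7, 23]),
  .x 18 22 (.cyc 18 [14, 6, 0, 2, 3, 4, 11, 12, 5, 1, 8, 7, 22]),
  .x 18 23 (.cyc 18 [14, 6, 0, 2, 3, 4, 11, 12, 5, 1, 8, 7, 23]),
  .x 19 22 (.cyc 19 [9, 2, 0, 3, 4, 5, 13, 14, 6, 1, 8, 7, 22]),
  .x 19 23 (.cyc 19 [9, 2, 0, 3, 4, 5, 13, 14, 6, 1, 8, 7, 23]),
  .x 20 22 (.cyc 20 [9, 2, 0, 3, 4, 5, 13, 14, 6, 1, 8, 7, 22]),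
  .x 20 23 (.cyc 20 [9, 2, 0, 3, 4, 5, 13, 14, 6, 1, 8, 7, 23]),
  .new 4,
  .new2 11,
  .x 0 25 (.cyc 0 [1, 2, 9, 10, 3, 4, 6, 14, 13, 5, 12, 11, 25]),
  .x 0 26 (.cyc 0 [1, 2, 9, 10, 3, 4, 6, 14, 13, 5, 12, 11, 26]),
  .x 8 25 (.cyc 8 [1, 0, 2, 9, 10, 3, 5, 13, 14, 6, 4, 11, 25]),
  .x 8 26 (.cyc 8 [1, 0, 2, 9, 10, 3, 5, 13, 14, 6, 4, 11, 26]),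
  .x 10 25 (.cyc 10 [3, 0, 7, 8, 1, 2, 5, 13, 14, 6, 4, 11, 25]),
  .x 10 26 (.cyc 10 [3, 0, 7, 8, 1, 2, 5, 13, 14, 6, 4, 11, 26]),
  .x 12 25 (.cyc 12 [5, 0, 7, 8, 1, 2, 9, 10, 3, 6, 4, 11, 25]),
  .x 12 26 (.cyc 12 [5, 0, 7, 8, 1, 2, 9, 10, 3, 6, 4, 11, 26]),
  .x 13 25 (.cyc 13 [5, 0, 7, 8, 1, 2, 9, 10, 3, 6, 4, 11, 25]),
  .x 13 26 (.cyc 13 [5, 0, 7, 8, 1, 2, 9, 10, 3, 6, 4, 11, 26]),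
  .x 15 25 (.cyc 15 [1, 0, 2, 9, 10, 3, 5, 13, 14, 6, 4, 11, 25]),
  .x 15 26 (.cyc 15 [1, 0, 2, 9, 10, 3, 5, 13, 14, 6, 4, 11, 26]),
  .x 17 25 (.cyc 17 [14, 6, 0, 1, 2, 9, 10, 3, 4, 5, 12, 11, 25]),
  .x 17 26 (.cyc 17 [14, 6, 0, 1, 2, 9, 10, 3, 4, 5, 12, 11, 26]),
  .x 18 25 (.cyc 18 [14, 6, 0, 1, 2, 9, 10, 3, 4, 5, 12, 11, 25]),
  .x 18 26 (.cyc 18 [14, 6, 0, 1, 2, 9, 10, 3, 4, 5, 12, 11, 26]),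
  .x 19 25 (.cyc 19 [9, 2, 0, 1, 3, 4, 6, 14, 13, 5, 12, 11, 25]),
  .x 19 26 (.cyc 19 [9, 2, 0, 1, 3, 4, 6, 14, 13, 5, 12, 11, 26]),
  .x 20 25 (.cyc 20 [9, 2, 0, 1, 3, 4, 6, 14, 13, 5, 12, 11, 25]),
  .x 20 26 (.cyc 20 [9, 2, 0, 1, 3, 4, 6, 14, 13, 5, 12, 11, 26]),
  .x 22 25 (.cyc 22 [7, 0, 1, 2, 3, 4, 6, 14, 13, 5, 12, 11, 25]),
  .x 22 26 (.cyc 22 [7, 0, 1, 2, 3, 4, 6, 14, 13, 5, 12, 11, 26]),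
  .x 23 25 (.cyc 23 [7, 0, 1, 2, 3, 4, 6, 14, 13, 5, 12, 11, 25]),
  .x 23 26 (.cyc 23 [7, 0, 1, 2, 3, 4, 6, 14, 13, 5, 12, 11, 26])]
 (.ind [0, 8, 10, 12, 13, 15, 17, 18, 19, 20, 22, 23, 25, 26])

def d_13_7 : List (Tm × Pf) := [(t_13_7_0, f_13_7_0), (t_13_7_1, f_13_7_1)]

theorem k_13_7 : killAll 13 7 d_13_7 [] = true := by decide +kernel

end Vale.Agent.P048
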